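import Vale.Agent.P095G.PartPS

/-! The trace of the exponential of a centred element. -/

namespace Vale.Agent.P095G

open Filter Topology Finset Vale.Agent.P101 Vale.Agent.P095 TopologicalSpace Rot EXPx

variable {D : Type} [CStarAlgebra D] {ρ : D →ₗ[ℂ] ℂ}

theorem sin_near {x : ℝ} (hx : |x| ≤ 1) : |Real.sin x - x| ≤ x ^ 2 / 4 := by
  have h1 := Real.sin_bound hx
  have h2 : |x| ^ 5 ≤ x ^ 2 := by
    rw [← sq_abs x]
    exact pow_le_pow_of_le_one (abs_nonneg x) hx (by norm_num)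
  have h3 : |x ^ 3| ≤ x ^ 2 := by
    rw [← sq_abs x, abs_pow]
    exact pow_le_pow_of_le_one (abs_nonneg x) hx (by norm_num)
  rw [abs_le] at h1 h3 ⊢
  constructor <;> linarith [h1.1, h1.2, h3.1, h3.2, sq_nonneg x]

theorem ex_zero (h : Tr ρ) {z : D} (hz : IsSelfAdjoint z) (h0 : ρ z = 0) {κ v : ℝ}
    (hκ : |κ| * ‖z‖ ≤ 1) (hv : v ≤ (ρ (z ^ 2)).re) : ‖ρ (ex κ z)‖ ≤ 1 - κ ^ 2 * v / 8 := by
  let _ := CStarAlgebra.spectralOrder D
  have _ := CStarAlgebra.spectralOrderedRing D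
  have _ : Nontrivial D := ⟨1, 0, fun e => by
    have := h.one
    rw [e, map_zero] at this
    exact zero_ne_one this⟩
  have hr : ∀ t ∈ spectrum ℝ z, |κ * t| ≤ 1 := fun t ht => by
    rw [abs_mul]
    exact (mul_le_mul_of_nonneg_left (spectrum.norm_le_norm_of_mem ht) (abs_nonneg κ)).trans hκ
  have q : ∀ a b c : ℝ, cfc (fun t : ℝ => a + b * t + c * t ^ 2) z =
      a • (1 : D) + b • z + c • z ^ 2 := fun a b c => by
    rw [cfc_add z _ _, cfc_add z _ _, cfc_const_mul _ _ z, cfc_const_mul _ _ z, cfc_id' ℝ z,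
      cfc_pow_id z 2, cfc_const a z, Algebra.algebraMap_eq_smul_one]
  have qr : ∀ a b c : ℝ, (ρ (cfc (fun t : ℝ => a + b * t + c * t ^ 2) z)).re =
      a + c * (ρ (z ^ 2)).re := fun a b c => by
    rw [q, map_add, map_add, Complex.add_re, Complex.add_re, re_smul, re_smul, re_smul, h.one, h0]
    simp
  have p1 : 0 ≤ cfc (fun t : ℝ => Real.cos (κ * t)) z := cfc_nonneg fun t ht =>
    Real.cos_nonneg_of_mem_Icc ⟨by linarith [(abs_le.1 (hr t ht)).1, Real.pi_gt_three],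
      by linarith [(abs_le.1 (hr t ht)).2, Real.pi_gt_three]⟩
  have p3 := h.mono (cfc_mono (a := z) (f := fun t : ℝ => Real.cos (κ * t))
    (g := fun t : ℝ => 1 + 0 * t + (-(κ ^ 2 / 5)) * t ^ 2) fun t ht => by
      have h2 := Real.cos_le_one_sub_mul_cos_sq (x := κ * t)
        (by linarith [hr t ht, Real.pi_gt_three])
      have h4 : (1 : ℝ) / 5 ≤ 2 / Real.pi ^ 2 := by
        rw [div_le_div_iff₀ (by norm_num) (by positivity)]
        nlinarith [Real.pi_lt_d2, Real.pi_pos]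
      nlinarith [sq_nonneg (κ * t)])
  have p4 := h.mono (cfc_mono (a := z) (f := fun t : ℝ => Real.sin (κ * t))
    (g := fun t : ℝ => 0 + κ * t + (κ ^ 2 / 4) * t ^ 2) fun t ht => by
      nlinarith [(abs_le.1 (sin_near (hr t ht))).2])
  have p5 := h.mono (cfc_mono (a := z) (g := fun t : ℝ => Real.sin (κ * t))
    (f := fun t : ℝ => 0 + κ * t + (-(κ ^ 2 / 4)) * t ^ 2) fun t ht => by
      nlinarith [(abs_le.1 (sin_near (hr t ht))).1])
  have p6 := h.mono (cfc_mono (a := z) (g := fun t : ℝ => 1 + 0 * t + 0 * t ^ 2)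
    (f := fun t : ℝ => 0 + 0 * t + κ ^ 2 * t ^ 2) fun t ht => by
      have := hr t ht
      rw [← sq_le_one_iff_abs_le_one] at this
      nlinarith)
  rw [qr] at p3 p4 p5
  rw [qr, qr] at p6
  have q1 := h.nonneg p1
  have q2 : (ρ (cfc (fun t : ℝ => Real.sin (κ * t)) z)).im = 0 := by
    have hs : IsSelfAdjoint (cfc (fun t : ℝ => Real.sin (κ * t)) z) := cfc_predicate _ _
    have := congrArg Complex.im (h.map_star' (cfc (fun t : ℝ => Real.sin (κ * t)) z))
    rw [hs.star_eq, RCLike.star_def, Complex.conj_im] at this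
    linarith
  have q3 := h.sq_nonneg' hz
  have q8 : κ ^ 2 * v ≤ κ ^ 2 * (ρ (z ^ 2)).re := mul_le_mul_of_nonneg_left hv (sq_nonneg _)
  have q9 : 0 ≤ κ ^ 2 * (ρ (z ^ 2)).re := mul_nonneg (sq_nonneg _) q3
  rw [ex_cos_sin hz, map_add, map_smul]
  generalize ρ (cfc (fun t : ℝ => Real.cos (κ * t)) z) = u at *
  generalize ρ (cfc (fun t : ℝ => Real.sin (κ * t)) z) = w at *
  have e : ∀ c : ℝ, c * κ ^ 2 * (ρ (z ^ 2)).re = c * (κ ^ 2 * (ρ (z ^ 2)).re) := fun c => by ring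
  obtain ⟨s, hs⟩ : ∃ s, s = κ ^ 2 * (ρ (z ^ 2)).re := ⟨_, rfl⟩
  have r1 : u.re ≤ 1 - s / 5 := by rw [hs]; linarith
  have r2 : w.re ≤ s / 4 := by rw [hs]; linarith
  have r3 : -(s / 4) ≤ w.re := by rw [hs]; linarith
  have r4 : s ≤ 1 := by rw [hs]; linarith
  rw [← hs] at q8 q9
  refine le_trans ?_ (show 1 - s / 8 ≤ _ by linarith)
  refine le_of_pow_le_pow_left₀ (n := 2) two_ne_zero (by linarith) ?_
  rw [Complex.sq_norm, Complex.normSq_apply]
  simp only [smul_eq_mul, Complex.add_re, Complex.add_im, Complex.mul_re, Complex.mul_im,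
    Complex.I_re, Complex.I_im, q1.2, q2]
  have r5 : w.re * w.re ≤ (s / 4) * (s / 4) := by nlinarith
  have r6 : u.re * u.re ≤ (1 - s / 5) * (1 - s / 5) := mul_self_le_mul_self q1.1 r1
  nlinarith

end Vale.Agent.P095G
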