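import Vale.Agent.P095G.PartFIN

/-! Cross terms of centered copies vanish. -/

namespace Vale.Agent.P095G

open Filter Topology Finset Vale.Agent.P101 Vale.Agent.P095 TopologicalSpace

variable {A D E F : Type} [CStarAlgebra A] [CStarAlgebra D] [CStarAlgebra E] [CStarAlgebra F]
  {G : Type} [Group G] {ρ : D →ₗ[ℂ] ℂ} {ω : Ultrafilter ℕ}

theorem cross {ι : Type} {θ : ι → D →⋆ₐ[ℂ] E} (hθ : Cm θ) {i j : ι} (hij : i ≠ j) {a : D}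
    (ha : ∀ ρ : D →ₗ[ℂ] ℂ, Tr ρ → ρ a = 0) (b : D) {τ : E →ₗ[ℂ] ℂ} (hτ : Tr τ) :
    τ (θ i a * θ j b) = 0 := by
  have := FIN.weight' hτ (θ i) (e := a) (z := 0) (δ := 0) le_rfl
    (fun ρ hρ => by rw [ha ρ hρ, sub_zero, norm_zero]) (c := θ j b)
    (fun d => hθ j i hij.symm b d) (fun d => by rw [← map_star]; exact hθ j i hij.symm _ d)
  rw [mul_zero, mul_zero, sub_zero, norm_le_zero_iff] at this
  rw [hτ.comm, this]

theorem var {ι : Type} [Fintype ι] {θ : ι → D →⋆ₐ[ℂ] E} (hθ : Cm θ) {a : D} {v : ℝ}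
    (ha : ∀ ρ : D →ₗ[ℂ] ℂ, Tr ρ → ρ a = 0) (hv : ∀ ρ : D →ₗ[ℂ] ℂ, Tr ρ → (ρ (a ^ 2)).re ≤ v)
    {τ : E →ₗ[ℂ] ℂ} (hτ : Tr τ) : (τ ((∑ j, θ j a) ^ 2)).re ≤ Fintype.card ι * v := by
  have h1 : τ ((∑ j, θ j a) ^ 2) = ∑ j, τ (θ j (a ^ 2)) := by
    rw [sq, sum_mul_sum, map_sum]
    refine sum_congr rfl fun i _ => ?_
    rw [map_sum, sum_eq_single i (fun j _ hj => cross hθ hj.symm ha a hτ)
      (fun h => (h (mem_univ i)).elim), sq, map_mul (θ i)]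
  rw [h1, Complex.re_sum, ← nsmul_eq_mul, ← card_univ]
  exact sum_le_card_nsmul univ _ _ fun j _ => hv _ (hτ.comp (θ j))

end Vale.Agent.P095G
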