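import Vale.Agent.P095G.PartTR

/-! Exponentials and traces. -/

namespace Vale.Agent.P095G

open Filter Topology Finset Vale.Agent.P101 Vale.Agent.P095 TopologicalSpace

variable {A D E F : Type} [CStarAlgebra A] [CStarAlgebra D] [CStarAlgebra E] [CStarAlgebra F]
  {G : Type} [Group G] {ρ : D →ₗ[ℂ] ℂ} {ω : Ultrafilter ℕ}

namespace EXPx

theorem skew {a : D} (ha : IsSelfAdjoint a) (t : ℝ) :
    star ((t * Complex.I : ℂ) • a) = -((t * Complex.I : ℂ) • a) := by
  rw [star_smul, ha.star_eq, ← neg_smul]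
  congr 1
  simp

theorem uni {a : D} (ha : IsSelfAdjoint a) (t : ℝ) : ex t a ∈ unitary D := by
  let _ : NormedAlgebra ℚ D := NormedAlgebra.restrictScalars ℚ ℂ D
  exact NormedSpace.exp_mem_unitary_of_mem_skewAdjoint (skewAdjoint.mem_iff.2 (skew ha t))

theorem star_ex {a : D} (ha : IsSelfAdjoint a) (t : ℝ) : star (ex t a) = ex (-t) a := by
  rw [NormedSpace.star_exp, skew ha t, ← neg_smul]
  congr 2
  simp

theorem ex_eq (a : D) (t : ℝ) : ex t a = NormedSpace.exp (t • (Complex.I • a)) := by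
  rw [ex, mul_smul, Complex.coe_smul]

theorem ex_neg_eq (a : D) (t : ℝ) : ex (-t) a = NormedSpace.exp (t • (-(Complex.I • a))) := by
  rw [ex_eq, neg_smul, smul_neg]

theorem norm_le_one {u : D} (hu : u ∈ unitary D) : ‖u‖ ≤ 1 := by
  rcases subsingleton_or_nontrivial D with h | h
  · rw [Subsingleton.elim u 0, norm_zero]
    exact zero_le_one
  · exact (CStarRing.norm_of_mem_unitary hu).le

theorem near (h : Tr ρ) {a b : D} (ha : IsSelfAdjoint a) (hb : IsSelfAdjoint b) {c : ℝ}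
    (hc : ∀ x, ‖ρ (x * (a - b))‖ ≤ ‖x‖ * c) : ‖ρ (ex (-1) a * ex 1 b) - 1‖ ≤ c := by
  have hc0 : 0 ≤ c := by
    have h1 := hc 1
    have h2 : (1 : ℝ) ≤ ‖(1 : D)‖ := by simpa [h.one] using h.norm_le 1
    by_contra h3
    push Not at h3
    nlinarith [norm_nonneg (ρ (1 * (a - b)))]
  let L : D →L[ℂ] ℂ := ρ.mkContinuous 1 fun x => by simpa using h.norm_le x
  let L' : D →L[ℝ] ℂ := L.restrictScalars ℝ
  have hL : ∀ x, L' x = ρ x := fun x => rfl
  have hd : ∀ t : ℝ, HasDerivAt (fun u : ℝ => ρ (ex (-u) a * ex u b))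
      (ρ (ex (-t) a * -(Complex.I • a) * ex t b + ex (-t) a * (Complex.I • b * ex t b))) t := by
    intro t
    have h1 := hasDerivAt_exp_smul_const (𝕂 := ℝ) (-(Complex.I • a)) t
    have h2 := hasDerivAt_exp_smul_const' (𝕂 := ℝ) (Complex.I • b) t
    have h3 := L'.hasFDerivAt.comp_hasDerivAt t (h1.mul h2)
    simp only [ex_neg_eq, ex_eq b]
    exact h3
  have hb' : ∀ t : ℝ, ‖ρ (ex (-t) a * -(Complex.I • a) * ex t b +
      ex (-t) a * (Complex.I • b * ex t b))‖ ≤ c := by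
    intro t
    have e1 : ex (-t) a * -(Complex.I • a) * ex t b + ex (-t) a * (Complex.I • b * ex t b)
        = (-Complex.I) • (ex (-t) a * (a - b) * ex t b) := by
      simp only [mul_neg, neg_mul, mul_smul_comm, smul_mul_assoc, mul_sub, sub_mul, smul_sub,
        neg_smul, mul_assoc]
      abel
    rw [e1, map_smul, norm_smul, norm_neg, Complex.norm_I, one_mul, h.comm, ← mul_assoc]
    refine (hc _).trans ?_
    exact mul_le_of_le_one_left hc0 (norm_le_one (mul_mem (uni hb t) (uni ha (-t))))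
  have := norm_image_sub_le_of_norm_deriv_le_segment_01'
    (f := fun u : ℝ => ρ (ex (-u) a * ex u b)) (fun t _ => (hd t).hasDerivWithinAt)
    (fun t _ => hb' t)
  have z : ∀ x : D, ex 0 x = 1 := fun x => by simp [ex]
  simpa [z, h.one] using this

theorem ex_cos_sin {w : D} (hw : IsSelfAdjoint w) (κ : ℝ) : ex κ w =
    cfc (fun t : ℝ => Real.cos (κ * t)) w + Complex.I • cfc (fun t : ℝ => Real.sin (κ * t)) w := by
  have hn : IsStarNormal w := hw.isStarNormal
  have e1 : ex κ w = cfc (fun z : ℂ => Complex.exp ((κ * Complex.I : ℂ) • z)) w := by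
    rw [cfc_comp_smul (κ * Complex.I : ℂ) Complex.exp w,
      CFC.complex_exp_eq_normedSpace_exp]
  have c1 : Continuous fun z : ℂ => ((Real.cos (κ * z.re) : ℝ) : ℂ) := by fun_prop
  have c2 : Continuous fun z : ℂ => ((Real.sin (κ * z.re) : ℝ) : ℂ) := by fun_prop
  have c3 : Continuous fun z : ℂ => Complex.I • ((Real.sin (κ * z.re) : ℝ) : ℂ) := by fun_prop
  rw [e1, cfc_real_eq_complex _ hw, cfc_real_eq_complex _ hw,
    ← cfc_smul Complex.I _ w c2.continuousOn, ← cfc_add w _ _ c1.continuousOn c3.continuousOn]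
  refine cfc_congr fun z hz => ?_
  have hz' : z = (z.re : ℂ) := (hw.mem_spectrum_eq_re hz)
  obtain ⟨r, rfl⟩ : ∃ r : ℝ, z = r := ⟨_, hz'⟩
  simp only [smul_eq_mul, Complex.ofReal_re]
  rw [show (κ * Complex.I * r : ℂ) = ((κ * r : ℝ) : ℂ) * Complex.I by push_cast; ring,
    Complex.exp_mul_I]
  push_cast
  ring

end EXPx

open EXPx

theorem ex_diff (h : Tr ρ) {a b : D} (ha : IsSelfAdjoint a) (hb : IsSelfAdjoint b) {c : ℝ}
    (hc : ∀ x, ‖ρ (x * (a - b))‖ ≤ ‖x‖ * c) :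
    (ρ (star (ex 1 a - ex 1 b) * (ex 1 a - ex 1 b))).re ≤ 2 * c := by
  have h1 := near h ha hb hc
  have h2 := near h hb ha (c := c) fun x => by
    rw [← neg_sub, mul_neg, map_neg, norm_neg]
    exact hc x
  have e1 : star (ex 1 a - ex 1 b) * (ex 1 a - ex 1 b)
      = 1 + 1 - ex (-1) a * ex 1 b - ex (-1) b * ex 1 a := by
    rw [star_sub, sub_mul, mul_sub, mul_sub, (Unitary.mem_iff.1 (uni ha 1)).1,
      (Unitary.mem_iff.1 (uni hb 1)).1, star_ex ha, star_ex hb]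
    abel
  rw [e1, map_sub, map_sub, map_add, h.one]
  have h3 := (Complex.abs_re_le_norm _).trans h1
  have h4 := (Complex.abs_re_le_norm _).trans h2
  simp only [Complex.sub_re, Complex.add_re, Complex.one_re] at h3 h4 ⊢
  linarith [(abs_le.1 h3).1, (abs_le.1 h4).1]

theorem ex_one (h : Tr ρ) {y : D} (hy : Ctr y) {κ δ b : ℝ} (h0 : 0 ≤ κ) (h1 : κ ≤ 1)
    (hδ : δ ≤ (ρ y).re) (hb : (ρ (rt y)).re ≤ b) :
    ‖ρ (ex κ (rt y))‖ ^ 2 ≤ 1 - κ ^ 2 * δ / 5 + κ ^ 2 * b ^ 2 := by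
  let _ := CStarAlgebra.spectralOrder D
  have _ := CStarAlgebra.spectralOrderedRing D
  have hs : IsSelfAdjoint y := hy.1
  have hw : IsSelfAdjoint (rt y) := cfc_predicate _ _
  have c1 : Continuous fun t : ℝ => Real.cos (κ * t) := by fun_prop
  have c2 : Continuous fun t : ℝ => Real.sin (κ * t) := by fun_prop
  have e1 : cfc (fun t : ℝ => Real.cos (κ * t)) (rt y)
      = cfc (fun t : ℝ => Real.cos (κ * √t)) y :=
    (cfc_comp' (fun t : ℝ => Real.cos (κ * t)) Real.sqrt y c1.continuousOn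
      Real.continuous_sqrt.continuousOn hs).symm
  have e2 : cfc (fun t : ℝ => Real.sin (κ * t)) (rt y)
      = cfc (fun t : ℝ => Real.sin (κ * √t)) y :=
    (cfc_comp' (fun t : ℝ => Real.sin (κ * t)) Real.sqrt y c2.continuousOn
      Real.continuous_sqrt.continuousOn hs).symm
  have hr : ∀ t ∈ spectrum ℝ y, 0 ≤ κ * √t ∧ κ * √t ≤ 1 := fun t ht =>
    ⟨mul_nonneg h0 (Real.sqrt_nonneg t),
      mul_le_one₀ h1 (Real.sqrt_nonneg t) (Real.sqrt_le_one.2 (hy.2 ht).2)⟩
  have p1 : 0 ≤ cfc (fun t : ℝ => Real.cos (κ * √t)) y := cfc_nonneg fun t ht =>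
    Real.cos_nonneg_of_mem_Icc ⟨by linarith [(hr t ht).1, Real.pi_pos],
      by linarith [(hr t ht).2, Real.pi_gt_three]⟩
  have p2 : 0 ≤ cfc (fun t : ℝ => Real.sin (κ * √t)) y := cfc_nonneg fun t ht =>
    Real.sin_nonneg_of_nonneg_of_le_pi (hr t ht).1 (by linarith [(hr t ht).2, Real.pi_gt_three])
  have p3 : cfc (fun t : ℝ => Real.cos (κ * √t)) y ≤ 1 - (κ ^ 2 / 5) • y := by
    have : (1 : D) - (κ ^ 2 / 5) • y = cfc (fun t : ℝ => 1 - (κ ^ 2 / 5) • t) y := by
      rw [cfc_sub _ _ y, cfc_const_one ℝ y, cfc_smul _ _ y, cfc_id' ℝ y]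
    rw [this]
    refine cfc_mono fun t ht => ?_
    have h2 := Real.cos_le_one_sub_mul_cos_sq (x := κ * √t)
      (by rw [abs_of_nonneg (hr t ht).1]; linarith [(hr t ht).2, Real.pi_gt_three])
    have h3 : (κ * √t) ^ 2 = κ ^ 2 * t := by rw [mul_pow, Real.sq_sqrt (hy.2 ht).1]
    have h4 : (1 : ℝ) / 5 ≤ 2 / Real.pi ^ 2 := by
      rw [div_le_div_iff₀ (by norm_num) (by positivity)]
      nlinarith [Real.pi_lt_d2, Real.pi_pos]
    have h5 : 0 ≤ κ ^ 2 * t := mul_nonneg (sq_nonneg _) (hy.2 ht).1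
    rw [h3] at h2
    simp only [smul_eq_mul]
    nlinarith
  have p4 : cfc (fun t : ℝ => Real.sin (κ * √t)) y ≤ κ • rt y := by
    rw [← cfc_smul κ Real.sqrt y]
    exact cfc_mono fun t ht => Real.sin_le (hr t ht).1
  have p5 : cfc (fun t : ℝ => Real.cos (κ * √t)) y ≤ 1 := cfc_le_one _ _ fun t _ => Real.cos_le_one _
  rw [ex_cos_sin hw, e1, e2, map_add, map_smul]
  have q1 := h.nonneg p1
  have q2 := h.nonneg p2
  have q3 := h.mono p3
  have q4 := h.mono p4
  have q5 := h.mono p5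
  rw [map_sub, h.one, ← Complex.coe_smul, map_smul] at q3
  rw [← Complex.coe_smul, map_smul] at q4
  rw [h.one] at q5
  simp only [smul_eq_mul, Complex.sub_re, Complex.one_re, Complex.re_ofReal_mul] at q3 q4 q5
  generalize ρ (cfc (fun t : ℝ => Real.cos (κ * √t)) y) = u at *
  generalize ρ (cfc (fun t : ℝ => Real.sin (κ * √t)) y) = v at *
  rw [Complex.sq_norm, Complex.normSq_apply]
  simp only [smul_eq_mul, Complex.add_re, Complex.add_im, Complex.mul_re, Complex.mul_im,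
    Complex.I_re, Complex.I_im, q1.2, q2.2]
  have q6 : v.re ≤ κ * b := q4.trans (mul_le_mul_of_nonneg_left hb h0)
  have q7 : v.re * v.re ≤ (κ * b) * (κ * b) := mul_self_le_mul_self q2.1 q6
  have q8 : κ ^ 2 * δ ≤ κ ^ 2 * (ρ y).re := mul_le_mul_of_nonneg_left hδ (sq_nonneg _)
  nlinarith [q1.1]

theorem ex_sum {ι : Type} [Fintype ι] {θ : ι → D →⋆ₐ[ℂ] E} (hθ : Cm θ) (t : ℝ) (w : D) :
    ex t (∑ j, θ j w) = Ten hθ fun _ => ex t w := by
  let _ : NormedAlgebra ℚ D := NormedAlgebra.restrictScalars ℚ ℂ D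
  let _ : NormedAlgebra ℚ E := NormedAlgebra.restrictScalars ℚ ℂ E
  have e1 : (t * Complex.I : ℂ) • ∑ j, θ j w = ∑ j, θ j ((t * Complex.I : ℂ) • w) := by
    rw [Finset.smul_sum]
    exact Finset.sum_congr rfl fun j _ => (map_smul _ _ _).symm
  rw [ex, e1, NormedSpace.exp_sum_of_commute _ _ fun i _ j _ hij => hθ i j hij _ _]
  refine Finset.noncommProd_congr rfl (fun j _ => ?_) _
  exact (NormedSpace.map_exp (θ j) (AddMonoidHomClass.continuous_of_bound (θ j) 1 fun x => by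
    simpa using NonUnitalStarAlgHom.norm_apply_le (θ j) x) _).symm

end Vale.Agent.P095G
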