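import Vale.Agent.P095G.PartROT
import Vale.Agent.P095G.PartEXP

/-! Two-norm estimates: Powers-Stormer and exponentials. -/

namespace Vale.Agent.P095G

open Filter Topology Finset Vale.Agent.P101 Vale.Agent.P095 TopologicalSpace Rot

variable {D : Type} [CStarAlgebra D] {ρ : D →ₗ[ℂ] ℂ}

theorem Tr.mul_nonneg' [PartialOrder D] [StarOrderedRing D] (h : Tr ρ) {a b : D} (ha : 0 ≤ a)
    (hb : 0 ≤ b) : 0 ≤ (ρ (a * b)).re := by
  have h1 := (h.nonneg (star_left_conjugate_nonneg hb (rt a))).1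
  rwa [(rt_nonneg a).isSelfAdjoint.star_eq, h.comm, ← mul_assoc, rt_mul ha] at h1

theorem Tr.sq_nonneg' (h : Tr ρ) {x : D} (hx : IsSelfAdjoint x) : 0 ≤ (ρ (x ^ 2)).re := by
  have := (h.pos x).1
  rwa [hx.star_eq, ← sq] at this

theorem sq_add (h : Tr ρ) {x y : D} (hx : IsSelfAdjoint x) (hy : IsSelfAdjoint y) :
    (ρ ((x + y) ^ 2)).re ≤ 2 * (ρ (x ^ 2)).re + 2 * (ρ (y ^ 2)).re := by
  have h1 := h.sq_nonneg' (hx.sub hy)
  have e : (x + y) ^ 2 + (x - y) ^ 2 = x ^ 2 + x ^ 2 + (y ^ 2 + y ^ 2) := by noncomm_ring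
  have e' := congrArg (fun z => (ρ z).re) e
  simp only [map_add, Complex.add_re] at e'
  linarith

theorem sq_sub (h : Tr ρ) {x y : D} (hx : IsSelfAdjoint x) (hy : IsSelfAdjoint y) :
    (ρ ((x - y) ^ 2)).re ≤ 2 * (ρ (x ^ 2)).re + 2 * (ρ (y ^ 2)).re := by
  have := sq_add h hx hy.neg
  rwa [neg_sq, ← sub_eq_add_neg] at this

theorem ps_mono [PartialOrder D] [StarOrderedRing D] (h : Tr ρ) {a r : D} (ha : 0 ≤ a)
    (hr : 0 ≤ r) : (ρ ((rt (a + r) - rt a) ^ 2)).re ≤ (ρ r).re := by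
  have h1 := h.mul_nonneg' (sub_nonneg.2 (rt_mono ha (le_add_of_nonneg_right hr))) (rt_nonneg a)
  have e1 := rt_mul ha
  have e2 := rt_mul (add_nonneg ha hr)
  generalize rt (a + r) = C at h1 e2 ⊢
  generalize rt a = A at h1 e1 ⊢
  have e3 : r = C * C - A * A := by rw [e1, e2, add_sub_cancel_left]
  have e4 : (C - A) ^ 2 = C * C - C * A - (A * C - A * A) := by noncomm_ring
  rw [sub_mul, map_sub, Complex.sub_re] at h1
  rw [e3, e4]
  simp only [map_sub, Complex.sub_re, h.comm A C]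
  linarith

theorem ps [PartialOrder D] [StarOrderedRing D] (h : Tr ρ) {a b r r' : D} (ha : 0 ≤ a)
    (hb : 0 ≤ b) (hr : 0 ≤ r) (hr' : 0 ≤ r') (e : a + r = b + r') :
    (ρ ((rt a - rt b) ^ 2)).re ≤ 2 * (ρ r).re + 2 * (ρ r').re := by
  have e1 : rt a - rt b = (rt (b + r') - rt b) - (rt (a + r) - rt a) := by
    rw [e]; abel
  have s : ∀ x y : D, IsSelfAdjoint (rt x - rt y) := fun x y =>
    (rt_nonneg x).isSelfAdjoint.sub (rt_nonneg y).isSelfAdjoint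
  rw [e1]
  linarith [sq_sub h (s (b + r') b) (s (a + r) a), ps_mono h ha hr, ps_mono h hb hr']

theorem Tr.mul_two (h : Tr ρ) (x : D) {d : D} (hd : IsSelfAdjoint d) {c : ℝ} (hc : 0 ≤ c)
    (h1 : (ρ (d ^ 2)).re ≤ c ^ 2) : ‖ρ (x * d)‖ ≤ ‖x‖ * c := by
  have h2 := h.cs (star x) d
  rw [star_star, hd.star_eq, ← sq d] at h2
  have h3 : (ρ (x * star x)).re ≤ ‖x‖ ^ 2 :=
    (Complex.re_le_norm _).trans ((h.norm_le _).trans_eq (by
      rw [CStarRing.norm_self_mul_star, sq]))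
  refine (pow_le_pow_iff_left₀ (norm_nonneg _) (by positivity) two_ne_zero).1 (h2.trans ?_)
  rw [mul_pow]
  exact mul_le_mul h3 h1 (h.sq_nonneg' hd) (sq_nonneg _)

theorem ex_diff2 (h : Tr ρ) {a b : D} (ha : IsSelfAdjoint a) (hb : IsSelfAdjoint b) {c : ℝ}
    (hc : 0 ≤ c) (h1 : (ρ ((a - b) ^ 2)).re ≤ c ^ 2) :
    (ρ (star (ex 1 a - ex 1 b) * (ex 1 a - ex 1 b))).re ≤ 2 * c :=
  ex_diff h ha hb fun x => h.mul_two x (ha.sub hb) hc h1

end Vale.Agent.P095G
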