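import Vale.Agent.P095G.PartROT

/-! Part AVG: averages over almost invariant sets. -/

namespace Vale.Agent.P095G

open Filter Topology Finset Vale.Agent.P101 Vale.Agent.P095 TopologicalSpace

variable {A D E F : Type} [CStarAlgebra A] [CStarAlgebra D] [CStarAlgebra E] [CStarAlgebra F]
  {G : Type} [Group G] {ρ : D →ₗ[ℂ] ℂ} {ω : Ultrafilter ℕ}

namespace AVG

lemma re_smul (ρ : D →ₗ[ℂ] ℂ) (c : ℝ) (x : D) : (ρ (c • x)).re = c * (ρ x).re := by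
  rw [← Complex.coe_smul, map_smul, smul_eq_mul, Complex.re_ofReal_mul]

lemma rt_smul {c : ℝ} (hc : 0 ≤ c) {x : D} (hx : IsSelfAdjoint x) : rt (c • x) = √c • rt x := by
  rw [rt, ← cfc_comp_smul c Real.sqrt x, rt, ← cfc_smul (√c) Real.sqrt x]
  exact cfc_congr fun t _ => Real.sqrt_mul hc t

lemma tr_eqv (h : Tr ρ) (e : D ≃⋆ₐ[ℂ] D) : ∃ ρ' : D →ₗ[ℂ] ℂ, Tr ρ' ∧ (∀ x, ρ' x = ρ (e x)) ∧
    ∀ x, IsSelfAdjoint x → ρ' (rt x) = ρ (rt (e x)) :=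
  ⟨_, h.comp (e : D →⋆ₐ[ℂ] D), fun _ => rfl, fun x hx => congrArg ρ
    (StarAlgHomClass.map_cfc (e : D →⋆ₐ[ℂ] D) Real.sqrt x Real.continuous_sqrt.continuousOn
      (U2.hom_cont _) hx (hx.map _))⟩

variable [PartialOrder D] [StarOrderedRing D]

lemma ctr_iff {x : D} : Ctr x ↔ 0 ≤ x ∧ x ≤ 1 :=
  ⟨fun h => ⟨(StarOrderedRing.nonneg_iff_spectrum_nonneg (R := ℝ) x h.1).2 fun _ ht => (h.2 ht).1,
    (CFC.le_one_iff (R := ℝ) x h.1).2 fun _ ht => (h.2 ht).2⟩, fun h => ⟨h.1.isSelfAdjoint,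
      fun _ ht => ⟨spectrum_nonneg_of_nonneg h.1 ht,
        (CFC.le_one_iff (R := ℝ) x h.1.isSelfAdjoint).1 h.2 _ ht⟩⟩⟩

lemma pos_map (e : D ≃⋆ₐ[ℂ] D) {x : D} (hx : 0 ≤ x) : 0 ≤ e x := by
  rw [← CFC.sqrt_mul_sqrt_self x, map_mul]
  exact ((CFC.sqrt_nonneg x).isSelfAdjoint.map e).mul_self_nonneg

lemma bnd (h : Tr ρ) {ι : Type} {L : ℕ} (s t : Finset ι) {a b : ι → D} {δ η : ℝ}
    (ha : ∀ i ∈ s, 0 ≤ a i ∧ (ρ (rt (a i))).re ≤ δ) (hb : ∀ i ∈ t, 0 ≤ b i ∧ (ρ (rt (b i))).re ≤ η) :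
    (ρ (rt ((L : ℝ)⁻¹ • (∑ i ∈ s, a i + ∑ i ∈ t, b i)))).re ≤ (s.card * δ + t.card * η) / √L := by
  have h0 : 0 ≤ ∑ i ∈ s, a i + ∑ i ∈ t, b i :=
    add_nonneg (sum_nonneg fun i hi => (ha i hi).1) (sum_nonneg fun i hi => (hb i hi).1)
  have h1 := rot h (s.disjSum t) (a := Sum.elim a b) (by
    rintro (i | i) hi
    · exact (ha i (inl_mem_disjSum.1 hi)).1
    · exact (hb i (inr_mem_disjSum.1 hi)).1)
  rw [sum_disjSum, sum_disjSum] at h1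
  have h2 := sum_le_card_nsmul s _ δ fun i hi => (ha i hi).2
  have h3 := sum_le_card_nsmul t _ η fun i hi => (hb i hi).2
  rw [nsmul_eq_mul] at h2 h3
  rw [rt_smul (by positivity) h0.isSelfAdjoint, re_smul, Real.sqrt_inv, div_eq_inv_mul]
  exact mul_le_mul_of_nonneg_left (h1.trans (add_le_add h2 h3)) (by positivity)

end AVG

open AVG

theorem avg [PartialOrder D] [StarOrderedRing D] (β : G →* (D ≃⋆ₐ[ℂ] D)) {p : D} (hp : Ctr p)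
    {δ η : ℝ} (hη : 0 ≤ η) (h1 : ∀ ρ : D →ₗ[ℂ] ℂ, Tr ρ → (ρ (rt p)).re ≤ δ) {L : ℕ} (hL : 0 < L)
    (h : Fin L → G) (g : G) (J : Finset (Fin L)) (φ : Fin L → Fin L) (hφ : Set.InjOn φ J)
    (h2 : ∀ ρ : D →ₗ[ℂ] ℂ, Tr ρ → ∀ i ∈ J, (ρ ((β ((h (φ i))⁻¹ * g * h i) p - p) ^ 2)).re ≤ η ^ 4) :
    ∃ r r' : D, 0 ≤ r ∧ 0 ≤ r' ∧ (L : ℝ)⁻¹ • ∑ i, β (h i) p + r =
      β g ((L : ℝ)⁻¹ • ∑ i, β (h i) p) + r' ∧ ∀ ρ : D →ₗ[ℂ] ℂ, Tr ρ →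
        (ρ (rt r)).re + (ρ (rt r')).re ≤ 2 * (((L : ℝ) - J.card) * δ + L * η) / Real.sqrt L := by
  have p0 : 0 ≤ p := (ctr_iff.1 hp).1
  choose u v hu hv e hq using fun i : Fin L =>
    quarter (d := β ((h (φ i))⁻¹ * g * h i) p - p) ((hp.1.map _).sub hp.1)
  have c0 : (0 : ℝ) ≤ (L : ℝ)⁻¹ := by positivity
  have bp : ∀ ρ : D →ₗ[ℂ] ℂ, Tr ρ → ∀ k, 0 ≤ β k p ∧ (ρ (rt (β k p))).re ≤ δ := fun ρ hρ k => by
    obtain ⟨ρ', a1, -, a2⟩ := tr_eqv hρ (β k)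
    exact ⟨pos_map _ p0, by rw [← a2 p hp.1]; exact h1 ρ' a1⟩
  refine ⟨(L : ℝ)⁻¹ • (∑ i ∈ Jᶜ, β (g * h i) p + ∑ i ∈ J, β (h (φ i)) (u i)),
    (L : ℝ)⁻¹ • (∑ i ∈ (J.image φ)ᶜ, β (h i) p + ∑ i ∈ J, β (h (φ i)) (v i)),
    smul_nonneg c0 (add_nonneg (sum_nonneg fun i _ => pos_map _ p0)
      (sum_nonneg fun i _ => pos_map _ (hu i))),
    smul_nonneg c0 (add_nonneg (sum_nonneg fun i _ => pos_map _ p0)
      (sum_nonneg fun i _ => pos_map _ (hv i))), ?_, fun ρ hρ => ?_⟩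
  · have e1 : β g ((L : ℝ)⁻¹ • ∑ i, β (h i) p) = (L : ℝ)⁻¹ • ∑ i, β (g * h i) p := by
      rw [← Complex.coe_smul, map_smul, map_sum, Complex.coe_smul]
      simp only [map_mul]
      rfl
    have e2 : ∑ i ∈ J, β (g * h i) p = ∑ i ∈ J, β (h (φ i)) p +
        (∑ i ∈ J, β (h (φ i)) (u i) - ∑ i ∈ J, β (h (φ i)) (v i)) := by
      rw [← sum_sub_distrib, ← sum_add_distrib]
      refine sum_congr rfl fun i _ => ?_
      rw [← map_sub, ← e, ← map_add, add_sub_cancel]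
      show _ = (β (h (φ i)) * β ((h (φ i))⁻¹ * g * h i)) p
      rw [← map_mul, mul_assoc, mul_inv_cancel_left]
    rw [e1, ← smul_add, ← smul_add, ← sum_add_sum_compl J fun i => β (g * h i) p, e2,
      ← sum_add_sum_compl (J.image φ) fun i => β (h i) p, sum_image hφ]
    congr 1
    abel
  · have bu : ∀ i ∈ J, (ρ (rt (β (h (φ i)) (u i)))).re ≤ η ∧
        (ρ (rt (β (h (φ i)) (v i)))).re ≤ η := fun i hi => by
      obtain ⟨ρ', a1, -, a2⟩ := tr_eqv hρ (β (h (φ i)))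
      rw [← a2 _ (hu i).isSelfAdjoint, ← a2 _ (hv i).isSelfAdjoint]
      exact hq i ρ' η a1 hη (h2 ρ' a1 i hi)
    have b1 := bnd (L := L) hρ Jᶜ J (fun i _ => bp ρ hρ (g * h i))
      fun i hi => ⟨pos_map _ (hu i), (bu i hi).1⟩
    have b2 := bnd (L := L) hρ (J.image φ)ᶜ J (fun i _ => bp ρ hρ (h i))
      fun i hi => ⟨pos_map _ (hv i), (bu i hi).2⟩
    have hJ : J.card ≤ L := (card_le_univ J).trans_eq (Fintype.card_fin L)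
    rw [card_compl, Fintype.card_fin, Nat.cast_sub hJ] at b1
    rw [card_compl, card_image_of_injOn hφ, Fintype.card_fin, Nat.cast_sub hJ] at b2
    have b3 : (((L : ℝ) - J.card) * δ + J.card * η) / √L ≤
        (((L : ℝ) - J.card) * δ + L * η) / √L := by gcongr
    rw [mul_div_assoc]
    linarith

theorem avg_basic (β : G →* (D ≃⋆ₐ[ℂ] D)) {p : D} (hp : Ctr p) {δ δ' : ℝ}
    (h1 : ∀ ρ : D →ₗ[ℂ] ℂ, Tr ρ → δ' ≤ (ρ p).re ∧ (ρ (rt p)).re ≤ δ) {L : ℕ} (hL : 0 < L)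
    (h : Fin L → G) : Ctr ((L : ℝ)⁻¹ • ∑ i, β (h i) p) ∧ ∀ ρ : D →ₗ[ℂ] ℂ, Tr ρ →
      δ' ≤ (ρ ((L : ℝ)⁻¹ • ∑ i, β (h i) p)).re ∧
        (ρ (rt ((L : ℝ)⁻¹ • ∑ i, β (h i) p))).re ≤ Real.sqrt L * δ := by
  let _ := CStarAlgebra.spectralOrder D
  have _ := CStarAlgebra.spectralOrderedRing D
  have L0 : (0 : ℝ) < L := Nat.cast_pos.2 hL
  have c0 : (0 : ℝ) ≤ (L : ℝ)⁻¹ := by positivity
  have bp : ∀ k, 0 ≤ β k p ∧ β k p ≤ 1 := fun k => ctr_iff.1 (hp.map (β k : D →⋆ₐ[ℂ] D))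
  refine ⟨ctr_iff.2 ⟨smul_nonneg c0 (sum_nonneg fun i _ => (bp _).1), ?_⟩, fun ρ hρ => ⟨?_, ?_⟩⟩
  · refine (smul_le_smul_of_nonneg_left (sum_le_sum fun i _ => (bp (h i)).2) c0).trans_eq ?_
    rw [sum_const, card_univ, Fintype.card_fin, ← Nat.cast_smul_eq_nsmul ℝ, inv_smul_smul₀ L0.ne']
  · rw [re_smul, map_sum, Complex.re_sum, ← div_eq_inv_mul, le_div_iff₀ L0]
    have := card_nsmul_le_sum univ (fun i => (ρ (β (h i) p)).re) δ' fun i _ => by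
      obtain ⟨ρ', a1, a2, -⟩ := tr_eqv hρ (β (h i))
      rw [← a2]
      exact (h1 ρ' a1).1
    rwa [card_univ, Fintype.card_fin, nsmul_eq_mul, mul_comm] at this
  · have := bnd (L := L) (η := 0) (b := fun _ => 0) hρ univ ∅ (fun i _ => ⟨(bp (h i)).1, by
      obtain ⟨ρ', a1, -, a2⟩ := tr_eqv hρ (β (h i))
      rw [← a2 p hp.1]
      exact (h1 ρ' a1).2⟩) fun i hi => absurd hi (notMem_empty i)
    rw [sum_empty, add_zero, mul_zero, add_zero, card_univ, Fintype.card_fin] at this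
    refine this.trans_eq ?_
    rw [mul_div_right_comm, Real.div_sqrt]

end Vale.Agent.P095G
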