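import Vale.Agent.P095G.PartTR

/-! Dividing the circle. -/

namespace Vale.Agent.P095G

open Filter Topology Finset Vale.Agent.P101 Vale.Agent.P095 TopologicalSpace MeasureTheory

variable {D : Type} [CStarAlgebra D] {ρ : D →ₗ[ℂ] ℂ}

namespace CI

instance : Fact (0 < 2 * Real.pi) := ⟨Real.two_pi_pos⟩

/-- the circle -/
abbrev Ci : Type := AddCircle (2 * Real.pi)

/-- square of the 2-norm -/
noncomputable def Q (ρ : D →ₗ[ℂ] ℂ) (x : D) : ℝ := (ρ (star x * x)).re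

lemma Q_add (h : Tr ρ) (x y : D) : Q ρ (x + y) ≤ 2 * Q ρ x + 2 * Q ρ y := by
  have e : star (x + y) * (x + y) + star (x - y) * (x - y) =
      star x * x + star x * x + (star y * y + star y * y) := by
    rw [star_add, star_sub]; noncomm_ring
  have := congrArg (fun z => (ρ z).re) e
  simp only [map_add, Complex.add_re] at this
  have h2 := (h.pos (x - y)).1
  unfold Q
  linarith

lemma Q_left (h : Tr ρ) (a x : D) : Q ρ (a * x) ≤ ‖a‖ ^ 2 * Q ρ x := by
  let _ := CStarAlgebra.spectralOrder D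
  have := CStarAlgebra.spectralOrderedRing D
  have h1 := h.mono (CStarAlgebra.star_left_conjugate_le_norm_smul (a := x)
    (IsSelfAdjoint.star_mul_self a))
  rw [CStarRing.norm_star_mul_self, ← Complex.coe_smul, map_smul, smul_eq_mul,
    Complex.re_ofReal_mul] at h1
  unfold Q
  rw [star_mul, sq]
  simpa only [mul_assoc] using h1

lemma Q_star (h : Tr ρ) (x : D) : Q ρ (star x) = Q ρ x := by
  unfold Q
  rw [star_star, h.comm]

lemma Q_right (h : Tr ρ) (x a : D) : Q ρ (x * a) ≤ ‖a‖ ^ 2 * Q ρ x := by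
  rw [← Q_star h, star_mul, ← Q_star h x, ← norm_star a]
  exact Q_left h _ _

lemma Q_le (h : Tr ρ) (x : D) : Q ρ x ≤ ‖x‖ ^ 2 := by
  have := Q_left h x 1
  rwa [mul_one, show Q ρ 1 = 1 by simp [Q, h.one], mul_one] at this

/-- uniform continuity for the 2-norm -/
def GB (F : C(Ci, ℂ)) : Prop := ∀ δ : ℝ, 0 < δ → ∃ η : ℝ, 0 < η ∧
  ∀ (D : Type) [CStarAlgebra D] (ρ : D →ₗ[ℂ] ℂ), Tr ρ → ∀ Φ Φ' : C(Ci, ℂ) →⋆ₐ[ℂ] D,
    Q ρ (Φ' (fourier 1) - Φ (fourier 1)) ≤ η → Q ρ (Φ' F - Φ F) ≤ δ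

lemma GB.comb {F G H : C(Ci, ℂ)} (hF : GB F) (hG : GB G) (c : ℝ) (hc : 0 < c)
    (h : ∀ (D : Type) [CStarAlgebra D] (ρ : D →ₗ[ℂ] ℂ), Tr ρ → ∀ Φ Φ' : C(Ci, ℂ) →⋆ₐ[ℂ] D,
      Q ρ (Φ' H - Φ H) ≤ c * (Q ρ (Φ' F - Φ F) + Q ρ (Φ' G - Φ G))) : GB H := fun δ hδ => by
  obtain ⟨η, h0, h1⟩ := hF (δ / (2 * c)) (by positivity)
  obtain ⟨η', h0', h1'⟩ := hG (δ / (2 * c)) (by positivity)
  refine ⟨min η η', lt_min h0 h0', fun D _ ρ hρ Φ Φ' hq => (h D ρ hρ Φ Φ').trans ?_⟩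
  have a1 := h1 D ρ hρ Φ Φ' (hq.trans (min_le_left _ _))
  have a2 := h1' D ρ hρ Φ Φ' (hq.trans (min_le_right _ _))
  calc _ ≤ c * (δ / (2 * c) + δ / (2 * c)) := by gcongr
    _ = δ := by field_simp; ring

lemma GB.mul {F G : C(Ci, ℂ)} (hF : GB F) (hG : GB G) : GB (F * G) :=
  hF.comb hG (2 * (‖F‖ ^ 2 + ‖G‖ ^ 2 + 1)) (by positivity) fun D _ ρ h Φ Φ' => by
    have e : Φ' (F * G) - Φ (F * G) = Φ' F * (Φ' G - Φ G) + (Φ' F - Φ F) * Φ G := by
      rw [map_mul, map_mul]; noncomm_ring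
    have a1 := Q_left h (Φ' F) (Φ' G - Φ G)
    have a2 := Q_right h (Φ' F - Φ F) (Φ G)
    have a3 : ‖Φ' F‖ ^ 2 ≤ ‖F‖ ^ 2 := by gcongr; exact NonUnitalStarAlgHom.norm_apply_le Φ' F
    have a4 : ‖Φ G‖ ^ 2 ≤ ‖G‖ ^ 2 := by gcongr; exact NonUnitalStarAlgHom.norm_apply_le Φ G
    have a5 : 0 ≤ Q ρ (Φ' G - Φ G) := (h.pos _).1
    have a6 : 0 ≤ Q ρ (Φ' F - Φ F) := (h.pos _).1
    rw [e]
    refine (Q_add h _ _).trans ?_
    nlinarith [mul_le_mul_of_nonneg_right a3 a5, mul_le_mul_of_nonneg_right a4 a6,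
      mul_nonneg (sq_nonneg ‖F‖) a6, mul_nonneg (sq_nonneg ‖G‖) a5]

lemma GB.const (c : ℂ) : GB (algebraMap ℂ _ c) := fun δ hδ => ⟨1, one_pos, fun D _ ρ h Φ Φ' _ => by
  rw [AlgHomClass.commutes, AlgHomClass.commutes, sub_self]
  simpa [Q] using hδ.le⟩

lemma gb_fourier (k : ℤ) : GB (fourier k) := by
  have h1 : GB (fourier 1) := fun δ hδ => ⟨δ, hδ, fun _ _ _ _ _ _ h => h⟩
  have hn : ∀ k : ℕ, GB (fourier k) := fun k => by
    induction k with
    | zero =>
      have : (fourier ((0 : ℕ) : ℤ) : C(Ci, ℂ)) = algebraMap ℂ _ 1 := by ext x; simp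
      rw [this]
      exact GB.const 1
    | succ k ih =>
      have : (fourier ((k + 1 : ℕ) : ℤ) : C(Ci, ℂ)) = fourier k * fourier 1 := by
        ext x; rw [Nat.cast_succ, fourier_add]; rfl
      rw [this]
      exact ih.mul h1
  obtain ⟨k, rfl | rfl⟩ := k.eq_nat_or_neg
  · exact hn k
  · have : (fourier (-(k : ℤ)) : C(Ci, ℂ)) = star (fourier k) := by
      ext x; rw [fourier_neg]; rfl
    intro δ hδ
    obtain ⟨η, h0, h2⟩ := hn k δ hδ
    refine ⟨η, h0, fun D _ ρ h Φ Φ' hq => ?_⟩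
    rw [this, map_star, map_star, ← star_sub, Q_star h]
    exact h2 D ρ h Φ Φ' hq

lemma dense (F : C(Ci, ℂ)) {δ : ℝ} (hδ : 0 < δ) :
    ∃ P ∈ Submodule.span ℂ (Set.range (fourier : ℤ → C(Ci, ℂ))), ‖F - P‖ < δ := by
  have : F ∈ (Submodule.span ℂ (Set.range (fourier : ℤ → C(Ci, ℂ)))).topologicalClosure := by
    rw [span_fourier_closure_eq_top]; trivial
  obtain ⟨P, h1, h2⟩ := Metric.mem_closure_iff.1 this δ hδ
  exact ⟨P, h1, by rwa [← dist_eq_norm]⟩

lemma gb (F : C(Ci, ℂ)) : GB F := by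
  have key : ∀ P ∈ Submodule.span ℂ (Set.range (fourier : ℤ → C(Ci, ℂ))), GB P := by
    intro P hP
    induction hP using Submodule.span_induction with
    | mem x hx => obtain ⟨k, rfl⟩ := hx; exact gb_fourier k
    | zero => simpa using GB.const 0
    | add x y _ _ hx hy =>
      refine hx.comb hy 2 two_pos fun D _ ρ h Φ Φ' => ?_
      rw [map_add, map_add, add_sub_add_comm, mul_add]
      exact Q_add h _ _
    | smul c x _ hx => rw [Algebra.smul_def]; exact (GB.const c).mul hx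
  intro δ hδ
  obtain ⟨P, h1, h2⟩ := dense F (δ := min 1 (δ / 16)) (by positivity)
  obtain ⟨η, h0, h3⟩ := key P h1 (δ / 4) (by positivity)
  refine ⟨η, h0, fun D _ ρ h Φ Φ' hq => ?_⟩
  have e : Φ' F - Φ F = (Φ' P - Φ P) + (Φ' (F - P) - Φ (F - P)) := by
    rw [map_sub, map_sub]; abel
  have a1 := h3 D ρ h Φ Φ' hq
  have a2 := Q_le h (Φ' (F - P) - Φ (F - P))
  have a3 : ‖Φ' (F - P) - Φ (F - P)‖ ≤ 2 * ‖F - P‖ := (norm_sub_le _ _).trans (by
    linarith [NonUnitalStarAlgHom.norm_apply_le Φ' (F - P),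
      NonUnitalStarAlgHom.norm_apply_le Φ (F - P)])
  have a4 := (lt_min_iff.1 h2).1
  have a5 := (lt_min_iff.1 h2).2
  rw [e]
  refine (Q_add h _ _).trans ?_
  nlinarith [norm_nonneg (F - P), norm_nonneg (Φ' (F - P) - Φ (F - P))]

/-- the mean -/
noncomputable def mean (F : C(Ci, ℂ)) : ℂ := ∫ t, F t ∂AddCircle.haarAddCircle

lemma intg (F : C(Ci, ℂ)) : Integrable F AddCircle.haarAddCircle :=
  F.continuous.integrable_of_hasCompactSupport (HasCompactSupport.of_compactSpace _)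

lemma mean_add (F G : C(Ci, ℂ)) : mean (F + G) = mean F + mean G := integral_add (intg F) (intg G)

lemma mean_le (F : C(Ci, ℂ)) : ‖mean F‖ ≤ ‖F‖ := by
  simpa [mean] using norm_integral_le_of_norm_le_const (μ := AddCircle.haarAddCircle) (f := F) (C := ‖F‖)
    (Eventually.of_forall F.norm_coe_le_norm)

lemma mean_fourier (k : ℤ) : mean (fourier k) = if k = 0 then 1 else 0 := by
  have := congrFun (fourierCoeff_fourier (T := 2 * Real.pi) k) 0
  rw [fourierCoeff] at this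
  simp only [neg_zero, fourier_zero, one_smul] at this
  rw [mean, this, Pi.single_apply]
  simp [eq_comm]

/-- the trace is close to the mean -/
def GA (F : C(Ci, ℂ)) : Prop := ∀ δ : ℝ, 0 < δ → ∃ (k₀ : ℕ) (η : ℝ), 0 < η ∧
  ∀ (D : Type) [CStarAlgebra D] (ρ : D →ₗ[ℂ] ℂ), Tr ρ → ∀ Φ : C(Ci, ℂ) →⋆ₐ[ℂ] D,
    (∀ k : ℕ, 0 < k → k ≤ k₀ → ‖ρ (Φ (fourier k))‖ ≤ η) → ‖ρ (Φ F) - mean F‖ ≤ δ

lemma ga (F : C(Ci, ℂ)) : GA F := by
  have key : ∀ P ∈ Submodule.span ℂ (Set.range (fourier : ℤ → C(Ci, ℂ))), GA P := by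
    intro P hP
    induction hP using Submodule.span_induction with
    | mem x hx =>
      obtain ⟨k, rfl⟩ := hx
      intro δ hδ
      refine ⟨k.natAbs, δ, hδ, fun D _ ρ h Φ hk => ?_⟩
      rw [mean_fourier]
      split_ifs with h0
      · have : (fourier k : C(Ci, ℂ)) = 1 := by ext x; simp [h0]
        rw [this, map_one, h.one]
        simpa using hδ.le
      · have h1 := hk k.natAbs (Int.natAbs_pos.2 h0) le_rfl
        rw [sub_zero]
        obtain ⟨k, rfl | rfl⟩ := k.eq_nat_or_neg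
        · simpa using h1
        · have : (fourier (-(k : ℤ)) : C(Ci, ℂ)) = star (fourier k) := by
            ext x; rw [fourier_neg]; rfl
          rw [this, map_star, h.map_star', norm_star]
          simpa using h1
    | zero => exact fun δ hδ => ⟨0, 1, one_pos, fun D _ ρ h Φ _ => by simpa [mean] using hδ.le⟩
    | add x y _ _ hx hy =>
      intro δ hδ
      obtain ⟨k, η, h0, h1⟩ := hx _ (half_pos hδ)
      obtain ⟨k', η', h0', h1'⟩ := hy _ (half_pos hδ)
      refine ⟨max k k', min η η', lt_min h0 h0', fun D _ ρ h Φ hk => ?_⟩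
      have a1 := h1 D ρ h Φ fun j a b => (hk j a (le_max_of_le_left b)).trans (min_le_left _ _)
      have a2 := h1' D ρ h Φ fun j a b => (hk j a (le_max_of_le_right b)).trans (min_le_right _ _)
      rw [map_add, map_add, mean_add, add_sub_add_comm]
      exact (norm_add_le _ _).trans (by linarith)
    | smul c x _ hx =>
      intro δ hδ
      have hp : 0 < ‖c‖ + 1 := by positivity
      obtain ⟨k, η, h0, h1⟩ := hx (δ / (‖c‖ + 1)) (by positivity)
      refine ⟨k, η, h0, fun D _ ρ h Φ hk => ?_⟩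
      have a1 := (le_div_iff₀ hp).1 (h1 D ρ h Φ hk)
      have e : mean (c • x) = c • mean x := integral_smul c x
      rw [map_smul, map_smul, e, ← smul_sub, norm_smul]
      nlinarith [norm_nonneg (ρ (Φ x) - mean x)]
  intro δ hδ
  obtain ⟨P, h1, h2⟩ := dense F (δ := δ / 3) (by positivity)
  obtain ⟨k, η, h0, h3⟩ := key P h1 (δ / 3) (by positivity)
  refine ⟨k, η, h0, fun D _ ρ h Φ hk => ?_⟩
  have e : ρ (Φ F) - mean F = (ρ (Φ P) - mean P) + (ρ (Φ (F - P)) - mean (F - P)) := by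
    have := mean_add P (F - P)
    rw [add_sub_cancel] at this
    rw [this, map_sub, map_sub]; ring
  have a1 := h3 D ρ h Φ hk
  have a2 := (h.norm_le (Φ (F - P))).trans (NonUnitalStarAlgHom.norm_apply_le Φ (F - P))
  have a3 := mean_le (F - P)
  rw [e]
  exact (norm_add_le _ _).trans ((add_le_add le_rfl (norm_sub_le _ _)).trans (by linarith))

lemma phi {S : D} (hS : IsSelfAdjoint S) : ∃ Φ : C(Ci, ℂ) →⋆ₐ[ℂ] D,
    (∀ k : ℕ, Φ (fourier k) = ex k S) ∧ ∀ (f : C(Ci, ℝ)) (F : C(Ci, ℂ)), (∀ x, F x = f x) →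
      Φ F = cfc (fun t : ℝ => f t) S := by
  have hn : IsStarNormal S := hS.isStarNormal
  let Φ : C(Ci, ℂ) →⋆ₐ[ℂ] D := (cfcHom hn).comp (ContinuousMap.compStarAlgHom' ℂ ℂ
    (⟨fun w => (w.1.re : Ci), by fun_prop⟩ : C(spectrum ℂ S, Ci)))
  have e : ∀ F : C(Ci, ℂ), Φ F = cfc (fun z : ℂ => F (z.re : Ci)) S := fun F => by
    rw [cfc_apply (fun z : ℂ => F (z.re : Ci)) S hn (by fun_prop)]
    rfl
  refine ⟨Φ, fun k => ?_, fun f F h => ?_⟩
  · rw [e, ex, ← CFC.complex_exp_eq_normedSpace_exp, ← cfc_const_mul_id _ S,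
      ← cfc_comp' _ _ _]
    refine cfc_congr fun z hz => ?_
    have := hS.mem_spectrum_eq_re hz
    rw [fourier_coe_apply]
    congr 1
    rw [← this]
    have := Real.pi_ne_zero
    push_cast
    field_simp
  · rw [e, cfc_real_eq_complex _ hS]
    exact congrArg (fun g => cfc g S) (funext fun z => h _)

lemma bumps (n : ℕ) (hn : 0 < n) {ε : ℝ} (hε : 0 < ε) : ∃ f : Fin n → C(Ci, ℝ),
    (∀ i t, f i t ∈ Set.Icc (0 : ℝ) 1) ∧ (∀ i j t, i ≠ j → f i t * f j t = 0) ∧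
      ∀ i, 1 / (n : ℝ) - ε ≤ ∫ t, f i t ∂AddCircle.haarAddCircle := by
  have hn' : (0 : ℝ) < n := Nat.cast_pos.2 hn
  have hπ := Real.pi_pos
  let a : Fin n → Ci := fun i => (((i : ℕ) : ℝ) / n * (2 * Real.pi) : ℝ)
  have sep : ∀ i j : Fin n, j < i → 2 * Real.pi / n ≤ ‖a i - a j‖ := fun i j hij => by
    have e : a i - a j = ((((i : ℕ) - (j : ℕ) : ℕ) : ℝ) / n * (2 * Real.pi) : ℝ) := by
      rw [Nat.cast_sub hij.le, sub_div, sub_mul, AddCircle.coe_sub]
    have h1 : (i : ℕ) - j < n := by omega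
    have h2 : 1 ≤ min ((i : ℕ) - j) (n - ((i : ℕ) - j)) := by
      have : (j : ℕ) < i := hij
      omega
    rw [e, AddCircle.norm_div_natCast, Nat.mod_eq_of_lt h1, div_eq_mul_one_div]
    gcongr
    exact_mod_cast h2
  refine ⟨fun i => ⟨fun x => min 1 (max 0 ((Real.pi / n - ‖x - a i‖) / ε)), by fun_prop⟩,
    fun i t => ⟨le_min zero_le_one (le_max_left _ _), min_le_left _ _⟩, fun i j t hij => ?_,
    fun i => ?_⟩
  · have h1 : 2 * Real.pi / n ≤ ‖a i - a j‖ := by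
      rcases lt_or_gt_of_ne hij with h | h
      · rw [norm_sub_rev]; exact sep j i h
      · exact sep i j h
    have h2 := norm_sub_le (t - a j) (t - a i)
    rw [sub_sub_sub_cancel_left, mul_div_assoc] at *
    simp only [ContinuousMap.coe_mk]
    rcases le_total (Real.pi / n) ‖t - a i‖ with h | h
    · rw [max_eq_left (div_nonpos_of_nonpos_of_nonneg (by linarith) hε.le)]
      simp
    · rw [max_eq_left (b := (Real.pi / n - ‖t - a j‖) / ε)
        (div_nonpos_of_nonpos_of_nonneg (by linarith) hε.le)]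
      simp
  · have m := (Metric.isClosed_closedBall (x := a i) (ε := Real.pi / n - ε)).measurableSet
    have h1 : ∫ t, (Metric.closedBall (a i) (Real.pi / n - ε)).indicator (1 : Ci → ℝ) t ≤
        ∫ t : Ci, min 1 (max 0 ((Real.pi / n - ‖t - a i‖) / ε)) := by
      refine integral_mono ((integrable_const 1).indicator m)
        (Continuous.integrable_of_hasCompactSupport (by fun_prop)
          (HasCompactSupport.of_compactSpace _)) fun t => ?_
      by_cases ht : t ∈ Metric.closedBall (a i) (Real.pi / n - ε)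
      · rw [Set.indicator_of_mem ht]
        rw [Metric.mem_closedBall, dist_eq_norm] at ht
        exact le_min le_rfl (le_max_of_le_right ((one_le_div hε).2 (by linarith)))
      · rw [Set.indicator_of_notMem ht]
        exact le_min zero_le_one (le_max_left _ _)
    rw [integral_indicator_one m, Measure.real, AddCircle.volume_closedBall,
      ENNReal.toReal_ofReal'] at h1
    have h2 : 2 * (Real.pi / n - ε) ≤ 2 * Real.pi := by
      have : Real.pi / n ≤ Real.pi := div_le_self hπ.le (Nat.one_le_cast.2 hn)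
      linarith
    rw [min_eq_right h2] at h1
    rw [AddCircle.integral_haarAddCircle, smul_eq_mul, inv_mul_eq_div, le_div_iff₀ (by positivity)]
    refine le_trans ?_ ((le_max_left _ _).trans h1)
    have := Real.pi_gt_three
    have e : 1 / (n : ℝ) * (2 * Real.pi) = 2 * (Real.pi / n) := by ring
    nlinarith

end CI

open CI in
theorem circ (n : ℕ) (hn : 0 < n) (ε : ℝ) (hε : 0 < ε) : ∃ (k₀ : ℕ) (η : ℝ) (f : Fin n → ℝ → ℝ),
    0 < k₀ ∧ 0 < η ∧ (∀ i, Continuous (f i)) ∧ (∀ i t, f i t ∈ Set.Icc (0 : ℝ) 1) ∧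
    (∀ i j t, i ≠ j → f i t * f j t = 0) ∧
    ∀ (D : Type) [CStarAlgebra D] (ρ : D →ₗ[ℂ] ℂ), Tr ρ → ∀ S : D, IsSelfAdjoint S →
      ((∀ k : ℕ, 0 < k → k ≤ k₀ → ‖ρ (ex k S)‖ ≤ η) → ∀ i, 1 / (n : ℝ) - ε ≤ (ρ (cfc (f i) S)).re) ∧
      ∀ S' : D, IsSelfAdjoint S' → (ρ (star (ex 1 S' - ex 1 S) * (ex 1 S' - ex 1 S))).re ≤ η →
        ∀ i, (ρ ((cfc (f i) S' - cfc (f i) S) ^ 2)).re ≤ ε := by
  obtain ⟨f, f1, f2, f3⟩ := bumps n hn (half_pos hε)
  let F : Fin n → C(Ci, ℂ) := fun i => ⟨fun x => f i x, by fun_prop⟩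
  choose k η h0 h1 using fun i => ga (F i) _ (half_pos hε)
  choose η' h0' h1' using fun i => gb (F i) _ hε
  have ne : (univ : Finset (Fin n)).Nonempty := ⟨⟨0, hn⟩, mem_univ _⟩
  refine ⟨univ.sup k + 1, univ.inf' ne fun i => min (η i) (η' i), fun i t => f i t, by omega,
    (Finset.lt_inf'_iff ne).2 fun i _ => lt_min (h0 i) (h0' i), fun i => by fun_prop,
    fun i t => f1 i _, fun i j t h => f2 i j _ h, fun D _ ρ hρ S hS => ?_⟩
  obtain ⟨Φ, p1, p2⟩ := phi hS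
  refine ⟨fun h i => ?_, fun S' hS' h i => ?_⟩
  · have a1 := h1 i D ρ hρ Φ fun j a b => by
      rw [p1]
      exact (h j a ((b.trans (le_sup (f := k) (mem_univ i))).trans (Nat.le_succ _))).trans
        ((inf'_le _ (mem_univ i)).trans (min_le_left _ _))
    have e : mean (F i) = ((∫ t, f i t ∂AddCircle.haarAddCircle : ℝ) : ℂ) := integral_ofReal
    rw [p2 (f i) (F i) fun _ => rfl, e] at a1
    have a2 := (abs_le.1 ((Complex.abs_re_le_norm _).trans a1)).1
    rw [Complex.sub_re, Complex.ofReal_re] at a2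
    linarith [f3 i]
  · obtain ⟨Φ', q1, q2⟩ := phi hS'
    have a1 := h1' i D ρ hρ Φ Φ' (by
      have b1 := p1 1
      have b2 := q1 1
      rw [Nat.cast_one, Nat.cast_one] at b1 b2
      rw [b1, b2]
      exact h.trans ((inf'_le _ (mem_univ i)).trans (min_le_right _ _)))
    rw [p2 (f i) (F i) fun _ => rfl, q2 (f i) (F i) fun _ => rfl, Q,
      ((cfc_predicate _ _ : IsSelfAdjoint _).sub (cfc_predicate _ _)).star_eq, ← sq] at a1
    exact a1

end Vale.Agent.P095G
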