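import Vale.Agent.P095G.PartTR
import Vale.Agent.P101.PartT

/-! Part EXT: traces of elementary tensors. -/

namespace Vale.Agent.P095G

open Filter Topology Finset Vale.Agent.P101 Vale.Agent.P095 TopologicalSpace

variable {A D E F : Type} [CStarAlgebra A] [CStarAlgebra D] [CStarAlgebra E] [CStarAlgebra F]
  {G : Type} [Group G] {ρ : D →ₗ[ℂ] ℂ} {ω : Ultrafilter ℕ}

namespace EXT

/-- The tracial states as functions. -/
def St (E : Type) [CStarAlgebra E] : Set (E → ℂ) := {f | ∃ τ : E →ₗ[ℂ] ℂ, Tr τ ∧ ⇑τ = f}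

lemma compact : IsCompact (St E) := by
  have e : St E = (⋂ p : E × E, {f : E → ℂ | f (p.1 + p.2) = f p.1 + f p.2}) ∩
      ((⋂ p : ℂ × E, {f : E → ℂ | f (p.1 • p.2) = p.1 * f p.2}) ∩ ({f : E → ℂ | f 1 = 1} ∩
      ((⋂ x : E, {f : E → ℂ | 0 ≤ (f (star x * x)).re} ∩ {f : E → ℂ | (f (star x * x)).im = 0}) ∩
      ⋂ p : E × E, {f : E → ℂ | f (p.1 * p.2) = f (p.2 * p.1)}))) := by
    ext f
    simp only [Set.mem_inter_iff, Set.mem_iInter, Set.mem_setOf_eq]
    constructor
    · rintro ⟨τ, h, rfl⟩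
      exact ⟨fun p => map_add τ _ _, fun p => map_smul τ _ _, h.one, h.pos, fun p => h.comm _ _⟩
    · rintro ⟨h1, h2, h3, h4, h5⟩
      exact ⟨⟨⟨f, fun a b => h1 (a, b)⟩, fun c a => h2 (c, a)⟩, ⟨h3, h4, fun a b => h5 (a, b)⟩, rfl⟩
  refine (isCompact_univ_pi fun x : E => isCompact_closedBall (0 : ℂ) ‖x‖).of_isClosed_subset ?_ ?_
  · rw [e]
    refine (isClosed_iInter fun _ => isClosed_eq (by fun_prop) (by fun_prop)).inter
      ((isClosed_iInter fun _ => isClosed_eq (by fun_prop) (by fun_prop)).inter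
      ((isClosed_eq (by fun_prop) (by fun_prop)).inter
      ((isClosed_iInter fun _ => (isClosed_le (by fun_prop) (by fun_prop)).inter
        (isClosed_eq (by fun_prop) (by fun_prop))).inter
      (isClosed_iInter fun _ => isClosed_eq (by fun_prop) (by fun_prop)))))
  · rintro _ ⟨τ, h, rfl⟩ x -
    exact mem_closedBall_zero_iff.2 (h.norm_le x)

lemma convex : Convex ℝ (St E) := by
  rintro _ ⟨τ, h, rfl⟩ _ ⟨τ', h', rfl⟩ a b ha hb hab
  refine ⟨(a : ℂ) • τ + (b : ℂ) • τ', ⟨?_, fun x => ?_, fun x y => ?_⟩, ?_⟩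
  · simp only [LinearMap.add_apply, LinearMap.smul_apply, h.one, h'.one, smul_eq_mul, mul_one]
    rw [← Complex.ofReal_add, hab, Complex.ofReal_one]
  · have h1 := h.pos x
    have h2 := h'.pos x
    simp only [LinearMap.add_apply, LinearMap.smul_apply, smul_eq_mul, Complex.add_re,
      Complex.add_im, Complex.re_ofReal_mul, Complex.im_ofReal_mul, h1.2, h2.2, mul_zero, add_zero,
      and_true]
    exact add_nonneg (mul_nonneg ha h1.1) (mul_nonneg hb h2.1)
  · simp only [LinearMap.add_apply, LinearMap.smul_apply, h.comm x y, h'.comm x y]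
  · funext x
    simp

lemma prop {τ ψ : E →ₗ[ℂ] ℂ} (h : Tr τ) (he : ⇑τ ∈ (St E).extremePoints ℝ)
    (p1 : ∀ x, 0 ≤ (ψ (star x * x)).re ∧ (ψ (star x * x)).im = 0)
    (p2 : ∀ x, (ψ (star x * x)).re ≤ (τ (star x * x)).re)
    (hc : ∀ x y, ψ (x * y) = ψ (y * x)) (x : E) : ψ x = ψ 1 * τ x := by
  have a1 := p1 1
  have a2 := p2 1
  rw [star_one, mul_one] at a1 a2
  rw [h.one, Complex.one_re] at a2
  obtain ⟨t, ht⟩ : ∃ t : ℝ, ψ 1 = t := ⟨(ψ 1).re, Complex.ext rfl (by simpa using a1.2)⟩
  rw [ht, Complex.ofReal_re] at a1 a2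
  have t1 : Tr (τ + (ψ - (t : ℂ) • τ)) := ⟨by simp [h.one, ht], fun x => by
      have h1 := h.pos x
      have h2 := p1 x
      simp only [LinearMap.add_apply, LinearMap.sub_apply, LinearMap.smul_apply, smul_eq_mul,
        Complex.add_re, Complex.add_im, Complex.sub_re, Complex.sub_im, Complex.re_ofReal_mul,
        Complex.im_ofReal_mul, h1.2, h2.2, mul_zero, add_zero, sub_zero, and_true]
      nlinarith [h1.1, h2.1], fun x y => by
      simp only [LinearMap.add_apply, LinearMap.sub_apply, LinearMap.smul_apply, h.comm x y,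
        hc x y]⟩
  have t2 : Tr (τ - (ψ - (t : ℂ) • τ)) := ⟨by simp [h.one, ht], fun x => by
      have h1 := h.pos x
      have h2 := p1 x
      have h3 := p2 x
      simp only [LinearMap.sub_apply, LinearMap.smul_apply, smul_eq_mul,
        Complex.sub_re, Complex.sub_im, Complex.re_ofReal_mul,
        Complex.im_ofReal_mul, h1.2, h2.2, mul_zero, sub_zero, and_true]
      nlinarith [h1.1, a1.1], fun x y => by
      simp only [LinearMap.sub_apply, LinearMap.smul_apply, h.comm x y, hc x y]⟩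
  have := ((mem_extremePoints.1 he).2 _ ⟨_, t1, rfl⟩ _ ⟨_, t2, rfl⟩
    ⟨1 / 2, 1 / 2, by norm_num, by norm_num, by norm_num, funext fun x => by
      simp only [Pi.add_apply, Pi.smul_apply, LinearMap.add_apply, LinearMap.sub_apply,
        Complex.real_smul]
      push_cast
      ring⟩).1
  have e := congrFun this x
  simp only [LinearMap.add_apply, LinearMap.sub_apply, LinearMap.smul_apply, smul_eq_mul] at e
  rw [ht]
  linear_combination e

lemma ulim (f : ℕ → E →ₗ[ℂ] ℂ) (hb : ∀ n x, ‖f n x‖ ≤ ‖x‖) : ∃ g : E →ₗ[ℂ] ℂ,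
    ∀ x, Tendsto (fun n => f n x) (hyperfilter ℕ) (𝓝 (g x)) := by
  have : ∀ x, ∃ c, Tendsto (fun n => f n x) (hyperfilter ℕ) (𝓝 c) := fun x => by
    obtain ⟨c, -, hc⟩ := (isCompact_closedBall (0 : ℂ) ‖x‖).ultrafilter_le_nhds
      ((hyperfilter ℕ).map fun n => f n x) (le_principal_iff.2 (mem_map.2
        (Eventually.of_forall fun n => mem_closedBall_zero_iff.2 (hb n x))))
    exact ⟨c, hc⟩
  choose g hg using this
  exact ⟨⟨⟨g, fun a b => tendsto_nhds_unique (hg _) (by simpa using (hg a).add (hg b))⟩,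
    fun c a => tendsto_nhds_unique (hg _) (by simpa using (hg a).const_mul c)⟩, hg⟩

lemma minim {τ : E →ₗ[ℂ] ℂ} (h : Tr τ) {K : Set E} (h0 : K.Nonempty)
    (hs : ∀ a ∈ K, IsSelfAdjoint a) (hm : ∀ a ∈ K, ∀ b ∈ K, (1 / 2 : ℝ) • (a + b) ∈ K)
    {ε : ℝ} (hε : 0 < ε) : ∃ a ∈ K, ∀ u ∈ unitary E, u * a * star u ∈ K → ∀ y,
      ‖τ ((a - u * a * star u) * y)‖ ^ 2 ≤ 4 * ε * (τ (star y * y)).re := by
  have hb : BddBelow ((fun a => (τ (a * a)).re) '' K) := ⟨0, by
    rintro _ ⟨a, ha, rfl⟩
    have := (h.pos a).1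
    rwa [(hs a ha).star_eq] at this⟩
  obtain ⟨_, ⟨a, ha, rfl⟩, h1⟩ := Real.lt_sInf_add_pos (h0.image fun a => (τ (a * a)).re) hε
  refine ⟨a, ha, fun u hu hb' y => ?_⟩
  obtain ⟨b, e⟩ : ∃ b, b = u * a * star u := ⟨_, rfl⟩
  have e1 : τ (b * b) = τ (a * a) := by
    have : b * b = u * (a * a * star u) := by
      rw [e, mul_assoc (u * a), ← mul_assoc (star u), ← mul_assoc (star u), hu.1, one_mul]
      simp only [mul_assoc]
    rw [this, h.comm, mul_assoc, hu.1, mul_one]
  rw [← e] at hb' ⊢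
  have h2 := csInf_le hb ⟨_, hm a ha b hb', rfl⟩
  have e2 : τ ((a - b) * (a - b)) + 4 * τ ((1 / 2 : ℝ) • (a + b) * (1 / 2 : ℝ) • (a + b)) =
      4 * τ (a * a) := by
    rw [← Complex.coe_smul]
    simp only [smul_mul_assoc, mul_smul_comm, mul_add, add_mul, mul_sub, sub_mul, map_add, map_sub,
      map_smul, smul_eq_mul, e1]
    push_cast
    ring
  have e3 := congrArg Complex.re e2
  simp only [Complex.add_re, Complex.mul_re, Complex.re_ofNat, Complex.im_ofNat, zero_mul,
    sub_zero] at e3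
  have h3 := h.cs (a - b) y
  rw [((hs a ha).sub (hs b hb')).star_eq] at h3
  refine h3.trans (mul_le_mul_of_nonneg_right ?_ (h.pos y).1)
  simp only at h1 h2
  linarith

lemma factor {ι : Type} {θ : ι → D →⋆ₐ[ℂ] E} (hθ : Cm θ) (hg : Gen θ) {τ : E →ₗ[ℂ] ℂ} (h : Tr τ)
    (he : ⇑τ ∈ (St E).extremePoints ℝ) (i : ι) (d : D) {y : E} (hy : ∀ e, Commute y (θ i e)) :
    τ (θ i d * y) = τ (θ i d) * τ y := by
  letI := CStarAlgebra.spectralOrder D
  haveI := CStarAlgebra.spectralOrderedRing D
  letI := CStarAlgebra.spectralOrder E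
  haveI := CStarAlgebra.spectralOrderedRing E
  have hd : d ∈ Submodule.span ℂ ({x : D | 0 ≤ x} ∩ Metric.closedBall 0 1) := by
    rw [CStarAlgebra.span_nonneg_inter_unitClosedBall]; trivial
  induction hd using Submodule.span_induction with
  | zero => simp
  | add a b _ _ ha hb => rw [map_add, add_mul, map_add, map_add, ha, hb, add_mul]
  | smul c a _ ha => rw [map_smul, smul_mul_assoc, map_smul, map_smul, ha, smul_mul_assoc]
  | mem d hd =>
    have d0 : 0 ≤ θ i d := map_nonneg (θ i) hd.1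
    have d1 : θ i d ≤ 1 := (CStarAlgebra.norm_le_one_iff_of_nonneg _ d0).1
      ((NonUnitalStarAlgHom.norm_apply_le _ _).trans (mem_closedBall_zero_iff.1 hd.2))
    let K : Set E := {a | 0 ≤ a ∧ a ≤ 1 ∧
      (∀ y, (∀ e, Commute y (θ i e)) → τ (a * y) = τ (θ i d * y)) ∧
      ∀ j, j ≠ i → ∀ e, Commute a (θ j e)}
    have k1 : ∀ a ∈ K, ∀ b ∈ K, (1 / 2 : ℝ) • (a + b) ∈ K := fun a ha b hb =>
      ⟨smul_nonneg (by norm_num) (add_nonneg ha.1 hb.1), by
        have := smul_le_smul_of_nonneg_left (add_le_add ha.2.1 hb.2.1) (by norm_num : (0 : ℝ) ≤ 1 / 2)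
        rwa [← two_smul ℝ (1 : E), smul_smul, one_div_mul_cancel two_ne_zero, one_smul] at this,
      fun y hy => by
        rw [← Complex.coe_smul, smul_mul_assoc, add_mul, map_smul, map_add, ha.2.2.1 y hy,
          hb.2.2.1 y hy, smul_eq_mul]
        push_cast
        ring,
      fun j hj e => ((ha.2.2.2 j hj e).add_left (hb.2.2.2 j hj e)).smul_left _⟩
    have uu : ∀ u ∈ unitary D, θ i u ∈ unitary E := fun u hu =>
      ⟨by rw [← map_star, ← map_mul, hu.1, map_one], by rw [← map_star, ← map_mul, hu.2, map_one]⟩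
    have k2 : ∀ a ∈ K, ∀ u ∈ unitary D, θ i u * a * star (θ i u) ∈ K := fun a ha u hu =>
      ⟨star_right_conjugate_nonneg ha.1 _, by
        have := star_right_conjugate_le_conjugate ha.2.1 (θ i u)
        rwa [mul_one, (uu u hu).2] at this,
      fun y hy => by
        rw [mul_assoc, mul_assoc, h.comm, mul_assoc, mul_assoc, (hy u).eq, ← mul_assoc (star _),
          (uu u hu).1, one_mul, ha.2.2.1 y hy],
      fun j hj e => ((hθ i j hj.symm u e).mul_left (ha.2.2.2 j hj e)).mul_left
        (by rw [← map_star]; exact hθ i j hj.symm _ e)⟩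
    choose a ha ha' using fun n : ℕ => minim h (K := K)
      ⟨θ i d, d0, d1, fun _ _ => rfl, fun j hj e => hθ i j hj.symm d e⟩
      (fun a ha => ha.1.isSelfAdjoint) k1 (Nat.one_div_pos_of_nat (α := ℝ) (n := n))
    have hb : ∀ n x, ‖(τ ∘ₗ LinearMap.mulLeft ℂ (a n)) x‖ ≤ ‖x‖ := fun n x =>
      (h.norm_le _).trans ((norm_mul_le_of_le
        ((CStarAlgebra.norm_le_one_iff_of_nonneg _ (ha n).1).2 (ha n).2.1) le_rfl).trans_eq
          (one_mul _))
    obtain ⟨ψ, hψ⟩ := ulim (fun n => τ ∘ₗ LinearMap.mulLeft ℂ (a n)) hb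
    replace hψ : ∀ x, Tendsto (fun n => τ (a n * x)) (hyperfilter ℕ) (𝓝 (ψ x)) := hψ
    have hc : Continuous ψ := AddMonoidHomClass.continuous_of_bound ψ 1 fun x => by
      rw [one_mul]
      exact le_of_tendsto' (hψ x).norm fun n => hb n x
    have e0 : ∀ b x : E, τ (b * (star x * x)) = τ (x * b * star x) := fun b x => by
      rw [← mul_assoc, h.comm, mul_assoc]
    have c1 : ∀ u ∈ unitary D, ∀ y, ψ (θ i u * y) = ψ (y * θ i u) := fun u hu y => by
      have t1 : Tendsto (fun n => τ (a n * (y * θ i u)) - τ (a n * (θ i u * y)))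
          (hyperfilter ℕ) (𝓝 0) := by
        have t2 : Tendsto (fun n : ℕ => Real.sqrt (4 * (1 / ((n : ℝ) + 1)) *
            (τ (star (θ i u * y) * (θ i u * y))).re)) (hyperfilter ℕ) (𝓝 0) := by
          have := ((tendsto_one_div_add_atTop_nhds_zero_nat (𝕜 := ℝ)).const_mul 4).mul_const
            (τ (star (θ i u * y) * (θ i u * y))).re |>.sqrt
          rw [mul_zero, zero_mul, Real.sqrt_zero] at this
          exact this.mono_left (Nat.hyperfilter_le_atTop)
        refine squeeze_zero_norm (fun n => Real.le_sqrt_of_sq_le ?_) t2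
        have := ha' n _ (uu u hu) (k2 _ (ha n) u hu) (θ i u * y)
        rw [sub_mul, map_sub, mul_assoc (θ i u * a n), ← mul_assoc (star _), (uu u hu).1, one_mul,
          mul_assoc, h.comm (θ i u), mul_assoc, norm_sub_rev] at this
        exact this
      exact (sub_eq_zero.1 (tendsto_nhds_unique ((hψ _).sub (hψ _)) t1)).symm
    have c2 : ∀ j e y, ψ (θ j e * y) = ψ (y * θ j e) := fun j e y => by
      by_cases hj : j = i
      · subst hj
        have he : e ∈ Submodule.span ℂ (unitary D : Set D) := by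
          rw [CStarAlgebra.span_unitary]; trivial
        induction he using Submodule.span_induction with
        | zero => simp
        | add a b _ _ ha hb => rw [map_add, add_mul, mul_add, map_add, map_add, ha, hb]
        | smul c a _ ha => rw [map_smul, smul_mul_assoc, mul_smul_comm, map_smul, map_smul, ha]
        | mem u hu => exact c1 u hu y
      · refine tendsto_nhds_unique (hψ _) ((hψ _).congr fun n => ?_)
        rw [← mul_assoc, h.comm, ← mul_assoc, ← ((ha n).2.2.2 j hj e).eq, mul_assoc]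
    have c3 : ∀ x y, ψ (x * y) = ψ (y * x) := fun x y => by
      refine hg.induction (P := fun x => ψ (x * y) = ψ (y * x)) (fun x hx => ?_)
        (isClosed_eq (by fun_prop) (by fun_prop)) x
      have : ∀ y, ψ (x * y) = ψ (y * x) ∧ ψ (star x * y) = ψ (y * star x) := by
        induction hx using StarAlgebra.adjoin_induction with
        | mem x hx =>
          obtain ⟨j, e, rfl⟩ := Set.mem_iUnion.1 hx
          exact fun y => ⟨c2 j e y, by rw [← map_star]; exact c2 j _ y⟩
        | algebraMap c => exact fun y => ⟨by rw [Algebra.commutes],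
            by rw [← algebraMap_star_comm, Algebra.commutes]⟩
        | add a b _ _ ha hb => exact fun y => ⟨by
            rw [add_mul, mul_add, map_add, map_add, (ha y).1, (hb y).1], by
            rw [star_add, add_mul, mul_add, map_add, map_add, (ha y).2, (hb y).2]⟩
        | mul a b _ _ ha hb => exact fun y => ⟨by
            rw [mul_assoc, (ha _).1, mul_assoc, (hb _).1, mul_assoc], by
            rw [star_mul, mul_assoc, (hb _).2, mul_assoc, (ha _).2, mul_assoc]⟩
        | star a _ ha => exact fun y => ⟨(ha y).2, by rw [star_star]; exact (ha y).1⟩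
      exact (this y).1
    have key := prop h he (ψ := ψ) (fun x => ⟨ge_of_tendsto' ((Complex.continuous_re.tendsto _).comp
        (hψ _)) fun n => by
          rw [Function.comp_apply, e0]
          exact (h.nonneg (star_right_conjugate_nonneg (ha n).1 x)).1,
        tendsto_nhds_unique ((Complex.continuous_im.tendsto _).comp (hψ _))
          (tendsto_const_nhds.congr fun n => by
            rw [Function.comp_apply, e0]
            exact (h.nonneg (star_right_conjugate_nonneg (ha n).1 x)).2.symm)⟩)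
      (fun x => le_of_tendsto' ((Complex.continuous_re.tendsto _).comp (hψ _)) fun n => by
        have := h.mono (star_right_conjugate_le_conjugate (ha n).2.1 x)
        rwa [← e0, ← e0, one_mul] at this) c3 y
    have v : ∀ y, (∀ e, Commute y (θ i e)) → ψ y = τ (θ i d * y) := fun y hy =>
      tendsto_nhds_unique (hψ y) (tendsto_const_nhds.congr fun n => ((ha n).2.2.1 y hy).symm)
    rw [v y hy, v 1 fun e => Commute.one_left _, mul_one] at key
    exact key

end EXT

theorem ext_bound {ι : Type} [Fintype ι] {θ : ι → D →⋆ₐ[ℂ] E} (hθ : Cm θ) (x : D) {r : ℝ}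
    (hr : ∀ ρ : D →ₗ[ℂ] ℂ, Tr ρ → ‖ρ x‖ ≤ r) {τ : E →ₗ[ℂ] ℂ} (hτ : Tr τ) :
    ‖τ (Ten hθ fun _ => x)‖ ≤ r ^ Fintype.card ι := by
  classical
  obtain ⟨B, _, e, η, h1, h2, h3⟩ := sys hθ
  obtain rfl : θ = fun i => e.comp (η i) := funext fun i => StarAlgHom.ext fun d => (h3 i d).symm
  rw [← ten_map h1 e hθ]
  have hK : EXT.St B ⊆ {f : B → ℂ | ‖f (Ten h1 fun _ => x)‖ ≤ r ^ Fintype.card ι} := by
    rw [← closure_convexHull_extremePoints EXT.compact EXT.convex]
    refine closure_minimal (convexHull_min ?_ ?_) (isClosed_le (by fun_prop) continuous_const)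
    · intro f hf
      obtain ⟨σ, hσ, rfl⟩ := extremePoints_subset hf
      have : ∀ (s : Finset ι) (hs : (s : Set ι).Pairwise (Function.onFun Commute fun i => η i x)),
          ‖σ (s.noncommProd (fun i => η i x) hs)‖ ≤ r ^ s.card := fun s => by
        induction s using Finset.induction_on with
        | empty => intro hs; rw [noncommProd_empty, hσ.one, norm_one, card_empty, pow_zero]
        | insert i s hi ih =>
          intro hs
          have h4 : ‖σ (η i x)‖ ≤ r := hr _ (hσ.comp (η i))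
          rw [noncommProd_insert_of_notMem _ _ _ _ hi, EXT.factor h1 h2 hσ hf i x fun d =>
            (noncommProd_commute _ _ _ _ fun j hj => h1 i j (fun e => hi (e ▸ hj)) d x).symm,
            card_insert_of_notMem hi, pow_succ', norm_mul]
          exact mul_le_mul h4 (ih _) (norm_nonneg _) ((norm_nonneg _).trans h4)
      exact this univ _
    · intro f hf g hg a b ha hb hab
      refine (norm_add_le _ _).trans ?_
      rw [Pi.smul_apply, Pi.smul_apply, norm_smul, norm_smul, Real.norm_of_nonneg ha,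
        Real.norm_of_nonneg hb]
      have h5 := add_le_add (mul_le_mul_of_nonneg_left hf ha) (mul_le_mul_of_nonneg_left hg hb)
      rwa [← add_mul, hab, one_mul] at h5
  exact hK ⟨_, hτ.comp e, rfl⟩

end Vale.Agent.P095G
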