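import Vale.Agent.P095G.PartTR

/-! The trace of the square root is subadditive. -/

namespace Vale.Agent.P095G

open Filter Topology Finset Vale.Agent.P101 Vale.Agent.P095 TopologicalSpace

variable {A D E F : Type} [CStarAlgebra A] [CStarAlgebra D] [CStarAlgebra E] [CStarAlgebra F]
  {G : Type} [Group G] {ρ : D →ₗ[ℂ] ℂ} {ω : Ultrafilter ℕ}

namespace Rot

variable [PartialOrder D] [StarOrderedRing D]

lemma rt_eq {a : D} (ha : 0 ≤ a) : rt a = CFC.sqrt a := by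
  rw [CFC.sqrt_eq_real_sqrt a ha,
    cfcₙ_eq_cfc Real.continuous_sqrt.continuousOn Real.sqrt_zero]

lemma rt_nonneg (a : D) : 0 ≤ rt a := cfc_nonneg fun x _ => Real.sqrt_nonneg x

lemma rt_mul {a : D} (ha : 0 ≤ a) : rt a * rt a = a := by
  rw [rt_eq ha, CFC.sqrt_mul_sqrt_self a ha]

lemma rt_mono {a b : D} (ha : 0 ≤ a) (h : a ≤ b) : rt a ≤ rt b := by
  rw [rt_eq ha, rt_eq (ha.trans h)]
  exact CFC.sqrt_le_sqrt a b h

lemma sq0 {b : D} (hb : 0 ≤ b) : 0 ≤ b * b := by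
  have := star_mul_self_nonneg b
  rwa [hb.isSelfAdjoint.star_eq] at this

lemma rt_unique {a b : D} (h : b * b = a) (hb : 0 ≤ b) : rt a = b := by
  rw [rt_eq (h ▸ sq0 hb), CFC.sqrt_unique h hb]

lemma rt_smul {a : D} (ha : 0 ≤ a) {c : ℝ} (hc : 0 ≤ c) : rt (c • a) = Real.sqrt c • rt a :=
  rt_unique (by rw [smul_mul_smul_comm, Real.mul_self_sqrt hc, rt_mul ha])
    (smul_nonneg (Real.sqrt_nonneg c) (rt_nonneg a))

lemma sandwich {a s t : D} (ha : 0 ≤ a) (h : a ≤ s) (h1 : s * t = 1) (h2 : t * s = 1) :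
    a * t * a ≤ a := by
  have ss : star s = s := (ha.trans h).isSelfAdjoint.star_eq
  have st : star t = t := by
    have := congrArg star h1
    rw [star_mul, ss, star_one] at this
    rw [← mul_one (star t), ← h1, ← mul_assoc, this, one_mul]
  have e : a - a * t * a = star (1 - t * a) * a * (1 - t * a) +
      star (t * a) * (s - a) * (t * a) := by
    have : a * t * s * (t * a) = a * t * a := by
      rw [mul_assoc a, h2, mul_one, mul_assoc]
    simp only [star_sub, star_mul, star_one, st, ha.isSelfAdjoint.star_eq, mul_sub, sub_mul, this]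
    noncomm_ring
  rw [← sub_nonneg, e]
  exact add_nonneg (star_left_conjugate_nonneg ha _)
    (star_left_conjugate_nonneg (sub_nonneg.2 h) _)

lemma re_smul (ρ : D →ₗ[ℂ] ℂ) (c : ℝ) (x : D) : (ρ (c • x)).re = c * (ρ x).re := by
  rw [← Complex.coe_smul, map_smul, smul_eq_mul, Complex.re_ofReal_mul]

end Rot

open Rot

theorem rot [PartialOrder D] [StarOrderedRing D] (h : Tr ρ) {ι : Type} (s : Finset ι) {a : ι → D}
    (ha : ∀ i ∈ s, 0 ≤ a i) : (ρ (rt (∑ i ∈ s, a i))).re ≤ ∑ i ∈ s, (ρ (rt (a i))).re := by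
  refine le_of_forall_pos_le_add fun η hη => ?_
  have c0 : 0 ≤ ∑ i ∈ s, a i := sum_nonneg ha
  have e0 : (0 : D) ≤ η • 1 := smul_nonneg hη.le zero_le_one
  have e1 : (0 : D) ≤ η • 1 * η • 1 := sq0 e0
  have c1 : 0 ≤ ∑ i ∈ s, a i + η • (1 : D) * η • 1 := add_nonneg c0 e1
  have l1 : η • (1 : D) ≤ rt (∑ i ∈ s, a i + η • (1 : D) * η • 1) :=
    (rt_unique rfl e0).ge.trans (rt_mono e1 (le_add_of_nonneg_left c0))
  have l2 : ∀ i ∈ s, rt (a i) ≤ rt (∑ i ∈ s, a i + η • (1 : D) * η • 1) := fun i hi =>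
    rt_mono (ha i hi) ((single_le_sum ha hi).trans (le_add_of_nonneg_right e1))
  have l3 := h.mono (rt_mono c0 (le_add_of_nonneg_right e1))
  have m := rt_mul c1
  have u : IsUnit (rt (∑ i ∈ s, a i + η • (1 : D) * η • 1)) :=
    CStarAlgebra.isUnit_of_le (η • (1 : D)) l1 ⟨e0, ⟨η • 1, η⁻¹ • 1,
      by rw [smul_mul_smul_comm, mul_inv_cancel₀ hη.ne', one_mul, one_smul],
      by rw [smul_mul_smul_comm, inv_mul_cancel₀ hη.ne', one_mul, one_smul]⟩, rfl⟩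
  generalize rt (∑ i ∈ s, a i + η • (1 : D) * η • 1) = w at l1 l2 l3 m u
  obtain ⟨w, rfl⟩ := u
  have k : ∀ x : D, 0 ≤ x → x ≤ w → (ρ (x * x * (w⁻¹ : Dˣ))).re ≤ (ρ x).re := fun x h1 h2 => by
    rw [mul_assoc, h.comm]
    exact h.mono (sandwich h1 h2 w.mul_inv w.inv_mul)
  have e : (w : D) = ∑ i ∈ s, rt (a i) * rt (a i) * (w⁻¹ : Dˣ) + η • 1 * η • 1 * (w⁻¹ : Dˣ) := by
    rw [sum_congr rfl fun i hi => by rw [rt_mul (ha i hi)], ← sum_mul, ← add_mul, ← m,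
      Units.mul_inv_cancel_right]
  have e2 : (ρ (η • (1 : D))).re = η := by rw [re_smul, h.one, Complex.one_re, mul_one]
  refine l3.trans ?_
  rw [e, map_add, map_sum, Complex.add_re, Complex.re_sum]
  exact add_le_add (sum_le_sum fun i hi => k _ (rt_nonneg _) (l2 i hi)) ((k _ e0 l1).trans e2.le)

theorem rot2 [PartialOrder D] [StarOrderedRing D] (h : Tr ρ) {a b : D} (ha : 0 ≤ a) (hb : 0 ≤ b) :
    (ρ (rt (a + b))).re ≤ (ρ (rt a)).re + (ρ (rt b)).re := by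
  simpa using rot h univ (a := ![a, b]) (fun i _ => by fin_cases i <;> assumption)

theorem sq_diff [PartialOrder D] [StarOrderedRing D] (h : Tr ρ) {a b r r' : D} (ha : 0 ≤ a)
    (hb : 0 ≤ b) (hr : 0 ≤ r) (hr' : 0 ≤ r') (e : a + r = b + r') (x : D) :
    ‖ρ (x * (rt a - rt b))‖ ≤ ‖x‖ * ((ρ (rt r)).re + (ρ (rt r')).re) := by
  have k : ∀ {a r : D}, 0 ≤ a → 0 ≤ r → ‖ρ (x * (rt (a + r) - rt a))‖ ≤ ‖x‖ * (ρ (rt r)).re :=
    fun {a r} ha hr => (h.mul_le x (sub_nonneg.2 (rt_mono ha (le_add_of_nonneg_right hr)))).trans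
      (mul_le_mul_of_nonneg_left (by
        rw [map_sub, Complex.sub_re]; linarith [rot2 h ha hr]) (norm_nonneg x))
  have e1 : x * (rt a - rt b) = x * (rt (b + r') - rt b) - x * (rt (a + r) - rt a) := by
    rw [e, ← mul_sub]; congr 1; abel
  rw [e1, map_sub, mul_add]
  exact (norm_sub_le _ _).trans ((add_le_add (k hb hr') (k ha hr)).trans_eq (add_comm _ _))

theorem quarter [PartialOrder D] [StarOrderedRing D] {d : D} (hd : IsSelfAdjoint d) :
    ∃ u v : D, 0 ≤ u ∧ 0 ≤ v ∧ d = u - v ∧ ∀ (ρ : D →ₗ[ℂ] ℂ) (η : ℝ), Tr ρ → 0 ≤ η →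
      (ρ (d ^ 2)).re ≤ η ^ 4 → (ρ (rt u)).re ≤ η ∧ (ρ (rt v)).re ≤ η := by
  refine ⟨d⁺, d⁻, CFC.posPart_nonneg d, CFC.negPart_nonneg d, (CFC.posPart_sub_negPart d hd).symm,
    fun ρ η h hη hρ => ?_⟩
  have e : d ^ 2 = d⁺ * d⁺ + d⁻ * d⁻ := by
    conv_lhs => rw [← CFC.posPart_sub_negPart d hd]
    rw [sq, mul_sub, sub_mul, sub_mul, CFC.posPart_mul_negPart, CFC.negPart_mul_posPart]
    abel
  have c : ∀ x : D, 0 ≤ x → (ρ x).re ^ 2 ≤ (ρ (x * x)).re := fun x hx => by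
    have := h.cs 1 x
    rw [star_one, one_mul, one_mul, h.one, Complex.one_re, one_mul,
      hx.isSelfAdjoint.star_eq] at this
    exact (pow_le_pow_left₀ (h.nonneg hx).1 (Complex.re_le_norm _) 2).trans this
  have k : ∀ x : D, 0 ≤ x → (ρ (x * x)).re ≤ η ^ 4 → (ρ (rt x)).re ≤ η := fun x hx h1 => by
    have a1 := c _ (rt_nonneg x)
    rw [rt_mul hx] at a1
    refine le_of_pow_le_pow_left₀ (n := 4) (by norm_num) hη ?_
    calc _ = ((ρ (rt x)).re ^ 2) ^ 2 := by ring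
      _ ≤ (ρ x).re ^ 2 := pow_le_pow_left₀ (sq_nonneg _) a1 2
      _ ≤ _ := (c x hx).trans h1
  rw [e, map_add, Complex.add_re] at hρ
  have p1 := (h.nonneg (sq0 (CFC.posPart_nonneg d))).1
  have p2 := (h.nonneg (sq0 (CFC.negPart_nonneg d))).1
  exact ⟨k _ (CFC.posPart_nonneg d) (by linarith), k _ (CFC.negPart_nonneg d) (by linarith)⟩

end Vale.Agent.P095G
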