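import Vale.Agent.P095G.PartTR
import Vale.Agent.P095G.PartROT
import Vale.Agent.P095G.PartEXT
import Vale.Agent.P095G.PartEXP
import Vale.Agent.P095G.PartCIRC
import Vale.Agent.P095G.PartAVG
import Vale.Agent.P101.PartS2

/-! Part STEP: from small almost invariant elements to tracial divisions of the unit. -/

namespace Vale.Agent.P095G

open Filter Topology Finset Vale.Agent.P101 Vale.Agent.P095 TopologicalSpace

variable {A D E F : Type} [CStarAlgebra A] [CStarAlgebra D] [CStarAlgebra E] [CStarAlgebra F]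
  {G : Type} [Group G]

namespace ST

lemma rt_map (φ : D →⋆ₐ[ℂ] E) {y : D} (hy : IsSelfAdjoint y) : φ (rt y) = rt (φ y) :=
  S2.map_cfc φ Real.continuous_sqrt hy

lemma rt_sa (y : D) : IsSelfAdjoint (rt y) := cfc_predicate _ _

lemma smul_sa (b : ℝ) {w : D} (hw : IsSelfAdjoint w) : IsSelfAdjoint ((b : ℂ) • w) := by
  rw [IsSelfAdjoint, star_smul, hw.star_eq, RCLike.star_def, Complex.conj_ofReal]

lemma haar {m : ℕ} {θ : Fin m → D →⋆ₐ[ℂ] E} (hθ : Cm θ) {y : D} (hy : Ctr y) {b x δ c η : ℝ}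
    {k : ℕ} (hb : 0 ≤ b) (hk : 0 < k) (hkb : k * b ≤ 1) (hx : 0 < x) (hη : 0 < η)
    (h1 : ∀ ρ : D →ₗ[ℂ] ℂ, Tr ρ → δ ≤ (ρ y).re ∧ (ρ (rt y)).re ≤ c)
    (h2 : x ≤ δ / 5 - c ^ 2) (h3 : 1 ≤ η ^ 2 * (m * (b ^ 2 * x))) {τ : E →ₗ[ℂ] ℂ} (hτ : Tr τ) :
    ‖τ (ex k (∑ j, θ j ((b : ℂ) • rt y)))‖ ≤ η := by
  have e : ex k ((b : ℂ) • rt y) = ex (k * b : ℝ) (rt y) := by
    rw [ex, ex, smul_smul]
    congr 2
    push_cast
    ring
  have hk1 : (1 : ℝ) ≤ k := by exact_mod_cast hk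
  have h4 : b ^ 2 * x ≤ (k * b) ^ 2 * (δ / 5 - c ^ 2) :=
    mul_le_mul (pow_le_pow_left₀ hb (le_mul_of_one_le_left hb hk1) 2) h2 hx.le (sq_nonneg _)
  rw [ex_sum hθ, e]
  refine (ext_bound hθ _ (r := Real.exp (-(b ^ 2 * x) / 2)) (fun ρ hρ => ?_) hτ).trans ?_
  · refine (sq_le_sq₀ (norm_nonneg _) (Real.exp_pos _).le).1 ?_
    refine (ex_one hρ hy (by positivity) hkb (h1 ρ hρ).1 (h1 ρ hρ).2).trans ?_
    rw [← Real.exp_nat_mul]
    have := Real.add_one_le_exp ((2 : ℕ) * (-(b ^ 2 * x) / 2))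
    push_cast at this ⊢
    linarith
  · rw [Fintype.card_fin, ← Real.exp_nat_mul]
    refine (sq_le_sq₀ (Real.exp_pos _).le hη.le).1 ?_
    rw [← Real.exp_nat_mul]
    have e2 : ((2 : ℕ) : ℝ) * (m * (-(b ^ 2 * x) / 2)) = -(m * (b ^ 2 * x)) := by push_cast; ring
    rw [e2, Real.exp_neg, inv_le_comm₀ (Real.exp_pos _) (by positivity), inv_le_iff_one_le_mul₀'
      (by positivity)]
    have := Real.add_one_le_exp (m * (b ^ 2 * x))
    nlinarith [sq_nonneg η]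

lemma defect [PartialOrder D] [StarOrderedRing D] {m : ℕ} (θ : Fin m → D →⋆ₐ[ℂ] E) {y y' r r' : D}
    (hy : 0 ≤ y) (hy' : 0 ≤ y') (hr : 0 ≤ r) (hr' : 0 ≤ r') (e : y + r = y' + r') {b c : ℝ}
    (hb : 0 ≤ b) (hb1 : b ≤ 1) (hc0 : 0 ≤ c)
    (hc : ∀ ρ : D →ₗ[ℂ] ℂ, Tr ρ → (ρ (rt r)).re + (ρ (rt r')).re ≤ c)
    {τ : E →ₗ[ℂ] ℂ} (hτ : Tr τ) (x : E) :
    ‖τ (x * (∑ j, θ j ((b : ℂ) • rt y') - ∑ j, θ j ((b : ℂ) • rt y)))‖ ≤ ‖x‖ * (m * c) := by
  letI := CStarAlgebra.spectralOrder E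
  haveI := CStarAlgebra.spectralOrderedRing E
  have h1 : ∀ j, ‖τ (x * (θ j ((b : ℂ) • rt y') - θ j ((b : ℂ) • rt y)))‖ ≤ ‖x‖ * c := fun j => by
    have h2 := sq_diff hτ (map_nonneg (θ j) hy') (map_nonneg (θ j) hy) (map_nonneg (θ j) hr')
      (map_nonneg (θ j) hr) (by rw [← map_add, ← map_add, e]) x
    have h3 := hc _ (hτ.comp (θ j))
    rw [← rt_map _ hr.isSelfAdjoint, ← rt_map _ hr'.isSelfAdjoint, ← rt_map _ hy.isSelfAdjoint,
      ← rt_map _ hy'.isSelfAdjoint] at h2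
    rw [map_smul, map_smul, ← smul_sub, mul_smul_comm, map_smul, norm_smul, Complex.norm_real,
      Real.norm_of_nonneg hb]
    have h4 : ‖x‖ * ((τ (θ j (rt r'))).re + (τ (θ j (rt r))).re) ≤ ‖x‖ * c :=
      mul_le_mul_of_nonneg_left (by rw [add_comm]; exact h3) (norm_nonneg x)
    exact (mul_le_of_le_one_left (norm_nonneg _) hb1).trans (h2.trans h4)
  rw [← sum_sub_distrib, mul_sum, map_sum]
  refine (norm_sum_le _ _).trans ((sum_le_sum fun j _ => h1 j).trans (le_of_eq ?_))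
  rw [sum_const, card_univ, Fintype.card_fin, nsmul_eq_mul]
  ring

lemma arith {c L j η : ℝ} (hc : 0 < c) (hL : 1 ≤ L) (hη : 0 < η)
    (h : L - j ≤ η / (16 * c) * Real.sqrt L) :
    2 * (c * (320 * L) * (2 * ((L - j) * (2 / (320 * L)) + L * (η / (8 * (c * (320 * L)) * L))) /
      Real.sqrt L)) ≤ η := by
  have h1 : 1 ≤ Real.sqrt L := Real.one_le_sqrt.2 hL
  have e : 2 * (c * (320 * L) * (2 * ((L - j) * (2 / (320 * L)) +
      L * (η / (8 * (c * (320 * L)) * L))) / Real.sqrt L)) =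
        (8 * c * (L - j) + η / 2) / Real.sqrt L := by
    field_simp
    ring
  rw [e, div_le_iff₀ (by positivity)]
  have h2 : 8 * c * (L - j) ≤ 8 * c * (η / (16 * c) * Real.sqrt L) :=
    mul_le_mul_of_nonneg_left h (by positivity)
  have e2 : 8 * c * (η / (16 * c) * Real.sqrt L) = η / 2 * Real.sqrt L := by
    field_simp
    ring
  nlinarith

end ST

open ST in
theorem step {σ : G →* (F ≃⋆ₐ[ℂ] F)} (hσ : CpG σ) {S N : Subgroup G} (hF : Fol S N)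
    (hN : Sm σ N) : Gam σ S := by
  classical
  intro n hn K hK ε hε
  obtain ⟨k₀, η, f, hk₀, hη, f1, f2, f3, f4⟩ := circ n hn ε hε
  have hk : (1 : ℝ) ≤ k₀ := by exact_mod_cast hk₀
  set b : ℝ := (k₀ : ℝ)⁻¹ with hbd
  have hb : 0 < b := by positivity
  have hb1 : b ≤ 1 := inv_le_one_of_one_le₀ hk
  obtain ⟨c, hc⟩ := exists_nat_gt (80 / (η ^ 2 * b ^ 2))
  have hc0 : (0 : ℝ) < c := lt_trans (by positivity) hc
  obtain ⟨L, h, hL, hJ⟩ := hF K hK (η / (16 * c)) (by positivity)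
  have hL1 : (1 : ℝ) ≤ L := by exact_mod_cast hL
  have : Nonempty (Fin L → Fin L) := ⟨id⟩
  choose! J φ hφ hmem hcard using hJ
  set η' : ℝ := η / (8 * (c * (320 * L)) * L) with hη'
  have hη0 : 0 < η' := by positivity
  obtain ⟨D, _, _, β, ι, p, hι, hp, hρ⟩ := hN (320 * L) (by omega)
    (K.biUnion fun g => (J g).image fun i => (h (φ g i))⁻¹ * g * h i) (by
      intro x hx
      obtain ⟨g, hg, hx⟩ := mem_biUnion.1 hx
      obtain ⟨i, hi, rfl⟩ := mem_image.1 hx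
      exact hmem g hg i hi) (η' ^ 4) (by positivity)
  obtain ⟨E, _, _, γ, κ, θ, hκ, hθ, hcm⟩ := hσ D β ι hι (c * (320 * L))
  letI := CStarAlgebra.spectralOrder D
  haveI := CStarAlgebra.spectralOrderedRing D
  obtain ⟨hy, hy'⟩ := avg_basic β hp (fun ρ h => ⟨(hρ ρ h).1, (hρ ρ h).2.1⟩) hL h
  set y : D := (L : ℝ)⁻¹ • ∑ i, β (h i) p with hyd
  have y0 : 0 ≤ y := (StarOrderedRing.nonneg_iff_spectrum_nonneg (R := ℝ) y hy.1).2
    fun t ht => (hy.2 ht).1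
  have sa : ∀ z : D, IsSelfAdjoint (∑ j, θ j ((b : ℂ) • rt z)) := fun z =>
    isSelfAdjoint_sum _ fun j _ => (smul_sa b (rt_sa z)).map _
  refine ⟨E, inferInstance, inferInstance, γ, κ, fun i => cfc (f i) (∑ j, θ j ((b : ℂ) • rt y)),
    hκ, fun i => Ctr.cfc (f2 i), fun i j hij => ?_, fun τ hτ i => ⟨?_, fun g hg => ?_⟩⟩
  · rw [← cfc_mul _ _ _ (f1 i).continuousOn (f1 j).continuousOn]
    simp only [f3 i j _ hij, cfc_const_zero]
  · refine (f4 E τ hτ _ (sa y)).1 (fun k h1 h2 => haar hcm hy (x := 1 / (80 * (320 * L))) hb.le h1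
      ?_ (by positivity) hη hy' (le_of_eq ?_) ?_ hτ) i
    · rw [hbd, ← div_eq_mul_inv, div_le_one (by positivity)]
      exact_mod_cast h2
    · rw [mul_pow, Real.sq_sqrt (by positivity)]
      push_cast
      field_simp
      ring
    · rw [div_lt_iff₀ (by positivity)] at hc
      have e : η ^ 2 * (((c * (320 * L) : ℕ) : ℝ) * (b ^ 2 * (1 / (80 * (320 * L))))) =
          c * (η ^ 2 * b ^ 2) / 80 := by
        push_cast
        field_simp
      rw [e]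
      linarith
  · obtain ⟨r, r', hr, hr', e, hb'⟩ := avg β hp hη0.le (fun ρ h => (hρ ρ h).2.1) hL h g (J g) (φ g)
      (hφ g hg) fun ρ h i hi => (hρ ρ h).2.2 _
        (mem_biUnion.2 ⟨g, hg, mem_image_of_mem _ hi⟩)
    have e1 : γ g (∑ j, θ j ((b : ℂ) • rt y)) = ∑ j, θ j ((b : ℂ) • rt (β g y)) := by
      rw [map_sum]
      refine sum_congr rfl fun j _ => ?_
      rw [← hθ j g, map_smul (β g)]
      exact congrArg (fun z => θ j ((b : ℂ) • z)) (rt_map (β g : D →⋆ₐ[ℂ] D) hy.1)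
    have e2 : γ g (cfc (f i) (∑ j, θ j ((b : ℂ) • rt y))) =
        cfc (f i) (∑ j, θ j ((b : ℂ) • rt (β g y))) := by
      rw [← e1]
      exact S2.map_cfc (γ g : E →⋆ₐ[ℂ] E) (f1 i) (sa y)
    rw [e2]
    have hj : ((J g).card : ℝ) ≤ L := by
      exact_mod_cast (card_le_univ _).trans_eq (Fintype.card_fin L)
    refine (f4 E τ hτ _ (sa y)).2 _ (sa _) ((ex_diff hτ (sa _) (sa y) (defect θ y0
      (map_nonneg (β g : D →⋆ₐ[ℂ] D) y0) hr hr' e hb.le hb1 ?_ hb' hτ)).trans ?_) i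
    · have : (0 : ℝ) ≤ L - (J g).card := sub_nonneg.2 hj
      positivity
    · have := arith hc0 hL1 hη (hcard g hg)
      push_cast
      exact this

end Vale.Agent.P095G
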