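import Vale.Agent.P095G.Work

/-! Part SUB of P095G: separable invariant subalgebras. -/

namespace Vale.Agent.P095G

open Filter Topology Finset Vale.Agent.P101 Vale.Agent.P095 TopologicalSpace

variable {F : Type} [CStarAlgebra F] {G : Type} [Group G]

/-- Restriction of an action to an invariant closed subalgebra. -/
theorem restrict (σ : G →* (F ≃⋆ₐ[ℂ] F)) (D : StarSubalgebra ℂ F)
    (inv : ∀ g, ∀ x ∈ D, σ g x ∈ D) :
    ∃ β : G →* (D ≃⋆ₐ[ℂ] D), ∀ g (d : D), (β g d : F) = σ g d := by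
  let f : G → D →⋆ₐ[ℂ] D := fun g =>
    ((σ g : F →⋆ₐ[ℂ] F).comp D.subtype).codRestrict D fun x => inv g x.1 x.2
  have hf : ∀ g (x : D), (f g x : F) = σ g x := fun g x => rfl
  have h1 : ∀ g h (x : D), g * h = 1 → f g (f h x) = x := fun g h x e => Subtype.ext (by
    rw [hf, hf]
    have : σ g (σ h x) = (σ g * σ h) x := rfl
    rw [this, ← map_mul, e, map_one]
    rfl)
  let b : G → D ≃⋆ₐ[ℂ] D := fun g => StarAlgEquiv.ofStarAlgHom (f g) (f g⁻¹)
    (StarAlgHom.ext fun x => h1 _ _ x (inv_mul_cancel g))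
    (StarAlgHom.ext fun x => h1 _ _ x (mul_inv_cancel g))
  have hb : ∀ g (x : D), (b g x : F) = σ g x := fun g x => rfl
  refine ⟨MonoidHom.mk' b fun g h => ?_, hb⟩
  ext x
  have : (b g * b h) x = b g (b h x) := rfl
  rw [this, hb, hb, hb, map_mul]
  rfl

theorem sub [Countable G] (σ : G →* (F ≃⋆ₐ[ℂ] F)) {T : Set F} (hT : IsSeparable T) :
    ∃ (D : Type) (_ : CStarAlgebra D) (_ : SeparableSpace D) (β : G →* (D ≃⋆ₐ[ℂ] D))
      (ι : D →⋆ₐ[ℂ] F), Eqv β σ ι ∧ Function.Injective ι ∧ T ⊆ Set.range ι := by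
  obtain ⟨c, hc, hTc⟩ := hT
  let O : Set F := ⋃ g, σ g '' c
  have hO : O.Countable := Set.countable_iUnion fun g => hc.image _
  let D : StarSubalgebra ℂ F := (StarAlgebra.adjoin ℂ O).topologicalClosure
  have hD : IsClosed (D : Set F) := StarSubalgebra.isClosed_topologicalClosure _
  have hOD : O ⊆ D := fun x hx =>
    StarSubalgebra.le_topologicalClosure _ (StarAlgebra.subset_adjoin _ _ hx)
  have inv : ∀ g, ∀ x ∈ D, σ g x ∈ D := by
    intro g
    have h1 : StarAlgebra.adjoin ℂ O ≤ D.comap (σ g : F →⋆ₐ[ℂ] F) := StarAlgebra.adjoin_le (by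
      rintro x hx
      obtain ⟨h, y, hy, rfl⟩ := Set.mem_iUnion.1 hx
      change σ g (σ h y) ∈ D
      exact hOD (Set.mem_iUnion.2 ⟨g * h, y, hy, by rw [map_mul]; rfl⟩))
    exact fun x hx => StarSubalgebra.topologicalClosure_minimal h1
      (hD.preimage (U2.hom_cont (σ g : F →⋆ₐ[ℂ] F))) hx
  obtain ⟨β, hβ⟩ := restrict σ D inv
  have hs : IsSeparable (D : Set F) := (U2.sep_adjoin hO).closure
  refine ⟨D, inferInstance, hs.separableSpace, β, D.subtype, hβ, Subtype.val_injective,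
    fun t ht => ⟨⟨t, ?_⟩, rfl⟩⟩
  refine hD.closure_subset_iff.2 (fun y hy => hOD (Set.mem_iUnion.2 ⟨1, y, hy, ?_⟩)) (hTc ht)
  rw [map_one]
  rfl

end Vale.Agent.P095G
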