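import Vale.Agent.P095G.PartTR
import Vale.Agent.P095G.PartSUB
import Vale.Agent.P101.Glue

/-! Part BASE of P095G. -/

namespace Vale.Agent.P095G

open Filter Topology Finset Vale.Agent.P101 Vale.Agent.P095 TopologicalSpace

variable {A D E F : Type} [CStarAlgebra A] [CStarAlgebra D] [CStarAlgebra E] [CStarAlgebra F]
  {G : Type} [Group G] {ρ : D →ₗ[ℂ] ℂ} {ω : Ultrafilter ℕ}

namespace BS

lemma tr_oz {κ : Type} [Fintype κ] [DecidableEq κ] {M : κ → κ → D} {h : D} (H : OZ M h)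
    (hρ : Tr ρ) (o : κ) (k : ℕ) :
    (Fintype.card κ : ℝ) * (ρ (h ^ k * (h * M o o))).re = (ρ (h ^ k * (h * h))).re := by
  have e : ∀ i, ρ (h ^ k * (h * M i i)) = ρ (h ^ k * (h * M o o)) := fun i => by
    have e1 : h * M i i = M i o * M o i := by rw [H.mul, if_pos rfl]
    have e2 : h * M o o = M o i * M i o := by rw [H.mul, if_pos rfl]
    rw [e1, e2, ← mul_assoc, hρ.comm, ← mul_assoc, ← ((H.comm o i).pow_left k).eq, mul_assoc]
  have : ρ (h ^ k * (h * h)) = Fintype.card κ * ρ (h ^ k * (h * M o o)) := by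
    conv_lhs => enter [2, 2, 2]; rw [← H.sum]
    rw [mul_sum, mul_sum, map_sum, sum_congr rfl fun i _ => e i, sum_const, card_univ,
      nsmul_eq_mul]
  rw [this, Complex.mul_re]
  simp

lemma sq_le [PartialOrder D] [StarOrderedRing D] {κ : Type} [Fintype κ] [DecidableEq κ]
    {M : κ → κ → D} {h : D} (H : OZ M h) (o : κ) : 0 ≤ h * M o o ∧ h * M o o ≤ h * h := by
  have e : ∀ i, 0 ≤ h * M i i := fun i => by
    have := star_mul_self_nonneg (M i i)
    rwa [H.st, H.mul, if_pos rfl] at this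
  refine ⟨e o, ?_⟩
  conv_rhs => enter [2]; rw [← H.sum]
  rw [mul_sum]
  exact single_le_sum (f := fun i => h * M i i) (fun i _ => e i) (mem_univ o)

lemma rt_sq [PartialOrder D] [StarOrderedRing D] {w : D} (hw : 0 ≤ w) : rt (w * w) = w := by
  have sw := hw.isSelfAdjoint
  have e : w * w = cfc (fun t : ℝ => t * t) w := by rw [cfc_mul _ _ w, cfc_id' ℝ w]
  rw [rt, e, ← cfc_comp' _ _ w]
  conv_rhs => rw [← cfc_id' ℝ w]
  exact cfc_congr fun t ht => Real.sqrt_mul_self (spectrum_nonneg_of_nonneg hw ht)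

lemma ctr_sq [PartialOrder D] [StarOrderedRing D] {w : D} (hw : 0 ≤ w) (h1 : w ≤ 1) :
    Ctr (w * w) := by
  have h0 : 0 ≤ w * w := by simpa only [hw.isSelfAdjoint.star_eq] using star_mul_self_nonneg w
  refine ⟨h0.isSelfAdjoint, fun t ht => ⟨spectrum_nonneg_of_nonneg h0 ht, ?_⟩⟩
  have : Nontrivial D := by
    rcases subsingleton_or_nontrivial D with _ | h
    · simp [spectrum.of_subsingleton] at ht
    · exact h
  have n1 := (CStarAlgebra.norm_le_one_iff_of_nonneg w hw).2 h1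
  exact (le_abs_self t).trans ((spectrum.norm_le_norm_of_mem ht).trans
    ((norm_mul_le_of_le n1 n1).trans (by norm_num)))

lemma core {m : ℕ} (hm : 0 < m) {α : Fin m → Fin m → D} {β : Option (Fin m) → Option (Fin m) → D}
    {z : D} (h1 : OZ α (1 - z)) (h2 : OZ β z) (h3 : Ctr z)
    (h4 : ∀ a b c d, Commute (α a b) (β c d)) : ∃ p : D, Ctr p ∧ ∀ ρ : D →ₗ[ℂ] ℂ, Tr ρ →
      1 / (8 * (m + 1) : ℝ) ≤ (ρ p).re ∧ (ρ (rt p)).re ≤ 1 / m := by
  let := CStarAlgebra.spectralOrder D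
  have := CStarAlgebra.spectralOrderedRing D
  let o : Fin m := ⟨0, hm⟩
  obtain ⟨x0, x1⟩ := sq_le h1 o
  obtain ⟨y0, y1⟩ := sq_le h2 none
  have z1 : (1 - z) * (1 - z) + z * z ≤ 1 := by
    have e : cfc (fun t : ℝ => (1 - t) * (1 - t) + t * t) z = (1 - z) * (1 - z) + z * z := by
      have sz := h3.1
      rw [cfc_add z _ _, cfc_mul _ _ z, cfc_mul _ _ z, cfc_sub _ _ z, cfc_const_one ℝ z,
        cfc_id' ℝ z]
    rw [← e]
    refine cfc_le_one _ _ fun t ht => ?_
    have := h3.2 ht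
    nlinarith [this.1, this.2]
  have w0 := add_nonneg x0 y0
  refine ⟨_, ctr_sq w0 ((add_le_add x1 y1).trans z1), fun ρ hρ => ⟨?_, ?_⟩⟩
  · have a1 := tr_oz h1 hρ o 2
    have a2 := tr_oz h2 hρ none 2
    have ex : (1 - z) * α o o * ((1 - z) * α o o) = (1 - z) ^ 2 * ((1 - z) * α o o) := by
      rw [mul_assoc, ← (h1.comm o o).left_comm, h1.mul, if_pos rfl, sq, mul_assoc]
    have ey : z * β none none * (z * β none none) = z ^ 2 * (z * β none none) := by
      rw [mul_assoc, ← (h2.comm none none).left_comm, h2.mul, if_pos rfl, sq, mul_assoc]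
    have exy : 0 ≤ (1 - z) * α o o * (z * β none none) := by
      have := star_mul_self_nonneg (α o o * β none none)
      rwa [star_mul, h1.st, h2.st, ← (h4 o o none none).eq,
        (h4 o o none none).symm.mul_mul_mul_comm, h1.mul, h2.mul, if_pos rfl, if_pos rfl] at this
    have eyx : 0 ≤ z * β none none * ((1 - z) * α o o) := by
      have := star_mul_self_nonneg (β none none * α o o)
      rwa [star_mul, h1.st, h2.st, (h4 o o none none).eq,
        (h4 o o none none).mul_mul_mul_comm, h1.mul, h2.mul, if_pos rfl, if_pos rfl] at this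
    have l1 : (1 - z) ^ 2 * ((1 - z) * α o o) + z ^ 2 * (z * β none none) ≤
        ((1 - z) * α o o + z * β none none) * ((1 - z) * α o o + z * β none none) := by
      rw [add_mul, mul_add, mul_add, ex, ey]
      exact add_le_add (le_add_of_nonneg_right exy) (le_add_of_nonneg_left eyx)
    have l2 := hρ.mono l1
    have su : star (z + z - 1) = z + z - 1 := by rw [star_sub, star_add, h3.1.star_eq, star_one]
    have l3 : (1 : D) ≤ 8 • ((1 - z) ^ 2 * ((1 - z) * (1 - z)) + z ^ 2 * (z * z)) := by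
      have e : 8 • ((1 - z) ^ 2 * ((1 - z) * (1 - z)) + z ^ 2 * (z * z)) =
          1 + (6 • ((z + z - 1) * (z + z - 1)) +
            (z + z - 1) * (z + z - 1) * ((z + z - 1) * (z + z - 1))) := by noncomm_ring
      have p1 := star_mul_self_nonneg (z + z - 1)
      have p2 := star_mul_self_nonneg ((z + z - 1) * (z + z - 1))
      rw [star_mul, su] at p2
      rw [su] at p1
      rw [e]
      exact le_add_of_nonneg_right (add_nonneg (nsmul_nonneg p1 6) p2)
    have l4 := hρ.mono l3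
    have l6 : 0 ≤ (1 - z) ^ 2 * ((1 - z) * α o o) := by
      have := star_mul_self_nonneg ((1 - z) * α o o)
      rwa [x0.isSelfAdjoint.star_eq, ex] at this
    have l5 := (hρ.nonneg l6).1
    rw [map_nsmul, map_add, hρ.one, nsmul_eq_mul] at l4
    rw [map_add, Complex.add_re] at l2
    simp only [Fintype.card_fin, Fintype.card_option, Nat.cast_add, Nat.cast_one] at a1 a2
    simp only [Complex.one_re, Complex.mul_re, Complex.add_re, Complex.natCast_re,
      Complex.natCast_im, zero_mul, sub_zero] at l4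
    rw [Nat.cast_ofNat] at l4
    rw [div_le_iff₀ (by positivity)]
    have m0 : (0 : ℝ) ≤ m + 1 := by positivity
    nlinarith [mul_le_mul_of_nonneg_left l2 m0]
  · have a1 := tr_oz h1 hρ o 0
    have a2 := tr_oz h2 hρ none 0
    have l4 := hρ.mono z1
    have l5 := (hρ.nonneg y0).1
    rw [map_add, hρ.one, Complex.add_re, Complex.one_re] at l4
    simp only [Fintype.card_fin, Fintype.card_option, Nat.cast_add, Nat.cast_one, pow_zero,
      one_mul] at a1 a2
    rw [rt_sq w0, map_add, Complex.add_re, le_div_iff₀ (by exact_mod_cast hm)]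
    nlinarith

end BS

theorem base [Countable G] (σ : G →* (F ≃⋆ₐ[ℂ] F)) (hF : Cp F) (h : IsEmpty (F →⋆ₐ[ℂ] ℂ)) :
    Sm σ ⊥ := by
  intro n hn K hK ε hε
  obtain ⟨m, hm, m1, m2⟩ : ∃ m : ℕ, 0 < m ∧ n ≤ 2 * m ∧ (n = 1 ∨ m + 1 = n) := by
    rcases Nat.lt_or_ge 1 n with h1 | h1
    · exact ⟨n - 1, by omega, by omega, Or.inr (by omega)⟩
    · exact ⟨1, one_pos, by omega, Or.inl (by omega)⟩
  obtain ⟨y, k, b, d, c, hy, h1⟩ := nonscalar hF h
  obtain ⟨v, b, hb, hv⟩ := exists_v (κ := Fin m) hF (P101.split hF hy h1)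
  obtain ⟨M, h, L, t, H⟩ := good ⟨0, hm⟩ hb hv
  obtain ⟨M, h, v, a1, a2, a3, a4⟩ := exists_rw hF H
  obtain ⟨α, β, z, b1, b2, b3, b4⟩ := rw_step a1 a2 a3 a4
  obtain ⟨D, _, _, γ, ι, c1, c2, c3⟩ := sub σ
    (T := (Set.range fun q : Fin m × Fin m => α q.1 q.2) ∪
      (Set.range fun q : Option (Fin m) × Option (Fin m) => β q.1 q.2) ∪ {z})
    (((Set.finite_range _).union (Set.finite_range _)).union (Set.finite_singleton _)).isSeparable
  have d1 : ∀ a b, ∃ x, ι x = α a b := fun a b => c3 (Or.inl (Or.inl ⟨(a, b), rfl⟩))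
  have d2 : ∀ a b, ∃ x, ι x = β a b := fun a b => c3 (Or.inl (Or.inr ⟨(a, b), rfl⟩))
  obtain ⟨z0, rfl⟩ : ∃ x, ι x = z := c3 (Or.inr rfl)
  choose α0 e1 using d1
  choose β0 e2 using d2
  have f0 : ∀ (p : D) (ρ : D →ₗ[ℂ] ℂ), ∀ g ∈ K, (ρ ((γ g p - p) ^ 2)).re ≤ ε := fun p ρ g hg => by
    have : g = 1 := Subgroup.mem_bot.1 (hK hg)
    rw [this, map_one]
    simpa using hε.le
  rcases m2 with rfl | rfl
  · refine ⟨D, _, ‹_›, γ, ι, 1, c1, ?_, fun ρ hρ => ⟨?_, ?_, f0 _ _⟩⟩
    · simpa using Ctr.cfc (a := (1 : D)) (f := fun _ => 1) fun _ => ⟨zero_le_one, le_rfl⟩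
    · rw [hρ.one]; norm_num
    · rw [rt, cfc_apply_one, Real.sqrt_one, map_one, hρ.one]; norm_num
  · obtain ⟨p, p1, p2⟩ := BS.core hm (α := α0) (β := β0) (z := z0)
      (OZ.comap c2 (by simpa only [e1, map_sub, map_one] using b1))
      (OZ.comap c2 (by simpa only [e2] using b2)) (Ctr.comap c2 b3)
      fun a b c d => c2 (by rw [map_mul, map_mul, e1, e2]; exact b4 a b c d)
    refine ⟨D, _, ‹_›, γ, ι, p, c1, p1, fun ρ hρ => ⟨by simpa using (p2 ρ hρ).1,
      (p2 ρ hρ).2.trans ?_, f0 _ _⟩⟩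
    rw [div_le_div_iff₀ (by exact_mod_cast hm) (by positivity), one_mul]
    exact_mod_cast m1

end Vale.Agent.P095G
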