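import Vale.Agent.P095G.PartSUB

/-! Part CPG: the action on the central sequence algebra and equivariant commuting copies. -/

namespace Vale.Agent.P095G

open Filter Topology Finset Vale.Agent.P101 Vale.Agent.P095 TopologicalSpace

variable {A D E F : Type} [CStarAlgebra A] [CStarAlgebra D] [CStarAlgebra E] [CStarAlgebra F]
  {G : Type} [Group G] {ρ : D →ₗ[ℂ] ℂ} {ω : Ultrafilter ℕ}

open U2

namespace CPG

lemma copies [SeparableSpace D] (P : (D →⋆ₐ[ℂ] F) → Prop)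
    (h : ∀ S : Set F, IsSeparable S → ∃ r : D →⋆ₐ[ℂ] F, P r ∧ ∀ d, ∀ s ∈ S, Commute (r d) s)
    (ι : Type) [Fintype ι] : ∃ θ : ι → D →⋆ₐ[ℂ] F, (∀ i, P (θ i)) ∧ Cm θ := by
  induction ι using Finite.induction_empty_option with
  | of_equiv e ih =>
    obtain ⟨θ, h1, hθ⟩ := ih
    exact ⟨fun i => θ (e.symm i), fun i => h1 _, fun i j hij => hθ _ _ (e.symm.injective.ne hij)⟩
  | h_empty => exact ⟨fun i => i.elim, fun i => i.elim, fun i => i.elim⟩
  | h_option ih =>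
    obtain ⟨θ, h1, hθ⟩ := ih
    obtain ⟨r, h2, hr⟩ := h (⋃ i, Set.range (θ i))
      (IsSeparable.iUnion fun i => isSeparable_range (hom_cont (θ i)))
    refine ⟨fun i => i.elim r θ, ?_, ?_⟩
    · rintro (_ | i)
      exacts [h2, h1 i]
    rintro (_ | i) (_ | j) hij x y
    · exact absurd rfl hij
    · exact hr x _ (Set.mem_iUnion.2 ⟨j, y, rfl⟩)
    · exact (hr y _ (Set.mem_iUnion.2 ⟨i, x, rfl⟩)).symm
    · exact hθ i j (fun e => hij (congrArg some e)) x y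

lemma act [Nontrivial A] {q : Linf A →⋆ₐ[ℂ] E} (hq : IsUlt ω q) (α : G →* (A ≃⋆ₐ[ℂ] A)) :
    ∃ σ : G →* (Cen q (id : A → A) ≃⋆ₐ[ℂ] Cen q (id : A → A)),
      ∀ g x (hx : q x ∈ Cen q (id : A → A)),
        (σ g ⟨q x, hx⟩ : E) = q (Z2.mapL (α g : A →⋆ₐ[ℂ] A) x) := by
  obtain ⟨Φ, hΦ⟩ := exists_ind hq fun g : G => (α g : A →⋆ₐ[ℂ] A)
  have hm : ∀ g h z, Φ (g * h) z = Φ g (Φ h z) := fun g h z => by
    obtain ⟨x, rfl⟩ := hq.surj z
    rw [hΦ, hΦ, hΦ]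
    exact congrArg q (lp.ext (funext fun n => by
      change α (g * h) (x n) = α g (α h (x n))
      rw [map_mul]; rfl))
  have h1 : ∀ z, Φ 1 z = z := fun z => by
    obtain ⟨x, rfl⟩ := hq.surj z
    rw [hΦ]
    exact congrArg q (lp.ext (funext fun n => by
      change α 1 (x n) = x n
      rw [map_one]; rfl))
  have hc : ∀ g (z : Cen q (id : A → A)), Φ g z ∈ Cen q (id : A → A) := fun g z =>
    mem_cen.2 fun a => by
      have e : q (cst A a) = Φ g (q (cst A (α g⁻¹ a))) := by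
        rw [hΦ]
        exact congrArg q (lp.ext (funext fun n => by
          change a = (α g * α g⁻¹) a
          rw [← map_mul, mul_inv_cancel, map_one]; rfl))
      rw [e]
      exact (mem_cen.1 z.2 _).map (Φ g)
  let s : G → Cen q (id : A → A) →⋆ₐ[ℂ] Cen q (id : A → A) := fun g =>
    ((Φ g).comp (Cen q (id : A → A)).subtype).codRestrict _ (hc g)
  have hi : ∀ g h, g * h = 1 → ∀ z, s g (s h z) = z := fun g h e z =>
    Subtype.ext ((hm g h z).symm.trans (by rw [e, h1]))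
  refine ⟨MonoidHom.mk' (fun g => StarAlgEquiv.ofStarAlgHom (s g) (s g⁻¹)
    (StarAlgHom.ext (hi _ _ (inv_mul_cancel g))) (StarAlgHom.ext (hi _ _ (mul_inv_cancel g))))
    fun g h => ?_, fun g x hx => hΦ g x⟩
  exact StarAlgEquiv.ext fun z => Subtype.ext (hm g h z)

lemma one (hω : (ω : Filter ℕ) ≤ cofinite) [Nontrivial A] [SeparableSpace A] [Countable G]
    {q : Linf A →⋆ₐ[ℂ] E} (hq : IsUlt ω q) (α : G →* (A ≃⋆ₐ[ℂ] A))
    {σ : G →* (Cen q (id : A → A) ≃⋆ₐ[ℂ] Cen q (id : A → A))}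
    (hσ : ∀ g x (hx : q x ∈ Cen q (id : A → A)),
      (σ g ⟨q x, hx⟩ : E) = q (Z2.mapL (α g : A →⋆ₐ[ℂ] A) x))
    [SeparableSpace D] {β : G →* (D ≃⋆ₐ[ℂ] D)} {ι : D →⋆ₐ[ℂ] Cen q (id : A → A)} (hι : Eqv β σ ι)
    (S : Set (Cen q (id : A → A))) (hS : IsSeparable S) :
    ∃ r : D →⋆ₐ[ℂ] Cen q (id : A → A), Eqv β σ r ∧ ∀ d, ∀ s ∈ S, Commute (r d) s := by
  choose lift hlift using hq.surj
  obtain ⟨C, hC, hC'⟩ := exists_countable_dense D
  have := hC.to_subtype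
  have hx : ∀ d : D, q (lift (ι d).1) ∈ Cen q (id : A → A) := fun d => by
    rw [hlift]; exact (ι d).2
  have hy : ∀ g (d : D), q (Z2.mapL (α g : A →⋆ₐ[ℂ] A) (lift (ι d).1)) = (ι (β g d)).1 :=
    fun g d => by
      rw [← hσ g _ (hx d), hι]
      exact congrArg (fun z => (σ g z).1) (Subtype.ext (hlift _))
  set T : Set (Linf A) := Set.range (fun c : C => lift (ι c.1).1) ∪
    Set.range fun p : G × C => Z2.mapL (α p.1 : A →⋆ₐ[ℂ] A) (lift (ι p.2.1).1) with hT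
  set H : StarSubalgebra ℂ (Linf A) := StarAlgebra.adjoin ℂ T with hH
  have hHs : IsSeparable (H : Set (Linf A)) :=
    sep_adjoin ((Set.countable_range _).union (Set.countable_range _))
  have hc : ∀ x ∈ H, q x ∈ Cen q (id : A → A) := by
    have : H ≤ (Cen q (id : A → A)).comap q := StarAlgebra.adjoin_le (by
      rintro _ (⟨c, rfl⟩ | ⟨p, rfl⟩)
      · exact hx c.1
      · change q _ ∈ Cen q (id : A → A)
        rw [hy]
        exact (ι _).2)
    exact fun x hx => this hx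
  let π0 : H →⋆ₐ[ℂ] Cen q (id : A → A) :=
    (q.comp H.subtype).codRestrict _ fun x => hc x.1 x.2
  let D1 : StarSubalgebra ℂ (Cen q (id : A → A)) := π0.range.topologicalClosure
  have hD : IsClosed (D1 : Set (Cen q (id : A → A))) :=
    StarSubalgebra.isClosed_topologicalClosure _
  let π : H →⋆ₐ[ℂ] D1 := π0.codRestrict _ fun x =>
    StarSubalgebra.le_topologicalClosure _ ⟨x, rfl⟩
  have hπ : DenseRange π := by
    rw [DenseRange, Subtype.dense_iff]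
    intro z hz
    refine closure_mono ?_ hz
    rintro _ ⟨x, rfl⟩
    exact ⟨π x, ⟨x, rfl⟩, rfl⟩
  have m1 : ∀ c : C, lift (ι c.1).1 ∈ H := fun c =>
    StarAlgebra.subset_adjoin _ _ (Or.inl ⟨c, rfl⟩)
  have m2 : ∀ g (c : C), Z2.mapL (α g : A →⋆ₐ[ℂ] A) (lift (ι c.1).1) ∈ H := fun g c =>
    StarAlgebra.subset_adjoin _ _ (Or.inr ⟨(g, c), rfl⟩)
  have hι1 : ∀ d, ι d ∈ D1 := fun d =>
    hC'.induction (P := fun d => ι d ∈ D1) (fun c hc => StarSubalgebra.le_topologicalClosure _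
      ⟨⟨_, m1 ⟨c, hc⟩⟩, Subtype.ext (hlift _)⟩) (hD.preimage (hom_cont ι)) d
  obtain ⟨S0, hS0S, hS0, hSS0⟩ := hS.exists_countable_dense_subset
  obtain ⟨a, ha, ha'⟩ := exists_countable_dense A
  obtain ⟨m, hm⟩ := reindex hω hq hHs hc
    ((hS0.image fun s => lift s.1).union (ha.image (cst A)))
  have hR : ∀ x : H, q (rx m x.1) ∈ Cen q (id : A → A) := fun x => mem_cen.2 fun b =>
    ha'.induction (P := fun b => Commute (q (rx m x.1)) (q (cst A b)))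
      (fun b hb => (hm x.1 x.2).2 _ (Or.inr ⟨b, hb, rfl⟩))
      (isClosed_commute continuous_const ((hom_cont q).comp continuous_cst)) b
  obtain ⟨r, hr⟩ := extend_hom π hπ
    ((q.comp ((rx m).comp H.subtype)).codRestrict (Cen q (id : A → A)) hR) fun x => (hm x.1 x.2).1
  let r' : D →⋆ₐ[ℂ] Cen q (id : A → A) := r.comp (ι.codRestrict D1 hι1)
  refine ⟨r', fun g d => ?_, fun d s hs => ?_⟩
  · refine hC'.induction (P := fun d => r' (β g d) = σ g (r' d)) (fun c hc => ?_)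
      (isClosed_eq ((hom_cont r').comp (hom_cont (β g : D →⋆ₐ[ℂ] D)))
        ((hom_cont (σ g : Cen q (id : A → A) →⋆ₐ[ℂ] Cen q (id : A → A))).comp (hom_cont r'))) d
    have e1 : r' c = ⟨_, hR ⟨_, m1 ⟨c, hc⟩⟩⟩ :=
      (congrArg r (Subtype.ext (Subtype.ext (hlift _).symm))).trans (hr ⟨_, m1 ⟨c, hc⟩⟩)
    have e2 : r' (β g c) = ⟨_, hR ⟨_, m2 g ⟨c, hc⟩⟩⟩ :=
      (congrArg r (Subtype.ext (Subtype.ext (hy g c).symm))).trans (hr ⟨_, m2 g ⟨c, hc⟩⟩)
    rw [e1, e2]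
    exact Subtype.ext (hσ g (rx m (lift (ι c).1)) (hR ⟨_, m1 ⟨c, hc⟩⟩)).symm
  refine hπ.induction_on (p := fun d => Commute (r d) s) (ι.codRestrict D1 hι1 d)
    (isClosed_commute (hom_cont r) continuous_const) fun x => ?_
  refine (isClosed_commute (f := fun _ => r (π x)) (g := id) continuous_const
    continuous_id).closure_subset_iff.2 (fun s hs => ?_) (hSS0 hs)
  have := (hm x.1 x.2).2 _ (Or.inl ⟨s, hs, rfl⟩)
  rw [hlift] at this
  change Commute (r (π x)) s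
  rw [hr]
  exact Subtype.ext this.eq

end CPG

theorem cpg (hω : (ω : Filter ℕ) ≤ cofinite) [Nontrivial A] [SeparableSpace A] [Countable G]
    {q : Linf A →⋆ₐ[ℂ] E} (hq : IsUlt ω q) (α : G →* (A ≃⋆ₐ[ℂ] A)) :
    ∃ σ : G →* (Cen q (id : A → A) ≃⋆ₐ[ℂ] Cen q (id : A → A)), CpG σ ∧
      ∀ g x (hx : q x ∈ Cen q (id : A → A)),
        (σ g ⟨q x, hx⟩ : E) = q (Z2.mapL (α g : A →⋆ₐ[ℂ] A) x) := by
  obtain ⟨σ, hσ⟩ := CPG.act hq α
  refine ⟨σ, fun D _ _ β ι hι m => ?_, hσ⟩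
  obtain ⟨θ, h1, h2⟩ := CPG.copies (Eqv β σ) (CPG.one hω hq α hσ hι) (Fin m)
  obtain ⟨E', _, _, γ, κ, k1, k2, k3⟩ := sub σ (T := ⋃ j, Set.range (θ j))
    (IsSeparable.iUnion fun j => isSeparable_range (hom_cont (θ j)))
  let η : Fin m → D →⋆ₐ[ℂ] E' := fun j =>
    ((StarAlgEquiv.ofInjective κ k2).symm : κ.range →⋆ₐ[ℂ] E').comp
      ((θ j).codRestrict κ.range fun d => k3 (Set.mem_iUnion.2 ⟨j, d, rfl⟩))
  have hη : ∀ j d, κ (η j d) = θ j d := fun j d =>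
    congrArg Subtype.val ((StarAlgEquiv.ofInjective κ k2).apply_symm_apply
      ⟨θ j d, k3 (Set.mem_iUnion.2 ⟨j, d, rfl⟩)⟩)
  refine ⟨E', inferInstance, inferInstance, γ, κ, η, k1, fun j g d => k2 ?_,
    fun i j hij x y => k2 ?_⟩
  · rw [k1, hη, hη, h1 j]
  · rw [map_mul, map_mul, hη, hη]
    exact h2 i j hij x y

end Vale.Agent.P095G
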