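import Vale.Agent.P095G.PartTR

/-! PART FIN. -/

namespace Vale.Agent.P095G

open Filter Topology Finset Vale.Agent.P101 Vale.Agent.P095 TopologicalSpace

variable {A D E F : Type} [CStarAlgebra A] [CStarAlgebra D] [CStarAlgebra E] [CStarAlgebra F]
  {G : Type} [Group G] {ρ : D →ₗ[ℂ] ℂ} {ω : Ultrafilter ℕ}

namespace FIN

/-- Evaluation at a coordinate. -/
noncomputable def ev [Nontrivial A] (m : ℕ) : Linf A →⋆ₐ[ℂ] A where
  toFun x := x m
  map_one' := rfl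
  map_mul' _ _ := rfl
  map_zero' := rfl
  map_add' _ _ := rfl
  commutes' _ := rfl
  map_star' _ := rfl

theorem lift_ctr (q : D →⋆ₐ[ℂ] E) (hq : Function.Surjective q) {e : E} (he : Ctr e) :
    ∃ y, q y = e ∧ Ctr y := by
  obtain ⟨x, hx⟩ := hq e
  have h1 : IsSelfAdjoint ((2 : ℂ)⁻¹ • (x + star x)) := by
    rw [IsSelfAdjoint, star_smul, star_add, star_star, add_comm]
    simp
  have h2 : q ((2 : ℂ)⁻¹ • (x + star x)) = e := by
    rw [map_smul, map_add, map_star, hx, he.1.star_eq, ← two_smul ℂ e, smul_smul]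
    simp
  refine ⟨cfc (fun t : ℝ => max 0 (min t 1)) ((2 : ℂ)⁻¹ • (x + star x)), ?_,
    Ctr.cfc fun t => ⟨le_max_left _ _, max_le zero_le_one (min_le_right _ _)⟩⟩
  rw [StarAlgHom.map_cfc q _ _ (by fun_prop) (U2.hom_cont q) h1 (h1.map q), h2]
  conv_rhs => rw [← cfc_id' ℝ e he.1]
  refine cfc_congr fun t ht => ?_
  obtain ⟨a, b⟩ := he.2 ht
  show max 0 (min t 1) = t
  rw [min_eq_left b, max_eq_right a]

theorem lim_tr [Nontrivial A] {q : Linf A →⋆ₐ[ℂ] E} (hq : IsUlt ω q) (τ : ℕ → A →ₗ[ℂ] ℂ)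
    (hτ : ∀ m, Tr (τ m)) : ∃ T : E →ₗ[ℂ] ℂ, Tr T ∧
      ∀ x, Tendsto (fun m => τ m (x m)) ω (𝓝 (T (q x))) := by
  have h1 : ∀ x : Linf A, ∃ l, Tendsto (fun m => τ m (x m)) ω (𝓝 l) := fun x => by
    obtain ⟨l, -, hl⟩ := (isCompact_closedBall (0 : ℂ) ‖x‖).ultrafilter_le_nhds
      (ω.map fun m => τ m (x m))
      (le_principal_iff.2 (mem_map.2 (Eventually.of_forall fun m =>
        mem_closedBall_zero_iff.2 (((hτ m).norm_le _).trans (U1.le x m)))))
    exact ⟨l, hl⟩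
  choose L hL using h1
  have h2 : ∀ x y : Linf A, q x = q y → L x = L y := fun x y h => by
    have a : Tendsto (fun m => τ m (x m) - τ m (y m)) ω (𝓝 0) :=
      squeeze_zero_norm (fun m => by rw [← map_sub]; exact (hτ m).norm_le _)
        ((U1.eq_iff hq x y).1 h)
    exact sub_eq_zero.1 (tendsto_nhds_unique ((hL x).sub (hL y)) a)
  have key : ∀ x, L (Function.surjInv hq.surj (q x)) = L x := fun x =>
    h2 _ _ (Function.surjInv_eq hq.surj _)
  let T : E →ₗ[ℂ] ℂ :=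
    { toFun := fun e => L (Function.surjInv hq.surj e)
      map_add' := fun a b => by
        obtain ⟨a, rfl⟩ := hq.surj a
        obtain ⟨b, rfl⟩ := hq.surj b
        rw [← map_add, key, key, key]
        exact tendsto_nhds_unique (hL _) (((hL a).add (hL b)).congr fun m =>
          (map_add (τ m) (a m) (b m)).symm)
      map_smul' := fun c a => by
        obtain ⟨a, rfl⟩ := hq.surj a
        rw [← map_smul, key, key]
        exact tendsto_nhds_unique (hL _) (((hL a).const_smul c).congr fun m =>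
          (map_smul (τ m) c (a m)).symm) }
  have hT : ∀ x, Tendsto (fun m => τ m (x m)) ω (𝓝 (T (q x))) := fun x => by
    have : T (q x) = L x := key x
    rw [this]
    exact hL x
  refine ⟨T, ⟨?_, fun a => ?_, fun a b => ?_⟩, hT⟩
  · rw [← map_one q]
    exact tendsto_nhds_unique (hT 1) (tendsto_const_nhds.congr fun m => (hτ m).one.symm)
  · obtain ⟨a, rfl⟩ := hq.surj a
    rw [← map_star, ← map_mul]
    refine ⟨ge_of_tendsto' ((Complex.continuous_re.tendsto _).comp (hT (star a * a)))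
      fun m => ((hτ m).pos (a m)).1, ?_⟩
    exact tendsto_nhds_unique ((Complex.continuous_im.tendsto _).comp (hT (star a * a)))
      (tendsto_const_nhds.congr fun m => ((hτ m).pos (a m)).2.symm)
  · obtain ⟨a, rfl⟩ := hq.surj a
    obtain ⟨b, rfl⟩ := hq.surj b
    rw [← map_mul, ← map_mul]
    exact tendsto_nhds_unique (hT _) ((hT (b * a)).congr fun m => (hτ m).comm (b m) (a m))

theorem ctr_norm {e : D} (he : Ctr e) : ‖e‖ ≤ 1 := by
  conv_lhs => rw [← cfc_id' ℝ e he.1]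
  refine norm_cfc_le zero_le_one fun t ht => ?_
  obtain ⟨a, b⟩ := he.2 ht
  rw [Real.norm_eq_abs, abs_of_nonneg a]
  exact b

theorem near {n : ℕ} (hn : 0 < n) {e : Fin n → D} (h1 : ∀ i, Ctr (e i))
    (h2 : ∀ i j, i ≠ j → e i * e j = 0) (hρ : Tr ρ) {δ : ℝ} (hδ : 0 ≤ δ)
    (h3 : ∀ i, 1 / (n : ℝ) - δ ≤ (ρ (e i)).re) (i : Fin n) : ‖ρ (e i) - 1 / n‖ ≤ n * δ := by
  have n1 : (1 : ℝ) ≤ n := by exact_mod_cast hn
  have s1 : ‖∑ j, e j‖ ≤ 1 := by
    have := IsSelfAdjoint.nnnorm_sum_eq_sup (f := e) univ (fun j _ => (h1 j).1)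
      (fun a b hab => h2 a b hab)
    have h4 : ‖∑ j, e j‖₊ ≤ 1 := by
      rw [this]
      exact Finset.sup_le fun j _ => ctr_norm (h1 j)
    exact h4
  have s2 : ∑ j, (ρ (e j)).re ≤ 1 := by
    rw [← Complex.re_sum, ← map_sum]
    exact (Complex.re_le_norm _).trans ((hρ.norm_le _).trans s1)
  have s3 : (ρ (e i)).im = 0 := by
    have := hρ.map_star' (e i)
    rw [(h1 i).1.star_eq] at this
    exact Complex.conj_eq_iff_im.1 this.symm
  have s4 : (ρ (e i)).re - (1 / n - δ) ≤ ∑ j, ((ρ (e j)).re - (1 / n - δ)) :=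
    single_le_sum (f := fun j => (ρ (e j)).re - (1 / n - δ)) (fun j _ => sub_nonneg.2 (h3 j))
      (mem_univ i)
  rw [sum_sub_distrib, sum_const, card_univ, Fintype.card_fin, nsmul_eq_mul, mul_sub,
    mul_one_div_cancel (by positivity)] at s4
  have s5 : ρ (e i) - 1 / n = (((ρ (e i)).re - 1 / n : ℝ) : ℂ) := by
    apply Complex.ext <;> simp [s3]
  rw [s5, Complex.norm_real, Real.norm_eq_abs, abs_le]
  have := h3 i
  constructor <;> nlinarith

theorem weight {T : E →ₗ[ℂ] ℂ} (hT : Tr T) (j : D →⋆ₐ[ℂ] E) {e : D} {z : ℂ} {δ : ℝ}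
    (h : ∀ ρ : D →ₗ[ℂ] ℂ, Tr ρ → ‖ρ e - z‖ ≤ δ) {b : E} (hb : ∀ d, Commute b (j d))
    (hb' : ∀ d, Commute (star b) (j d)) :
    ‖T ((star b * b + 1) * j e) - T (star b * b + 1) * z‖ ≤ (‖b‖ ^ 2 + 1) * δ := by
  obtain ⟨p1, p2⟩ := hT.pos b
  obtain ⟨r, hr⟩ : ∃ r : ℝ, r = (T (star b * b)).re + 1 := ⟨_, rfl⟩
  have r1 : 0 < r := by linarith
  have e1 : T (star b * b + 1) = r := by
    rw [map_add, hT.one, hr]
    apply Complex.ext <;> simp [p2]
  have r2 : r ≤ ‖b‖ ^ 2 + 1 := by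
    have := (Complex.re_le_norm _).trans (hT.norm_le (star b * b))
    rw [CStarRing.norm_star_mul_self] at this
    rw [hr, sq]
    linarith
  have r3 : (r : ℂ) ≠ 0 := Complex.ofReal_ne_zero.2 r1.ne'
  let ρ : D →ₗ[ℂ] ℂ := ((r⁻¹ : ℝ) : ℂ) •
    (T ∘ₗ LinearMap.mulLeft ℂ (star b * b + 1) ∘ₗ j.toAlgHom.toLinearMap)
  have hρ : ∀ d, ρ d = ((r⁻¹ : ℝ) : ℂ) * T ((star b * b + 1) * j d) := fun d => rfl
  have t : Tr ρ := by
    refine ⟨?_, fun x => ?_, fun x y => ?_⟩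
    · rw [hρ, map_one, mul_one, e1, Complex.ofReal_inv, inv_mul_cancel₀ r3]
    · have a : (star b * b + 1) * j (star x * x) =
          star (j x * b) * (j x * b) + star (j x) * j x := by
        rw [add_mul, one_mul, map_mul, map_star, star_mul, ← map_star, mul_assoc, mul_assoc,
          ← map_mul, (hb _).eq, map_mul, mul_assoc]
      obtain ⟨q1, q2⟩ := hT.pos (j x * b)
      obtain ⟨q3, q4⟩ := hT.pos (j x)
      rw [hρ, a, map_add, Complex.re_ofReal_mul, Complex.im_ofReal_mul, Complex.add_re,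
        Complex.add_im, q2, q4]
      exact ⟨by positivity, by simp⟩
    · have c : Commute (star b * b + 1) (j y) :=
        ((hb' y).mul_left (hb y)).add_left (Commute.one_left _)
      have c2 : T ((star b * b + 1) * j (x * y)) = T ((star b * b + 1) * j (y * x)) := by
        rw [map_mul j, map_mul j, ← mul_assoc, hT.comm, ← mul_assoc, ← c.eq, mul_assoc]
      rw [hρ, hρ, c2]
  have := h ρ t
  have d0 : 0 ≤ δ := (norm_nonneg _).trans this
  have e2 : T ((star b * b + 1) * j e) - T (star b * b + 1) * z = r * (ρ e - z) := by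
    rw [hρ, e1, mul_sub, ← mul_assoc, Complex.ofReal_inv, mul_inv_cancel₀ r3, one_mul]
  rw [e2, norm_mul, Complex.norm_real, Real.norm_eq_abs, abs_of_pos r1]
  exact mul_le_mul r2 this (norm_nonneg _) (by positivity)

theorem weight' {T : E →ₗ[ℂ] ℂ} (hT : Tr T) (j : D →⋆ₐ[ℂ] E) {e : D} {z : ℂ} {δ : ℝ}
    (hδ : 0 ≤ δ) (h : ∀ ρ : D →ₗ[ℂ] ℂ, Tr ρ → ‖ρ e - z‖ ≤ δ) {c : E} (hc : ∀ d, Commute c (j d))
    (hc' : ∀ d, Commute (star c) (j d)) :
    ‖T (c * j e) - T c * z‖ ≤ ((‖c‖ + ‖(1 : E)‖) ^ 2 + 1) * δ := by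
  let φ : E →ₗ[ℂ] ℂ := T ∘ₗ LinearMap.mulRight ℂ (j e) - z • T
  have hφ : ∀ p, φ p = T (p * j e) - T p * z := fun p => by
    simp [φ, mul_comm]
  have w : ∀ u : ℂ, ‖u‖ = 1 → ‖u • φ (star (c + u • (1 : E)) * (c + u • (1 : E)) + 1)‖ ≤
      ((‖c‖ + ‖(1 : E)‖) ^ 2 + 1) * δ := fun u hu => by
    rw [norm_smul, hu, one_mul, hφ]
    refine (weight hT j h (fun d => (hc d).add_left ((Commute.one_left _).smul_left u))
      (fun d => ?_)).trans (mul_le_mul_of_nonneg_right ?_ hδ)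
    · rw [star_add, star_smul, star_one]
      exact (hc' d).add_left ((Commute.one_left _).smul_left _)
    · have := norm_add_le c (u • (1 : E))
      rw [norm_smul, hu, one_mul] at this
      have := pow_le_pow_left₀ (norm_nonneg _) this 2
      linarith
  have ex : ∀ u : ℂ, star u * u = 1 →
      u • φ (star (c + u • (1 : E)) * (c + u • (1 : E)) + 1) =
        u * φ (star c * c) + u * u * φ (star c) + φ c + 2 * u * φ 1 := fun u hu => by
    rw [star_add, star_smul, star_one, add_mul, mul_add, mul_add]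
    simp only [smul_mul_assoc, mul_smul_comm, one_mul, mul_one, map_add, map_smul, smul_eq_mul]
    linear_combination (φ c + u * φ 1) * hu
  have i1 := ex 1 (by simp)
  have i2 := ex (-1) (by simp)
  have i3 := ex Complex.I (by simp)
  have i4 := ex (-Complex.I) (by simp)
  have w1 := w 1 (by simp)
  have w2 := w (-1) (by simp)
  have w3 := w Complex.I (by simp)
  have w4 := w (-Complex.I) (by simp)
  rw [i1] at w1
  rw [i2] at w2
  rw [i3] at w3
  rw [i4] at w4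
  have s := norm_add_le_of_le (norm_add_le_of_le w1 w2) (norm_add_le_of_le w3 w4)
  have e4 : (1 * φ (star c * c) + 1 * 1 * φ (star c) + φ c + 2 * 1 * φ 1 +
      (-1 * φ (star c * c) + -1 * -1 * φ (star c) + φ c + 2 * -1 * φ 1)) +
      (Complex.I * φ (star c * c) + Complex.I * Complex.I * φ (star c) + φ c +
        2 * Complex.I * φ 1 + (-Complex.I * φ (star c * c) + -Complex.I * -Complex.I * φ (star c) +
        φ c + 2 * -Complex.I * φ 1)) = 4 * φ c := by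
    linear_combination (2 * φ (star c)) * Complex.I_mul_I
  rw [e4, norm_mul, hφ] at s
  have n4 : ‖(4 : ℂ)‖ = 4 := by simp
  rw [n4] at s
  linarith

end FIN

open FIN in
theorem fin (hω : (ω : Filter ℕ) ≤ cofinite) [Nontrivial A] {q : Linf A →⋆ₐ[ℂ] E} (hq : IsUlt ω q)
    (α : G →* (A ≃⋆ₐ[ℂ] A)) {σ : G →* (Cen q (id : A → A) ≃⋆ₐ[ℂ] Cen q (id : A → A))}
    (hσ : ∀ g x (hx : q x ∈ Cen q (id : A → A)),
      (σ g ⟨q x, hx⟩ : E) = q (Z2.mapL (α g : A →⋆ₐ[ℂ] A) x)) (h : Gam σ ⊤)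
    (n : ℕ) (hn : 0 < n) (X : Finset A) (K : Finset G) (ε : ℝ) (hε : 0 < ε) :
    ∃ e : Fin n → A, (∀ i, IsSelfAdjoint (e i) ∧ spectrum ℝ (e i) ⊆ Set.Icc 0 1) ∧
      (∀ i j, i ≠ j → ‖e i * e j‖ < ε) ∧ (∀ i, ∀ a ∈ X, ‖e i * a - a * e i‖ < ε) ∧
      ∀ τ : A →ₗ[ℂ] ℂ, Tr τ → ∀ i, (∀ g ∈ K, ‖τ ((α g (e i) - e i) ^ 2)‖ < ε) ∧
        ∀ a ∈ X, ‖τ (a * e i) - τ a / n‖ < ε := by
  classical
  haveI : Nontrivial E := Z2.nontriv hq
  obtain ⟨C, C0, hC⟩ : ∃ C : ℝ, 1 ≤ C ∧ ∀ a ∈ X, ((‖a‖ + 1) ^ 2 + 1) * n ≤ C := by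
    refine ⟨1 + ∑ a ∈ X, ((‖a‖ + 1) ^ 2 + 1) * n,
      le_add_of_nonneg_right (sum_nonneg fun a _ => by positivity), fun a ha => ?_⟩
    have := single_le_sum (f := fun a : A => ((‖a‖ + 1) ^ 2 + 1) * (n : ℝ))
      (fun a _ => by positivity) ha
    linarith
  have d0 : 0 < ε / 2 / C := by positivity
  have d1 : C * (ε / 2 / C) < ε := by
    rw [mul_div_cancel₀ _ (by positivity)]
    linarith
  have d2 : ε / 2 / C < ε := lt_of_le_of_lt (le_mul_of_one_le_left d0.le C0) d1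
  obtain ⟨D, _, _, β, ι, e, h1, h2, h3, h4⟩ := h n hn K (fun _ _ => Subgroup.mem_top _) _ d0
  let j : D →⋆ₐ[ℂ] E := (Cen q (id : A → A)).subtype.comp ι
  have hj : ∀ d, j d = (ι d : E) := fun d => rfl
  choose y hy hy' using fun i => lift_ctr q hq.surj ((h2 i).map j)
  have cm : ∀ (a : A) d, Commute (q (cst A a)) (j d) ∧ Commute (star (q (cst A a))) (j d) :=
    fun a d => (StarSubalgebra.mem_centralizer_iff ℂ).1 (ι d).2 _ ⟨a, rfl⟩
  have a1 : ∀ᶠ m in (ω : Filter ℕ), ∀ i k, i ≠ k → ‖y i m * y k m‖ < ε :=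
    eventually_all.2 fun i => eventually_all.2 fun k => by
      by_cases hik : i = k
      · exact Eventually.of_forall fun m h => absurd hik h
      · have : q (y i * y k) = 0 := by rw [map_mul, hy, hy, ← map_mul, h3 i k hik, map_zero]
        exact (((U1.zero_iff hq _).1 this).eventually (gt_mem_nhds hε)).mono fun m hm _ => hm
  have a2 : ∀ᶠ m in (ω : Filter ℕ), ∀ i, ∀ a ∈ X, ‖y i m * a - a * y i m‖ < ε :=
    eventually_all.2 fun i => (eventually_all_finset X).2 fun a _ => by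
      have : q (y i * cst A a) = q (cst A a * y i) := by
        rw [map_mul, map_mul, hy]
        exact (cm a _).1.eq.symm
      exact ((U1.eq_iff hq _ _).1 this).eventually (gt_mem_nhds hε)
  have a3 : ∀ᶠ m in (ω : Filter ℕ), ∀ τ : A →ₗ[ℂ] ℂ, Tr τ → ∀ i,
      (∀ g ∈ K, ‖τ ((α g (y i m) - y i m) ^ 2)‖ < ε) ∧
        ∀ a ∈ X, ‖τ (a * y i m) - τ a / n‖ < ε := by
    by_contra hb
    rw [← Ultrafilter.eventually_not] at hb
    obtain ⟨m0, hm0⟩ := hb.exists
    obtain ⟨τ0, hτ0⟩ := not_forall.1 hm0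
    have t0 : Tr τ0 := (Classical.not_imp.1 hτ0).1
    have ch : ∀ m, ∃ τ : A →ₗ[ℂ] ℂ, Tr τ ∧ ((¬ ∀ τ : A →ₗ[ℂ] ℂ, Tr τ → ∀ i,
      (∀ g ∈ K, ‖τ ((α g (y i m) - y i m) ^ 2)‖ < ε) ∧
        ∀ a ∈ X, ‖τ (a * y i m) - τ a / n‖ < ε) → ¬ ∀ i,
      (∀ g ∈ K, ‖τ ((α g (y i m) - y i m) ^ 2)‖ < ε) ∧
        ∀ a ∈ X, ‖τ (a * y i m) - τ a / n‖ < ε) := fun m => by
      by_cases hm : ∀ τ : A →ₗ[ℂ] ℂ, Tr τ → ∀ i,
        (∀ g ∈ K, ‖τ ((α g (y i m) - y i m) ^ 2)‖ < ε) ∧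
          ∀ a ∈ X, ‖τ (a * y i m) - τ a / n‖ < ε
      · exact ⟨τ0, t0, fun h => absurd hm h⟩
      · obtain ⟨τ, hτ⟩ := not_forall.1 hm
        exact ⟨τ, (Classical.not_imp.1 hτ).1, fun _ => (Classical.not_imp.1 hτ).2⟩
    choose τ hτ hτ' using ch
    obtain ⟨T, hT, hl⟩ := lim_tr hq τ hτ
    have b1 : ∀ᶠ m in (ω : Filter ℕ), ∀ i,
        (∀ g ∈ K, ‖τ m ((α g (y i m) - y i m) ^ 2)‖ < ε) ∧
          ∀ a ∈ X, ‖τ m (a * y i m) - τ m a / n‖ < ε := by
      refine eventually_all.2 fun i => Eventually.and ((eventually_all_finset K).2 fun g hg => ?_)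
        ((eventually_all_finset X).2 fun a ha => ?_)
      · have c1 := (hl ((Z2.mapL (α g : A →⋆ₐ[ℂ] A) (y i) - y i) ^ 2)).norm
        have c2 : q ((Z2.mapL (α g : A →⋆ₐ[ℂ] A) (y i) - y i) ^ 2) =
            j ((β g (e i) - e i) ^ 2) := by
          have m : q (y i) ∈ Cen q (id : A → A) := by rw [hy]; exact (ι (e i)).2
          have m' : (⟨q (y i), m⟩ : Cen q (id : A → A)) = ι (e i) := Subtype.ext (hy i)
          rw [map_pow, map_pow, map_sub, map_sub, ← hσ g _ m, m', hy, hj (β g _), h1 g]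
        have c3 := (h4 _ (hT.comp j) i).2 g hg
        have c4 : IsSelfAdjoint (β g (e i) - e i) := ((h2 i).1.map (β g)).sub (h2 i).1
        have c5 := (hT.comp j).pos (β g (e i) - e i)
        rw [c4.star_eq, ← sq] at c5
        have c6 : ‖T (j ((β g (e i) - e i) ^ 2))‖ < ε := by
          have := Complex.norm_le_abs_re_add_abs_im (T (j ((β g (e i) - e i) ^ 2)))
          have c7 : (T (j ((β g (e i) - e i) ^ 2))).im = 0 := c5.2
          have c8 : 0 ≤ (T (j ((β g (e i) - e i) ^ 2))).re := c5.1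
          have c9 : (T (j ((β g (e i) - e i) ^ 2))).re ≤ ε / 2 / C := c3
          rw [c7, abs_zero, abs_of_nonneg c8] at this
          linarith
        rw [c2] at c1
        exact (c1.eventually (gt_mem_nhds c6)).mono fun m hm => by
          rw [sq] at hm ⊢
          exact hm
      · have c1 := ((hl (cst A a * y i)).sub ((hl (cst A a)).div_const (n : ℂ))).norm
        have c2 := weight' hT j (z := 1 / n) (δ := n * (ε / 2 / C)) (by positivity)
          (fun ρ hρ => near hn h2 h3 hρ d0.le (fun k => (h4 ρ hρ k).1) i)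
          (fun d => (cm a d).1) (fun d => (cm a d).2)
        have c3 : ‖q (cst A a)‖ ≤ ‖a‖ :=
          NonUnitalStarAlgHom.norm_apply_le (q.comp (Z2.cstH A)) a
        have c4 : ‖T (q (cst A a * y i)) - T (q (cst A a)) / n‖ < ε := by
          rw [map_mul, hy, div_eq_mul_one_div]
          refine c2.trans_lt (lt_of_le_of_lt ?_ d1)
          rw [norm_one, ← mul_assoc]
          refine mul_le_mul_of_nonneg_right (le_trans ?_ (hC a ha)) d0.le
          gcongr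
        exact c1.eventually (gt_mem_nhds c4)
    obtain ⟨m, b2, b3⟩ := (hb.and b1).exists
    exact hτ' m b2 b3
  obtain ⟨m, b1, b2, b3⟩ := (a1.and (a2.and a3)).exists
  exact ⟨fun i => y i m, fun i => (hy' i).map (ev m), b1, b2, b3⟩

end Vale.Agent.P095G
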