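import Vale.Agent.P184.Defs

/-! Part FOL: an invariant mean gives almost invariant finite sets (through Hall's theorem). -/

namespace Vale.Agent.P095G

open Finset
open scoped Pointwise ENNReal

namespace FOL

variable {G : Type} [Group G]

open Classical in
/-- Indicator functions as bounded functions. -/
noncomputable def ind (A : G → Prop) : lp (fun _ : G => ℝ) ∞ :=
  ⟨fun x => if A x then 1 else 0, memℓp_infty ⟨1, by
    rintro _ ⟨x, rfl⟩
    by_cases h : A x <;> simp [h]⟩⟩

open Classical in
theorem ind_apply (A : G → Prop) (x : G) : (ind A : G → ℝ) x = if A x then 1 else 0 := rfl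

theorem no_double (hG : Vale.Agent.P184.IsAmenable G) (T : Finset G) (f : G × Bool → G)
    (hf : Function.Injective f) (hT : ∀ p, ∃ k ∈ T, f p = k * p.1) : False := by
  classical
  obtain ⟨M, h1, h0, hi⟩ := hG
  have hA : ∀ b : Bool, ∑ k ∈ T, M (ind fun x => f (x, b) = k * x) = 1 := by
    intro b
    rw [← map_sum]
    apply h1
    intro x
    rw [lp.coeFn_sum, Finset.sum_apply]
    simp only [ind_apply]
    obtain ⟨k, hk, e⟩ := hT (x, b)
    rw [Finset.sum_eq_single k]
    · simp [e]
    · intro k' _ hk'
      rw [if_neg]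
      intro e'
      apply hk'
      rw [e] at e'
      exact (mul_right_cancel e').symm
    · intro h
      exact absurd hk h
  have hB : ∀ (b : Bool) (k : G), M (ind fun x => f (x, b) = k * x) =
      M (ind fun y => f (k⁻¹ * y, b) = y) := by
    intro b k
    apply hi k
    intro x
    simp only [ind_apply, inv_mul_cancel_left]
  have hle : 0 ≤ M (ind (fun _ => True) -
      ∑ p ∈ (univ : Finset Bool) ×ˢ T, ind fun y => f (p.2⁻¹ * y, p.1) = y) := by
    apply h0
    intro y
    rw [lp.coeFn_sub, Pi.sub_apply, lp.coeFn_sum, Finset.sum_apply]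
    simp only [ind_apply, if_true]
    rw [Finset.sum_boole, sub_nonneg]
    have : ((univ : Finset Bool) ×ˢ T |>.filter fun p => f (p.2⁻¹ * y, p.1) = y).card ≤ 1 := by
      rw [Finset.card_le_one]
      intro p hp q hq
      have e := hf ((mem_filter.1 hp).2.trans (mem_filter.1 hq).2.symm)
      obtain ⟨e1, e2⟩ := Prod.mk.inj e
      exact Prod.ext e2 (inv_injective (mul_right_cancel e1))
    exact_mod_cast this
  rw [map_sub, map_sum, Finset.sum_product, h1 _ (fun x => by simp [ind_apply])] at hle
  simp only [← hB, hA] at hle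
  norm_num at hle

theorem exists_set [DecidableEq G] (hG : Vale.Agent.P184.IsAmenable G) (K : Finset G) (η : ℝ)
    (hη : 0 < η) : ∃ F : Finset G, F.Nonempty ∧
      ∀ g ∈ K, (((F.filter fun x => g * x ∉ F).card : ℕ) : ℝ) ≤ η * F.card := by
  by_contra hc
  push Not at hc
  have s1 : ∀ F : Finset G, (1 + η) * F.card ≤ ((insert 1 K * F).card : ℝ) := by
    intro F
    rcases F.eq_empty_or_nonempty with rfl | hF
    · simp
    obtain ⟨g, hg, hlt⟩ := hc F hF
    have hsub : F ∪ (F.filter fun x => g * x ∉ F).image (g * ·) ⊆ insert 1 K * F := by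
      intro y hy
      rcases mem_union.1 hy with h | h
      · exact mem_mul.2 ⟨1, mem_insert_self _ _, y, h, one_mul y⟩
      · obtain ⟨x, hx, rfl⟩ := mem_image.1 h
        exact mem_mul.2 ⟨g, mem_insert_of_mem hg, x, (mem_filter.1 hx).1, rfl⟩
    have hd : Disjoint F ((F.filter fun x => g * x ∉ F).image (g * ·)) := by
      rw [Finset.disjoint_left]
      intro y hy h
      obtain ⟨x, hx, rfl⟩ := mem_image.1 h
      exact (mem_filter.1 hx).2 hy
    have := card_le_card hsub
    rw [card_union_of_disjoint hd, card_image_of_injective _ (mul_right_injective g)] at this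
    have h2 : ((F.card : ℝ) + ((F.filter fun x => g * x ∉ F).card : ℕ)) ≤
        ((insert 1 K * F).card : ℝ) := by exact_mod_cast this
    linarith
  have s2 : ∀ (n : ℕ) (F : Finset G), (1 + η) ^ n * F.card ≤ (((insert 1 K) ^ n * F).card : ℝ) := by
    intro n F
    induction n with
    | zero => simp
    | succ n ih =>
      rw [pow_succ' (insert 1 K), mul_assoc]
      refine le_trans ?_ (s1 _)
      rw [pow_succ', mul_assoc]
      exact mul_le_mul_of_nonneg_left ih (by linarith)
  obtain ⟨n, hn⟩ := pow_unbounded_of_one_lt (2 : ℝ) (show 1 < 1 + η by linarith)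
  set T : Finset G := (insert 1 K) ^ n
  have hall := (Finset.all_card_le_biUnion_card_iff_exists_injective
    (fun p : G × Bool => T.image (· * p.1))).1 (by
      intro s
      have a1 : s.card ≤ (s.image Prod.fst).card * 2 := by
        have : s ⊆ (s.image Prod.fst) ×ˢ (univ : Finset Bool) := fun p hp =>
          mem_product.2 ⟨mem_image_of_mem _ hp, mem_univ _⟩
        simpa using card_le_card this
      have a2 : T * s.image Prod.fst ⊆ s.biUnion fun p : G × Bool => T.image (· * p.1) := by
        intro y hy
        obtain ⟨k, hk, x, hx, rfl⟩ := mem_mul.1 hy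
        obtain ⟨p, hp, rfl⟩ := mem_image.1 hx
        exact mem_biUnion.2 ⟨p, hp, mem_image.2 ⟨k, hk, rfl⟩⟩
      have a3 := s2 n (s.image Prod.fst)
      have a4 : ((T * s.image Prod.fst).card : ℝ) ≤
          ((s.biUnion fun p : G × Bool => T.image (· * p.1)).card : ℝ) := by
        exact_mod_cast card_le_card a2
      have a5 : (s.card : ℝ) ≤ (s.image Prod.fst).card * 2 := by exact_mod_cast a1
      have a6 : (0 : ℝ) ≤ (s.image Prod.fst).card := Nat.cast_nonneg _
      have : (s.card : ℝ) ≤ ((s.biUnion fun p : G × Bool => T.image (· * p.1)).card : ℝ) := by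
        nlinarith
      exact_mod_cast this)
  obtain ⟨f, hf, hT⟩ := hall
  refine no_double hG T f hf fun p => ?_
  obtain ⟨k, hk, e⟩ := mem_image.1 (hT p)
  exact ⟨k, hk, e.symm⟩

end FOL

theorem folner {G : Type} [Group G] (hG : Vale.Agent.P184.IsAmenable G) (K : Finset G) (η : ℝ)
    (hη : 0 < η) : ∃ (L : ℕ) (h : Fin L → G), 0 < L ∧ ∀ g ∈ K,
      ∃ (J : Finset (Fin L)) (φ : Fin L → Fin L), Set.InjOn φ J ∧
        (∀ i ∈ J, (h (φ i))⁻¹ * g * h i = 1) ∧ ((L : ℝ) - J.card) ≤ η * L := by
  classical
  obtain ⟨F, hF, hK⟩ := FOL.exists_set hG K η hη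
  let e := F.equivFin
  refine ⟨F.card, fun i => (e.symm i : G), hF.card_pos, fun g hg => ?_⟩
  refine ⟨univ.filter fun i => g * (e.symm i : G) ∈ F,
    fun i => if hi : g * (e.symm i : G) ∈ F then e ⟨_, hi⟩ else i, ?_, ?_, ?_⟩
  · intro i hi j hj hij
    have hi' : g * (e.symm i : G) ∈ F := by simpa using hi
    have hj' : g * (e.symm j : G) ∈ F := by simpa using hj
    simp only [dif_pos hi', dif_pos hj'] at hij
    have h1 := congrArg Subtype.val (e.injective hij)
    exact e.symm.injective (Subtype.ext (mul_left_cancel h1))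
  · intro i hi
    have hi' : g * (e.symm i : G) ∈ F := by simpa using hi
    simp only [dif_pos hi', Equiv.symm_apply_apply]
    group
  · refine le_trans (le_of_eq ?_) (hK g hg)
    have h1 := Finset.card_filter_add_card_filter_not (s := (univ : Finset (Fin F.card)))
      (fun i => g * (e.symm i : G) ∈ F)
    have h2 : (univ.filter fun i : Fin F.card => ¬ g * (e.symm i : G) ∈ F).card =
        (F.filter fun x => g * x ∉ F).card := by
      refine Finset.card_bij (fun i _ => (e.symm i : G)) ?_ ?_ ?_
      · intro i hi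
        exact mem_filter.2 ⟨(e.symm i).2, (mem_filter.1 hi).2⟩
      · intro i _ j _ hij
        exact e.symm.injective (Subtype.ext hij)
      · intro x hx
        refine ⟨e ⟨x, (mem_filter.1 hx).1⟩, ?_, by simp⟩
        simpa using (mem_filter.1 hx).2
    rw [h2, card_univ, Fintype.card_fin] at h1
    have h3 : (((univ.filter fun i : Fin F.card => g * (e.symm i : G) ∈ F).card : ℕ) : ℝ) +
        ((F.filter fun x => g * x ∉ F).card : ℕ) = F.card := by exact_mod_cast h1
    linarith

end Vale.Agent.P095G
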