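import Vale.Agent.P095G.Work

/-! Norm invariant version of property Gamma. -/

namespace Vale.Agent.P095G

open Vale.Agent.P101 TopologicalSpace

variable {F : Type} [CStarAlgebra F] {G : Type} [Group G]

/-- Tracial divisions of the unit that are almost invariant in norm. -/
def GamN (σ : G →* (F ≃⋆ₐ[ℂ] F)) : Prop :=
  ∀ n : ℕ, 0 < n → ∀ K : Finset G, ∀ ε : ℝ, 0 < ε →
    ∃ (D : Type) (_ : CStarAlgebra D) (_ : SeparableSpace D) (β : G →* (D ≃⋆ₐ[ℂ] D))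
      (ι : D →⋆ₐ[ℂ] F) (e : Fin n → D), Eqv β σ ι ∧ (∀ i, Ctr (e i)) ∧
        (∀ i j, i ≠ j → e i * e j = 0) ∧ (∀ i, ∀ g ∈ K, ‖β g (e i) - e i‖ ≤ ε) ∧
          ∀ ρ : D →ₗ[ℂ] ℂ, Tr ρ → ∀ i, 1 / (n : ℝ) - ε ≤ (ρ (e i)).re

/-- The bump at `c`. -/
noncomputable def bmp (c t : ℝ) : ℝ := max 0 (1 - 4 * (t - c) ^ 2)

end Vale.Agent.P095G
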