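import Vale.Agent.P095G.PartFIN
import Vale.Agent.P095G.WorkN

/-! PART FINN. -/

namespace Vale.Agent.P095G

open Filter Topology Finset Vale.Agent.P101 Vale.Agent.P095 TopologicalSpace

variable {A D E F : Type} [CStarAlgebra A] [CStarAlgebra D] [CStarAlgebra E] [CStarAlgebra F]
  {G : Type} [Group G] {ρ : D →ₗ[ℂ] ℂ} {ω : Ultrafilter ℕ}

open FIN in
theorem finN (hω : (ω : Filter ℕ) ≤ cofinite) [Nontrivial A] {q : Linf A →⋆ₐ[ℂ] E} (hq : IsUlt ω q)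
    (α : G →* (A ≃⋆ₐ[ℂ] A)) {σ : G →* (Cen q (id : A → A) ≃⋆ₐ[ℂ] Cen q (id : A → A))}
    (hσ : ∀ g x (hx : q x ∈ Cen q (id : A → A)),
      (σ g ⟨q x, hx⟩ : E) = q (Z2.mapL (α g : A →⋆ₐ[ℂ] A) x)) (h : GamN σ)
    (n : ℕ) (hn : 0 < n) (X : Finset A) (K : Finset G) (ε : ℝ) (hε : 0 < ε) :
    ∃ e : Fin n → A, (∀ i, IsSelfAdjoint (e i) ∧ spectrum ℝ (e i) ⊆ Set.Icc 0 1) ∧
      (∀ i j, i ≠ j → ‖e i * e j‖ < ε) ∧ (∀ i, ∀ a ∈ X, ‖e i * a - a * e i‖ < ε) ∧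
      (∀ i, ∀ g ∈ K, ‖α g (e i) - e i‖ < ε) ∧
      ∀ τ : A →ₗ[ℂ] ℂ, Tr τ → ∀ i, ∀ a ∈ X, ‖τ (a * e i) - τ a / n‖ < ε := by
  classical
  haveI : Nontrivial E := Z2.nontriv hq
  obtain ⟨C, C0, hC⟩ : ∃ C : ℝ, 1 ≤ C ∧ ∀ a ∈ X, ((‖a‖ + 1) ^ 2 + 1) * n ≤ C := by
    refine ⟨1 + ∑ a ∈ X, ((‖a‖ + 1) ^ 2 + 1) * n,
      le_add_of_nonneg_right (sum_nonneg fun a _ => by positivity), fun a ha => ?_⟩
    have := single_le_sum (f := fun a : A => ((‖a‖ + 1) ^ 2 + 1) * (n : ℝ))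
      (fun a _ => by positivity) ha
    linarith
  have d0 : 0 < ε / 2 / C := by positivity
  have d1 : C * (ε / 2 / C) < ε := by
    rw [mul_div_cancel₀ _ (by positivity)]
    linarith
  have d2 : ε / 2 / C < ε := lt_of_le_of_lt (le_mul_of_one_le_left d0.le C0) d1
  obtain ⟨D, _, _, β, ι, e, h1, h2, h3, h5, h4⟩ := h n hn K _ d0
  let j : D →⋆ₐ[ℂ] E := (Cen q (id : A → A)).subtype.comp ι
  have hj : ∀ d, j d = (ι d : E) := fun d => rfl
  choose y hy hy' using fun i => lift_ctr q hq.surj ((h2 i).map j)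
  have cm : ∀ (a : A) d, Commute (q (cst A a)) (j d) ∧ Commute (star (q (cst A a))) (j d) :=
    fun a d => (StarSubalgebra.mem_centralizer_iff ℂ).1 (ι d).2 _ ⟨a, rfl⟩
  have a1 : ∀ᶠ m in (ω : Filter ℕ), ∀ i k, i ≠ k → ‖y i m * y k m‖ < ε :=
    eventually_all.2 fun i => eventually_all.2 fun k => by
      by_cases hik : i = k
      · exact Eventually.of_forall fun m h => absurd hik h
      · have : q (y i * y k) = 0 := by rw [map_mul, hy, hy, ← map_mul, h3 i k hik, map_zero]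
        exact (((U1.zero_iff hq _).1 this).eventually (gt_mem_nhds hε)).mono fun m hm _ => hm
  have a2 : ∀ᶠ m in (ω : Filter ℕ), ∀ i, ∀ a ∈ X, ‖y i m * a - a * y i m‖ < ε :=
    eventually_all.2 fun i => (eventually_all_finset X).2 fun a _ => by
      have : q (y i * cst A a) = q (cst A a * y i) := by
        rw [map_mul, map_mul, hy]
        exact (cm a _).1.eq.symm
      exact ((U1.eq_iff hq _ _).1 this).eventually (gt_mem_nhds hε)
  have a4 : ∀ᶠ m in (ω : Filter ℕ), ∀ i, ∀ g ∈ K, ‖α g (y i m) - y i m‖ < ε :=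
    eventually_all.2 fun i => (eventually_all_finset K).2 fun g hg => by
      have c2 : q (Z2.mapL (α g : A →⋆ₐ[ℂ] A) (y i) - y i) = j (β g (e i) - e i) := by
        have m : q (y i) ∈ Cen q (id : A → A) := by rw [hy]; exact (ι (e i)).2
        have m' : (⟨q (y i), m⟩ : Cen q (id : A → A)) = ι (e i) := Subtype.ext (hy i)
        rw [map_sub, map_sub, ← hσ g _ m, m', hy, hj (β g _), h1 g]
      have c3 : ‖q (Z2.mapL (α g : A →⋆ₐ[ℂ] A) (y i) - y i)‖ < ε := by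
        rw [c2]
        exact ((NonUnitalStarAlgHom.norm_apply_le j _).trans (h5 i g hg)).trans_lt d2
      exact (hq.norm _).eventually (gt_mem_nhds c3)
  have a3 : ∀ᶠ m in (ω : Filter ℕ), ∀ τ : A →ₗ[ℂ] ℂ, Tr τ → ∀ i,
      ∀ a ∈ X, ‖τ (a * y i m) - τ a / n‖ < ε := by
    by_contra hb
    rw [← Ultrafilter.eventually_not] at hb
    obtain ⟨m0, hm0⟩ := hb.exists
    obtain ⟨τ0, hτ0⟩ := not_forall.1 hm0
    have t0 : Tr τ0 := (Classical.not_imp.1 hτ0).1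
    have ch : ∀ m, ∃ τ : A →ₗ[ℂ] ℂ, Tr τ ∧ ((¬ ∀ τ : A →ₗ[ℂ] ℂ, Tr τ → ∀ i,
        ∀ a ∈ X, ‖τ (a * y i m) - τ a / n‖ < ε) → ¬ ∀ i,
        ∀ a ∈ X, ‖τ (a * y i m) - τ a / n‖ < ε) := fun m => by
      by_cases hm : ∀ τ : A →ₗ[ℂ] ℂ, Tr τ → ∀ i, ∀ a ∈ X, ‖τ (a * y i m) - τ a / n‖ < ε
      · exact ⟨τ0, t0, fun h => absurd hm h⟩
      · obtain ⟨τ, hτ⟩ := not_forall.1 hm
        exact ⟨τ, (Classical.not_imp.1 hτ).1, fun _ => (Classical.not_imp.1 hτ).2⟩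
    choose τ hτ hτ' using ch
    obtain ⟨T, hT, hl⟩ := lim_tr hq τ hτ
    have b1 : ∀ᶠ m in (ω : Filter ℕ), ∀ i, ∀ a ∈ X, ‖τ m (a * y i m) - τ m a / n‖ < ε := by
      refine eventually_all.2 fun i => (eventually_all_finset X).2 fun a ha => ?_
      have c1 := ((hl (cst A a * y i)).sub ((hl (cst A a)).div_const (n : ℂ))).norm
      have c2 := weight' hT j (z := 1 / n) (δ := n * (ε / 2 / C)) (by positivity)
        (fun ρ hρ => near hn h2 h3 hρ d0.le (fun k => h4 ρ hρ k) i)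
        (fun d => (cm a d).1) (fun d => (cm a d).2)
      have c3 : ‖q (cst A a)‖ ≤ ‖a‖ :=
        NonUnitalStarAlgHom.norm_apply_le (q.comp (Z2.cstH A)) a
      have c4 : ‖T (q (cst A a * y i)) - T (q (cst A a)) / n‖ < ε := by
        rw [map_mul, hy, div_eq_mul_one_div]
        refine c2.trans_lt (lt_of_le_of_lt ?_ d1)
        rw [norm_one, ← mul_assoc]
        refine mul_le_mul_of_nonneg_right (le_trans ?_ (hC a ha)) d0.le
        gcongr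
      exact c1.eventually (gt_mem_nhds c4)
    obtain ⟨m, b2, b3⟩ := (hb.and b1).exists
    exact hτ' m b2 b3
  obtain ⟨m, b1, b2, b4, b3⟩ := (a1.and (a2.and (a4.and a3))).exists
  exact ⟨fun i => y i m, fun i => (hy' i).map (ev m), b1, b2, b4, b3⟩

end Vale.Agent.P095G
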