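import Vale.Agent.P095G.WorkN
import Vale.Agent.P095G.PartPS
import Vale.Agent.P095G.PartAVG

/-! Part LOW: lower bound for the traces of the bumps. -/

namespace Vale.Agent.P095G

open Finset Vale.Agent.P101

variable {D : Type} [CStarAlgebra D] {ρ : D →ₗ[ℂ] ℂ}

namespace LOW

lemma defect [PartialOrder D] [StarOrderedRing D] (h : Tr ρ) {n : ℕ} (hn : 0 < n) {e : Fin n → D}
    (he : ∀ i, Ctr (e i)) (ho : ∀ i j, i ≠ j → e i * e j = 0) {ε : ℝ}
    (hε : ∀ i, 1 / (n : ℝ) - ε ≤ (ρ (e i)).re) (i : Fin n) :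
    (ρ (e i * (1 - e i))).re ≤ n * ε := by
  have n0 : (0 : ℝ) < n := Nat.cast_pos.2 hn
  have p : ∀ j, 0 ≤ (ρ (e j * (1 - e j))).re := fun j =>
    h.mul_nonneg' (AVG.ctr_iff.1 (he j)).1 (sub_nonneg.2 (AVG.ctr_iff.1 (he j)).2)
  have s1 := single_le_sum (f := fun j => (ρ (e j * (1 - e j))).re) (fun j _ => p j) (mem_univ i)
  have s2 : ∑ j, e j * (1 - e j) = (∑ j, e j) * (1 - ∑ j, e j) := by
    rw [sum_mul]
    refine sum_congr rfl fun j _ => ?_
    rw [mul_sub, mul_sub, mul_sum, sum_eq_single j (fun k _ hk => ho j k hk.symm) (by simp)]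
  have s3 := h.sq_nonneg' ((IsSelfAdjoint.one D).sub
    (isSelfAdjoint_sum univ fun j _ => (he j).1))
  have s4 : ∑ _j : Fin n, (1 / (n : ℝ) - ε) ≤ ∑ j, (ρ (e j)).re := sum_le_sum fun j _ => hε j
  rw [sum_const, card_univ, Fintype.card_fin, nsmul_eq_mul, mul_sub,
    mul_one_div_cancel n0.ne', ← Complex.re_sum, ← map_sum] at s4
  rw [← Complex.re_sum, ← map_sum, s2] at s1
  generalize ∑ j, e j = S at s1 s3 s4
  have s5 : (1 - S) ^ 2 = 1 - S - S * (1 - S) := by noncomm_ring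
  rw [s5, map_sub, map_sub, h.one, Complex.sub_re, Complex.sub_re, Complex.one_re] at s3
  linarith

lemma bump [PartialOrder D] [StarOrderedRing D] {y : D} (hy : IsSelfAdjoint y) (c : ℝ) :
    1 - (4 : ℝ) • (y - c • (1 : D)) ^ 2 ≤ cfc (bmp c) y := by
  have e : cfc (fun t : ℝ => 1 - (4 : ℝ) • (t - c) ^ 2) y = 1 - (4 : ℝ) • (y - c • (1 : D)) ^ 2 := by
    rw [cfc_sub _ _ y, cfc_smul _ _ y, cfc_pow _ _ y, cfc_sub _ _ y, cfc_id' ℝ y, cfc_const _ y,
      cfc_const _ y, map_one, Algebra.algebraMap_eq_smul_one]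
  rw [← e]
  exact cfc_mono (fun t _ => le_max_right _ _) (by fun_prop) (by unfold bmp; fun_prop)

end LOW

theorem low (h : Tr ρ) {n : ℕ} (hn : 0 < n) {e : Fin n → D} (he : ∀ i, Ctr (e i))
    (ho : ∀ i j, i ≠ j → e i * e j = 0) {ε η : ℝ} (hε : ∀ i, 1 / (n : ℝ) - ε ≤ (ρ (e i)).re)
    {y : D} (hy : IsSelfAdjoint y) (hη : (ρ ((y - ∑ j : Fin n, ((j : ℝ) + 1) • e j) ^ 2)).re ≤ η)
    (i : Fin n) : 1 / (n : ℝ) - ε - 8 * η - 8 * n ^ 3 * ε ≤ (ρ (cfc (bmp ((i : ℝ) + 1)) y)).re := by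
  let _ := CStarAlgebra.spectralOrder D
  have _ := CStarAlgebra.spectralOrderedRing D
  have d1 := LOW.defect h hn he ho hε i
  have b1 := LOW.bump hy ((i : ℝ) + 1)
  have b0 : 0 ≤ cfc (bmp ((i : ℝ) + 1)) y := cfc_nonneg fun t _ => le_max_left _ _
  obtain ⟨a0, a1⟩ := AVG.ctr_iff.1 (he i)
  have hx : IsSelfAdjoint (∑ j : Fin n, ((j : ℝ) + 1) • e j) :=
    isSelfAdjoint_sum univ fun j _ => (IsSelfAdjoint.all _).smul (he j).1
  have ax : e i * ∑ j : Fin n, ((j : ℝ) + 1) • e j = ((i : ℝ) + 1) • (e i * e i) := by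
    rw [mul_sum, sum_eq_single i (fun k _ hk => by rw [mul_smul_comm, ho i k hk.symm, smul_zero])
      (by simp), mul_smul_comm]
  have c0 : (0 : ℝ) ≤ (i : ℝ) + 1 := by positivity
  have c1 : (i : ℝ) + 1 ≤ n := by exact_mod_cast i.2
  have t0 := hε i
  generalize ∑ j : Fin n, ((j : ℝ) + 1) • e j = x at hx ax hη
  generalize (i : ℝ) + 1 = c at b0 b1 ax c0 c1 ⊢
  generalize cfc (bmp c) y = f at b0 b1 ⊢
  generalize e i = a at d1 a0 a1 ax t0
  have a2 := sub_nonneg.2 a1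
  have hu := hy.sub hx
  have hv := hx.sub ((IsSelfAdjoint.all c).smul (IsSelfAdjoint.one D))
  have e0 : y - c • (1 : D) = (y - x) + (x - c • (1 : D)) := by abel
  have av : a * (x - c • (1 : D)) = c • ((a - 1) * a) := by
    rw [mul_sub, ax, mul_smul_comm, mul_one, ← smul_sub, sub_mul, one_mul]
  rw [e0] at b1
  generalize y - x = u at hu hη b1
  generalize x - c • (1 : D) = v at hv b1 av
  have k1 := h.mul_nonneg' a2 b0
  have k2 := h.mul_nonneg' a0 (sub_nonneg.2 b1)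
  have k3 := h.mul_nonneg' a0 (hu.sub hv).sq_nonneg
  have k4 := h.mul_nonneg' a2 hu.sq_nonneg
  have k5 := h.mul_nonneg' a0.isSelfAdjoint.mul_self_nonneg a2
  have k6 := h.mul_nonneg' a0 a2
  have e1 : a * v ^ 2 = (c * c) • (a * (1 - a) - a * a * (1 - a)) := by
    rw [sq, ← mul_assoc, av, smul_mul_assoc, mul_assoc, av, mul_smul_comm, smul_smul]
    congr 1
    noncomm_ring
  have e2 : a * (u - v) ^ 2 = a * u ^ 2 + a * u ^ 2 + (a * v ^ 2 + a * v ^ 2) - a * (u + v) ^ 2 := by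
    noncomm_ring
  rw [e2, e1] at k3
  rw [mul_sub, mul_sub, mul_one, mul_smul_comm] at k2
  rw [sub_mul, one_mul] at k1 k4
  simp only [map_sub ρ, map_add ρ, Complex.sub_re, Complex.add_re, AVG.re_smul] at k1 k2 k3 k4
  have k7 : c * c * ((ρ (a * (1 - a))).re - (ρ (a * a * (1 - a))).re) ≤ n * n * (n * ε) :=
    (mul_le_mul_of_nonneg_left (by linarith) (by positivity)).trans
      (mul_le_mul_of_nonneg_right (mul_self_le_mul_self c0 c1) (k6.trans d1))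
  nlinarith

end Vale.Agent.P095G
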