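import Vale.Agent.P095G.PartUC
import Vale.Agent.P095G.PartLOW
import Vale.Agent.P095G.PartFOL
import Vale.Agent.P095G.PartFIN

/-! Part NORM: from 2-norm invariance to norm invariance. -/

namespace Vale.Agent.P095G

open Finset Vale.Agent.P101

variable {D F : Type} [CStarAlgebra D] [CStarAlgebra F] {G : Type} [Group G] {ρ : D →ₗ[ℂ] ℂ}

namespace N4

lemma sum_sq (h : Tr ρ) {ι : Type} [Fintype ι] {z : ι → D} (hz : ∀ i, IsSelfAdjoint (z i))
    {c : ℝ} (hc : 0 ≤ c) (h1 : ∀ i, (ρ (z i ^ 2)).re ≤ c) :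
    (ρ ((∑ i, z i) ^ 2)).re ≤ (Fintype.card ι : ℝ) ^ 2 * c := by
  have k : ∀ i j, (ρ (z i * z j)).re ≤ c := fun i j => by
    have a := h.sq_nonneg' ((hz i).sub (hz j))
    have e : (z i - z j) ^ 2 = z i ^ 2 + z j ^ 2 - z i * z j - z j * z i := by noncomm_ring
    rw [e, map_sub, map_sub, map_add, h.comm (z j)] at a
    simp only [Complex.sub_re, Complex.add_re] at a
    linarith [h1 i, h1 j]
  rw [sq, sum_mul_sum, map_sum, Complex.re_sum]
  refine (sum_le_card_nsmul _ _ (Fintype.card ι * c) fun i _ => ?_).trans_eq ?_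
  · rw [map_sum, Complex.re_sum]
    exact (sum_le_card_nsmul _ _ c fun j _ => k i j).trans_eq (by rw [card_univ, nsmul_eq_mul])
  · rw [card_univ, nsmul_eq_mul]
    ring

lemma inv (β : G →* (D ≃⋆ₐ[ℂ] D)) (x : D) {η : ℝ} {L : ℕ} (hL : 0 < L)
    (h : Fin L → G) (g : G) (J : Finset (Fin L)) (φ : Fin L → Fin L) (hφ : Set.InjOn φ J)
    (h2 : ∀ i ∈ J, (h (φ i))⁻¹ * g * h i = 1) (h3 : ((L : ℝ) - J.card) ≤ η * L) :
    ‖β g ((L : ℝ)⁻¹ • ∑ i, β (h i) x) - (L : ℝ)⁻¹ • ∑ i, β (h i) x‖ ≤ 2 * η * ‖x‖ := by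
  have L0 : (0 : ℝ) < L := Nat.cast_pos.2 hL
  have hJ : J.card ≤ L := (card_le_univ J).trans_eq (Fintype.card_fin L)
  have bd : ∀ (s : Finset (Fin L)) (k : Fin L → G), s.card = J.card →
      ‖∑ i ∈ sᶜ, β (k i) x‖ ≤ η * L * ‖x‖ := fun s k hs => by
    have := sum_le_card_nsmul sᶜ (fun i => ‖β (k i) x‖) ‖x‖ fun i _ =>
      (StarAlgEquiv.norm_map _ x).le
    rw [card_compl, Fintype.card_fin, hs, nsmul_eq_mul, Nat.cast_sub hJ] at this
    exact (norm_sum_le _ _).trans (this.trans (mul_le_mul_of_nonneg_right h3 (norm_nonneg _)))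
  have e1 : β g ((L : ℝ)⁻¹ • ∑ i, β (h i) x) = (L : ℝ)⁻¹ • ∑ i, β (g * h i) x := by
    rw [← Complex.coe_smul, map_smul, map_sum, Complex.coe_smul]
    simp only [map_mul]
    rfl
  have e2 : ∑ i ∈ J, β (g * h i) x = ∑ i ∈ J, β (h (φ i)) x := sum_congr rfl fun i hi => by
    have := h2 i hi
    rw [mul_assoc, inv_mul_eq_one] at this
    rw [this]
  rw [e1, ← smul_sub, ← sum_add_sum_compl J fun i => β (g * h i) x, e2,
    ← sum_add_sum_compl (J.image φ) fun i => β (h i) x, sum_image hφ, add_sub_add_left_eq_sub,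
    norm_smul, Real.norm_eq_abs, abs_of_pos (inv_pos.2 L0), ← div_eq_inv_mul, div_le_iff₀ L0]
  have := bd J (fun i => g * h i) rfl
  have := bd _ h (card_image_of_injOn hφ)
  exact (norm_sub_le _ _).trans (by linarith)

lemma cont (c : ℝ) : Continuous (bmp c) := by unfold bmp; fun_prop

lemma orth {n : ℕ} {i j : Fin n} (h : i ≠ j) (t : ℝ) :
    bmp ((i : ℝ) + 1) t * bmp ((j : ℝ) + 1) t = 0 := by
  have k : ∀ a b : ℝ, a + 1 ≤ b → bmp a t * bmp b t = 0 := fun a b hab => by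
    rcases le_total t (a + 1 / 2) with c | c
    · rw [show bmp b t = 0 from max_eq_left (by nlinarith), mul_zero]
    · rw [show bmp a t = 0 from max_eq_left (by nlinarith), zero_mul]
  rcases lt_or_gt_of_ne h with c | c
  · exact k _ _ (by have : (i : ℕ) + 1 ≤ j := c; exact_mod_cast Nat.succ_le_succ this)
  · rw [mul_comm]
    exact k _ _ (by have : (j : ℕ) + 1 ≤ i := c; exact_mod_cast Nat.succ_le_succ this)

end N4

theorem gamN4 {σ : G →* (F ≃⋆ₐ[ℂ] F)} (hG : Vale.Agent.P184.IsAmenable G) (h : Gam σ ⊤) :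
    GamN σ := by
  classical
  intro n hn K ε hε
  have n1 : (1 : ℝ) ≤ n := by exact_mod_cast hn
  choose d d0 hd using fun i : Fin n => cfc_uc _ (N4.cont ((i : ℝ) + 1)) (n * n) ε hε
  obtain ⟨δ, δ0, hδ⟩ : ∃ δ : ℝ, 0 < δ ∧ ∀ i, δ ≤ d i := by
    obtain ⟨i, -, hi⟩ := exists_min_image univ d ⟨⟨0, hn⟩, mem_univ _⟩
    exact ⟨d i, d0 i, fun j => hi j (mem_univ _)⟩
  obtain ⟨L, k, hL, hk⟩ := folner hG K (δ / (2 * (n * n))) (by positivity)
  have L0 : (0 : ℝ) < L := Nat.cast_pos.2 hL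
  obtain ⟨θ, θ0, hθ⟩ : ∃ θ : ℝ, 0 < θ ∧ θ * (17 * n ^ 4) = ε :=
    ⟨ε / (17 * n ^ 4), by positivity, by field_simp⟩
  obtain ⟨D, _, _, β, ι, e, c1, c2, c3, c4⟩ := h n hn (univ.image k) (by simp) θ θ0
  have cb : ∀ j : Fin n, (0 : ℝ) ≤ (j : ℝ) + 1 ∧ (j : ℝ) + 1 ≤ n := fun j =>
    ⟨by positivity, by exact_mod_cast j.2⟩
  have hx : IsSelfAdjoint (∑ j : Fin n, ((j : ℝ) + 1) • e j) :=
    isSelfAdjoint_sum univ fun j _ => (IsSelfAdjoint.all _).smul (c2 j).1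
  have nx : ‖∑ j : Fin n, ((j : ℝ) + 1) • e j‖ ≤ n * n := by
    refine (norm_sum_le _ _).trans ((sum_le_card_nsmul _ _ (n : ℝ) fun j _ => ?_).trans_eq
      (by rw [card_univ, Fintype.card_fin, nsmul_eq_mul]))
    rw [norm_smul, Real.norm_of_nonneg (cb j).1]
    exact (mul_le_of_le_one_right (cb j).1 (FIN.ctr_norm (c2 j))).trans (cb j).2
  have b2 : ∀ ρ : D →ₗ[ℂ] ℂ, Tr ρ → ∀ l, (ρ ((β (k l) (∑ j : Fin n, ((j : ℝ) + 1) • e j) -
      ∑ j : Fin n, ((j : ℝ) + 1) • e j) ^ 2)).re ≤ (n : ℝ) ^ 2 * (n ^ 2 * θ) := fun ρ hρ l => by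
    have := N4.sum_sq hρ (z := fun j : Fin n => ((j : ℝ) + 1) • (β (k l) (e j) - e j))
      (fun j => (IsSelfAdjoint.all _).smul (((c2 j).1.map _).sub (c2 j).1)) (c := n ^ 2 * θ)
      (by positivity) fun j => by
        rw [smul_pow, AVG.re_smul]
        exact mul_le_mul (pow_le_pow_left₀ (cb j).1 (cb j).2 2)
          ((c4 ρ hρ j).2 _ (mem_image_of_mem _ (mem_univ l)))
          (hρ.sq_nonneg' (((c2 j).1.map _).sub (c2 j).1)) (by positivity)
    rw [Fintype.card_fin] at this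
    rw [map_sum, ← sum_sub_distrib]
    simp only [← Complex.coe_smul, map_smul, smul_sub] at this ⊢
    exact this
  have lw := fun ρ (hρ : Tr ρ) y η (hy : IsSelfAdjoint y) hη =>
    low (η := η) hρ hn c2 c3 (fun i => (c4 ρ hρ i).1) hy hη
  generalize ∑ j : Fin n, ((j : ℝ) + 1) • e j = x at hx nx b2 lw
  have hy : IsSelfAdjoint ((L : ℝ)⁻¹ • ∑ l, β (k l) x) :=
    (IsSelfAdjoint.all _).smul (isSelfAdjoint_sum univ fun l _ => hx.map _)
  have ny : ‖(L : ℝ)⁻¹ • ∑ l, β (k l) x‖ ≤ n * n := by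
    rw [norm_smul, Real.norm_of_nonneg (inv_pos.2 L0).le, ← div_eq_inv_mul, div_le_iff₀ L0]
    refine (norm_sum_le _ _).trans ((sum_le_card_nsmul _ _ ((n : ℝ) * n) fun l _ =>
      (StarAlgEquiv.norm_map _ x).trans_le nx).trans_eq ?_)
    rw [card_univ, Fintype.card_fin, nsmul_eq_mul, mul_comm]
  have b3 : ∀ ρ : D →ₗ[ℂ] ℂ, Tr ρ →
      (ρ (((L : ℝ)⁻¹ • ∑ l, β (k l) x - x) ^ 2)).re ≤ (n : ℝ) ^ 2 * (n ^ 2 * θ) := fun ρ hρ => by
    have := N4.sum_sq hρ (z := fun l => β (k l) x - x) (fun l => (hx.map _).sub hx)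
      (by positivity) (b2 ρ hρ)
    have e1 : (L : ℝ)⁻¹ • ∑ l, β (k l) x - x = (L : ℝ)⁻¹ • ∑ l, (β (k l) x - x) := by
      rw [sum_sub_distrib, sum_const, card_univ, Fintype.card_fin, smul_sub,
        ← Nat.cast_smul_eq_nsmul ℝ, smul_smul, inv_mul_cancel₀ L0.ne', one_smul]
    rw [Fintype.card_fin] at this
    rw [e1, smul_pow, AVG.re_smul, inv_pow, ← div_eq_inv_mul, div_le_iff₀ (by positivity),
      mul_comm]
    exact this
  have iv := fun g J φ => N4.inv β x (η := δ / (2 * (n * n))) hL k g J φ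
  generalize (L : ℝ)⁻¹ • ∑ l, β (k l) x = y at hy ny b3 iv
  refine ⟨D, inferInstance, inferInstance, β, ι, fun i => cfc (bmp ((i : ℝ) + 1)) y, c1,
    fun i => Ctr.cfc fun t => ⟨le_max_left _ _, max_le zero_le_one (by nlinarith [sq_nonneg (t - (i + 1))])⟩,
    fun i j hij => ?_, fun i g hg => ?_, fun ρ hρ i => ?_⟩
  · rw [← cfc_mul _ _ y (N4.cont _).continuousOn (N4.cont _).continuousOn]
    simp only [N4.orth hij, cfc_const_zero]
  · obtain ⟨J, φ, a1, a2, a3⟩ := hk g hg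
    have e1 : β g (cfc (bmp ((i : ℝ) + 1)) y) = cfc (bmp ((i : ℝ) + 1)) (β g y) :=
      StarAlgHomClass.map_cfc (β g : D →⋆ₐ[ℂ] D) _ y (N4.cont _).continuousOn
        (U2.hom_cont _) hy (hy.map _)
    rw [e1]
    refine hd i D _ _ (hy.map _) hy ((StarAlgEquiv.norm_map _ y).trans_le ny) ny
      ((iv g J φ a1 a2 a3).trans (le_trans ?_ (hδ i)))
    refine (mul_le_mul_of_nonneg_left nx (by positivity)).trans_eq ?_
    field_simp
  · have := lw ρ hρ y _ hy (b3 ρ hρ) i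
    have p3 : (n : ℝ) ^ 3 ≤ n ^ 4 := pow_le_pow_right₀ n1 (by norm_num)
    have p0 : (1 : ℝ) ≤ n ^ 4 := one_le_pow₀ n1
    nlinarith [mul_le_mul_of_nonneg_left p3 θ0.le, mul_le_mul_of_nonneg_left p0 θ0.le]

end Vale.Agent.P095G
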