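import Vale.Agent.P095G.PartEXT
import Vale.Agent.P095G.PartAVG

/-! Centering: a positive contraction with the same traces and small 2-norms. -/

namespace Vale.Agent.P095G

open Filter Topology Finset Vale.Agent.P101 Vale.Agent.P095 TopologicalSpace

variable {D : Type} [CStarAlgebra D]

namespace CEN7

lemma sq_cvx {τ : D →ₗ[ℂ] ℂ} (h : Tr τ) {a b : D} (ha : IsSelfAdjoint a) (hb : IsSelfAdjoint b)
    {s t : ℝ} (hs : 0 ≤ s) (ht : 0 ≤ t) (e : s + t = 1) :
    (τ ((s • a + t • b) * (s • a + t • b))).re ≤ s * (τ (a * a)).re + t * (τ (b * b)).re := by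
  have h1 := (h.pos (a - b)).1
  rw [(ha.sub hb).star_eq] at h1
  obtain rfl : t = 1 - s := by linarith
  have e2 : τ ((s • a + (1 - s) • b) * (s • a + (1 - s) • b)) + (s * (1 - s) : ℝ) *
      τ ((a - b) * (a - b)) = s * τ (a * a) + (1 - s : ℝ) * τ (b * b) := by
    rw [← Complex.coe_smul, ← Complex.coe_smul]
    simp only [smul_mul_assoc, mul_smul_comm, mul_add, add_mul, mul_sub, sub_mul, map_add, map_sub,
      map_smul, smul_eq_mul]
    push_cast
    ring
  have e3 := congrArg Complex.re e2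
  simp only [Complex.add_re, Complex.re_ofReal_mul] at e3
  nlinarith [mul_nonneg (mul_nonneg hs ht) h1]

variable [PartialOrder D] [StarOrderedRing D]

/-- Positive contractions with the same traces. -/
def K (w : D) : Set D := {a | 0 ≤ a ∧ a ≤ 1 ∧ ∀ ρ : D →ₗ[ℂ] ℂ, Tr ρ → ρ a = ρ w}

lemma cvx (w : D) : Convex ℝ (K w) := fun a ha b hb s t hs ht e =>
  ⟨add_nonneg (smul_nonneg hs ha.1) (smul_nonneg ht hb.1), by
    have := add_le_add (smul_le_smul_of_nonneg_left ha.2.1 hs) (smul_le_smul_of_nonneg_left hb.2.1 ht)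
    rwa [← add_smul, e, one_smul] at this, fun ρ hρ => by
    rw [← Complex.coe_smul, ← Complex.coe_smul, map_add, map_smul, map_smul, ha.2.2 ρ hρ,
      hb.2.2 ρ hρ, ← add_smul, ← Complex.ofReal_add, e, Complex.ofReal_one, one_smul]⟩

lemma one {w : D} (hw : w ∈ K w) {r ε : ℝ} (hr : ∀ ρ : D →ₗ[ℂ] ℂ, Tr ρ → (ρ w).re ≤ r)
    (hε : 0 < ε) {τ : D →ₗ[ℂ] ℂ} (h : Tr τ) : ∃ v ∈ K w, (τ (v * v)).re < r ^ 2 + ε := by
  by_contra! hc
  obtain ⟨m, hm⟩ : ∃ m, m = sInf ((fun a => (τ (a * a)).re) '' K w) := ⟨_, rfl⟩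
  have hne : ((fun a => (τ (a * a)).re) '' K w).Nonempty := ⟨_, w, hw, rfl⟩
  have m0 : r ^ 2 + ε ≤ m := hm ▸ le_csInf hne (by rintro _ ⟨a, ha, rfl⟩; exact hc a ha)
  have m1 : ∀ a ∈ K w, m ≤ (τ (a * a)).re := fun a ha =>
    hm ▸ csInf_le ⟨r ^ 2 + ε, by rintro _ ⟨a, ha, rfl⟩; exact hc a ha⟩ ⟨a, ha, rfl⟩
  have m2 : ∀ η : ℝ, 0 < η → ∃ a ∈ K w, (τ (a * a)).re ≤ m + η := fun η hη => by
    obtain ⟨_, ⟨a, ha, rfl⟩, h1⟩ := Real.lt_sInf_add_pos hne hη
    exact ⟨a, ha, hm ▸ h1.le⟩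
  have mid : ∀ a b : D, (1 / 2 : ℝ) • (a + b) = (1 / 2 : ℝ) • a + (1 / 2 : ℝ) • b :=
    fun a b => smul_add _ _ _
  have p : ∀ n : ℕ, (0 : ℝ) < 1 / ((n : ℝ) + 1) := fun n => Nat.one_div_pos_of_nat
  choose a ha ha' using fun n : ℕ => EXT.minim h
    (K := {a | a ∈ K w ∧ (τ (a * a)).re ≤ m + 1 / ((n : ℝ) + 1)}) (m2 _ (p n))
    (fun a ha => ha.1.1.isSelfAdjoint) (fun a ha b hb => by
      rw [mid]
      refine ⟨cvx w ha.1 hb.1 (by norm_num) (by norm_num) (by norm_num), (sq_cvx h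
        ha.1.1.isSelfAdjoint hb.1.1.isSelfAdjoint (by norm_num) (by norm_num) (by norm_num)).trans ?_⟩
      linarith [ha.2, hb.2]) (p n)
  have hb : ∀ n x, ‖(τ ∘ₗ LinearMap.mulLeft ℂ (a n)) x‖ ≤ ‖x‖ := fun n x =>
    (h.norm_le _).trans ((norm_mul_le_of_le
      ((CStarAlgebra.norm_le_one_iff_of_nonneg _ (ha n).1.1).2 (ha n).1.2.1) le_rfl).trans_eq
        (one_mul _))
  obtain ⟨ψ, hψ⟩ := EXT.ulim (fun n => τ ∘ₗ LinearMap.mulLeft ℂ (a n)) hb
  replace hψ : ∀ x, Tendsto (fun n => τ (a n * x)) (hyperfilter ℕ) (𝓝 (ψ x)) := hψ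
  have z : Tendsto (fun n : ℕ => 1 / ((n : ℝ) + 1)) (hyperfilter ℕ) (𝓝 0) :=
    (tendsto_one_div_add_atTop_nhds_zero_nat (𝕜 := ℝ)).mono_left Nat.hyperfilter_le_atTop
  have e0 : ∀ b x : D, τ (b * (star x * x)) = τ (x * b * star x) := fun b x => by
    rw [← mul_assoc, h.comm, mul_assoc]
  have c1 : ∀ u ∈ unitary D, ∀ y, ψ (u * y) = ψ (y * u) := fun u hu y => by
    have t1 : Tendsto (fun n => τ (a n * (y * u)) - τ (a n * (u * y)))
        (hyperfilter ℕ) (𝓝 0) := by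
      have t2 := ((z.const_mul 4).mul_const (τ (star (u * y) * (u * y))).re).sqrt
      rw [mul_zero, zero_mul, Real.sqrt_zero] at t2
      refine squeeze_zero_norm (fun n => Real.le_sqrt_of_sq_le ?_) t2
      have := ha' n u hu ⟨⟨star_right_conjugate_nonneg (ha n).1.1 _, by
          have := star_right_conjugate_le_conjugate (ha n).1.2.1 u
          rwa [mul_one, hu.2] at this, fun ρ hρ => by
          rw [hρ.comm, ← mul_assoc, hu.1, one_mul, (ha n).1.2.2 ρ hρ]⟩, by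
          have e : u * a n * star u * (u * a n * star u) = u * (a n * a n * star u) := by
            rw [mul_assoc (u * a n), ← mul_assoc (star u), ← mul_assoc (star u), hu.1, one_mul]
            simp only [mul_assoc]
          rw [e, h.comm, mul_assoc, hu.1, mul_one]
          exact (ha n).2⟩ (u * y)
      rw [sub_mul, map_sub, mul_assoc (u * a n), ← mul_assoc (star _), hu.1, one_mul,
        mul_assoc, h.comm u, mul_assoc, norm_sub_rev] at this
      exact this
    exact (sub_eq_zero.1 (tendsto_nhds_unique ((hψ _).sub (hψ _)) t1)).symm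
  have c2 : ∀ x y, ψ (x * y) = ψ (y * x) := fun x y => by
    have he : x ∈ Submodule.span ℂ (unitary D : Set D) := by
      rw [CStarAlgebra.span_unitary]; trivial
    induction he using Submodule.span_induction with
    | zero => simp
    | add a b _ _ ha hb => rw [add_mul, mul_add, map_add, map_add, ha, hb]
    | smul c a _ ha => rw [smul_mul_assoc, mul_smul_comm, map_smul, map_smul, ha]
    | mem u hu => exact c1 u hu y
  have c3 : ∀ x, 0 ≤ (ψ (star x * x)).re ∧ (ψ (star x * x)).im = 0 := fun x =>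
    ⟨ge_of_tendsto' ((Complex.continuous_re.tendsto _).comp (hψ _)) fun n => by
        rw [Function.comp_apply, e0]
        exact (h.nonneg (star_right_conjugate_nonneg (ha n).1.1 x)).1,
      tendsto_nhds_unique ((Complex.continuous_im.tendsto _).comp (hψ _))
        (tendsto_const_nhds.congr fun n => by
          rw [Function.comp_apply, e0]
          exact (h.nonneg (star_right_conjugate_nonneg (ha n).1.1 x)).2.symm)⟩
  obtain ⟨t, ht⟩ : ∃ t : ℝ, τ w = t := ⟨(τ w).re, Complex.ext rfl (by simpa using (h.nonneg hw.1).2)⟩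
  have t0 : 0 ≤ t := by simpa [ht] using (h.nonneg hw.1).1
  have t1 : t ≤ r := by simpa [ht] using hr τ h
  have c4 : ψ 1 = t := tendsto_nhds_unique (hψ 1) (tendsto_const_nhds.congr fun n => by
    rw [mul_one, (ha n).1.2.2 τ h, ht])
  obtain ⟨δ, d0, d1⟩ : ∃ δ : ℝ, 0 < δ ∧ r * δ ≤ ε / 2 := ⟨ε / 2 / (r + 1), by
    have := t0.trans t1
    positivity, by
    rw [← mul_div_assoc, div_le_iff₀ (by linarith)]
    nlinarith⟩
  have q0 : 0 < (t + δ)⁻¹ := by positivity
  have hρ : Tr ((((t + δ)⁻¹ : ℝ) : ℂ) • (ψ + (δ : ℂ) • τ)) := ⟨by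
      simp only [LinearMap.add_apply, LinearMap.smul_apply, c4, h.one, smul_eq_mul, mul_one]
      rw [← Complex.ofReal_add, ← Complex.ofReal_mul, inv_mul_cancel₀ (by positivity),
        Complex.ofReal_one], fun x => by
      have h1 := h.pos x
      have h2 := c3 x
      simp only [LinearMap.add_apply, LinearMap.smul_apply, smul_eq_mul, Complex.add_re,
        Complex.add_im, Complex.re_ofReal_mul, Complex.im_ofReal_mul, h1.2, h2.2, mul_zero,
        add_zero, and_true]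
      exact mul_nonneg q0.le (add_nonneg h2.1 (mul_nonneg d0.le h1.1)), fun x y => by
      simp only [LinearMap.add_apply, LinearMap.smul_apply, h.comm x y, c2 x y]⟩
  obtain ⟨b, hb1, hb2⟩ := m2 (ε / 2) (half_pos hε)
  have k1 := hr _ hρ
  rw [← hb1.2.2 _ hρ] at k1
  simp only [LinearMap.add_apply, LinearMap.smul_apply, smul_eq_mul, Complex.add_re,
    Complex.re_ofReal_mul, hb1.2.2 τ h, ht, Complex.ofReal_re] at k1
  rw [inv_mul_le_iff₀ (by positivity)] at k1
  have k2 : m - ε / 4 - 0 / 2 ≤ (ψ b).re :=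
    le_of_tendsto_of_tendsto' (tendsto_const_nhds.sub (z.div_const 2))
      ((Complex.continuous_re.tendsto _).comp (hψ b)) fun n => by
      have h1 := m1 _ (cvx w (ha n).1 hb1 (a := 1 / 2) (b := 1 / 2) (by norm_num) (by norm_num)
        (by norm_num))
      have e2 : 4 * τ (((1 / 2 : ℝ) • a n + (1 / 2 : ℝ) • b) * ((1 / 2 : ℝ) • a n + (1 / 2 : ℝ) • b)) =
          τ (a n * a n) + τ (b * b) + 2 * τ (a n * b) := by
        rw [← Complex.coe_smul, ← Complex.coe_smul]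
        simp only [smul_mul_assoc, mul_smul_comm, mul_add, add_mul, map_add, map_smul, smul_eq_mul,
          h.comm b (a n)]
        push_cast
        ring
      have e3 := congrArg Complex.re e2
      simp only [Complex.add_re, Complex.mul_re, Complex.re_ofNat, Complex.im_ofNat, zero_mul,
        sub_zero] at e3
      rw [Function.comp_apply]
      linarith [(ha n).2]
  nlinarith [mul_nonneg d0.le t0, mul_le_mul_of_nonneg_right t1 (t0.trans t1)]

end CEN7

theorem cen7 {w : D} (hw : Ctr w) {r ε : ℝ} (hr : ∀ ρ : D →ₗ[ℂ] ℂ, Tr ρ → (ρ w).re ≤ r)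
    (hε : 0 < ε) : ∃ v, Ctr v ∧ ∀ ρ : D →ₗ[ℂ] ℂ, Tr ρ → ρ v = ρ w ∧ (ρ (v * v)).re ≤ r ^ 2 + ε := by
  let _ := CStarAlgebra.spectralOrder D
  have _ := CStarAlgebra.spectralOrderedRing D
  have h0 : w ∈ CEN7.K w := ⟨(AVG.ctr_iff.1 hw).1, (AVG.ctr_iff.1 hw).2, fun _ _ => rfl⟩
  rcases (EXT.St D).eq_empty_or_nonempty with he | he
  · exact ⟨w, hw, fun ρ hρ => (Set.eq_empty_iff_forall_notMem.1 he ρ ⟨ρ, hρ, rfl⟩).elim⟩
  obtain ⟨s, s1, s2, s3⟩ := EXT.compact.elim_finite_subcover_image (b := CEN7.K w)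
    (c := fun v => {f : D → ℂ | (f (v * v)).re < r ^ 2 + ε})
    (fun v _ => isOpen_lt (by fun_prop) continuous_const) (by
      rintro _ ⟨τ, h, rfl⟩
      obtain ⟨v, h1, h2⟩ := CEN7.one h0 hr hε h
      exact Set.mem_biUnion h1 h2)
  obtain ⟨v, h1, h2⟩ := Sion.exists_lt_iInf_of_lt_iInf_of_finite (X := EXT.St D) (Y := CEN7.K w)
    (f := fun x y => -(x (y * y)).re) he EXT.compact
    (fun y _ => (Continuous.lowerSemicontinuous (by fun_prop)).lowerSemicontinuousOn _)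
    (fun y _ c x hx x' hx' a b ha hb e => ⟨EXT.convex hx.1 hx'.1 ha hb e, by
      have h1 := mul_le_mul_of_nonneg_left hx.2 ha
      have h2 := mul_le_mul_of_nonneg_left hx'.2 hb
      simp only [Pi.add_apply, Pi.smul_apply, Complex.add_re, Complex.real_smul,
        Complex.re_ofReal_mul]
      have : a * c + b * c = c := by rw [← add_mul, e, one_mul]
      linarith⟩) (CEN7.cvx w)
    (by
      rintro _ ⟨τ, h, rfl⟩
      have : Continuous τ := AddMonoidHomClass.continuous_of_bound τ 1 fun x => by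
        rw [one_mul]; exact h.norm_le x
      exact (Continuous.upperSemicontinuous (by fun_prop)).upperSemicontinuousOn _)
    (by
      rintro _ ⟨τ, h, rfl⟩ c x hx x' hx' a b ha hb e
      refine ⟨CEN7.cvx w hx.1 hx'.1 ha hb e, ?_⟩
      have h1 := mul_le_mul_of_nonneg_left hx.2 ha
      have h2 := mul_le_mul_of_nonneg_left hx'.2 hb
      have h3 := CEN7.sq_cvx h hx.1.1.isSelfAdjoint hx'.1.1.isSelfAdjoint ha hb e
      have : a * c + b * c = c := by rw [← add_mul, e, one_mul]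
      simp only at h1 h2 ⊢
      linarith) EXT.convex s2 s1 (t := -(r ^ 2 + ε)) fun x hx => by
      obtain ⟨y, hy, h⟩ := Set.mem_iUnion₂.1 (s3 hx)
      exact ⟨y, hy, neg_lt_neg h⟩
  exact ⟨v, AVG.ctr_iff.2 ⟨h1.1, h1.2.1⟩, fun ρ hρ =>
    ⟨h1.2.2 ρ hρ, (neg_lt_neg_iff.1 (h2 _ ⟨ρ, hρ, rfl⟩)).le⟩⟩

end Vale.Agent.P095G
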