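import Vale.Agent.P095G.PartFIN

/-! Part SM: a piece of a tracial division is a small element. -/

namespace Vale.Agent.P095G

open Filter Topology Finset Vale.Agent.P101 Vale.Agent.P095 TopologicalSpace

variable {A D E F : Type} [CStarAlgebra A] [CStarAlgebra D] [CStarAlgebra E] [CStarAlgebra F]
  {G : Type} [Group G] {ρ : D →ₗ[ℂ] ℂ} {ω : Ultrafilter ℕ}

namespace SM

lemma rt_ctr {e : D} (he : Ctr e) : Ctr (rt e) := by
  refine ⟨cfc_predicate _ e, ?_⟩
  rw [cfc_map_spectrum Real.sqrt e he.1]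
  rintro _ ⟨t, ht, rfl⟩
  exact ⟨Real.sqrt_nonneg t, Real.sqrt_le_one.2 (he.2 ht).2⟩

lemma rt_sq {e : D} (he : Ctr e) : rt e * rt e = e := by
  rw [← cfc_mul Real.sqrt Real.sqrt e]
  conv_rhs => rw [← cfc_id' ℝ e he.1]
  exact cfc_congr fun t ht => Real.mul_self_sqrt (he.2 ht).1

lemma rt_orth {e f : D} (he : Ctr e) (h : e * f = 0) : rt e * f = 0 := by
  rw [← CStarRing.star_mul_self_eq_zero_iff, star_mul, (rt_ctr he).1.star_eq, mul_assoc,
    ← mul_assoc (rt e), rt_sq he, h, mul_zero]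

lemma le_rt (hρ : Tr ρ) {e : D} (he : Ctr e) : (ρ e).re ≤ (ρ (rt e)).re := by
  letI := CStarAlgebra.spectralOrder D
  haveI := CStarAlgebra.spectralOrderedRing D
  refine hρ.mono ?_
  conv_lhs => rw [← cfc_id' ℝ e he.1]
  refine cfc_mono fun t ht => ?_
  obtain ⟨a, b⟩ := he.2 ht
  exact Real.le_sqrt_of_sq_le (by nlinarith)

end SM

theorem Gam.sm {σ : G →* (F ≃⋆ₐ[ℂ] F)} {S : Subgroup G} (h : Gam σ S) : Sm σ S := by
  classical
  intro n hn K hK ε hε
  have n1 : (1 : ℝ) ≤ n := by exact_mod_cast hn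
  obtain ⟨δ, d0, d1, d2⟩ : ∃ δ : ℝ, 0 < δ ∧ δ ≤ ε ∧ δ ≤ 1 / (2 * n ^ 2) :=
    ⟨min ε (1 / (2 * n ^ 2)), lt_min hε (by positivity), min_le_left _ _, min_le_right _ _⟩
  obtain ⟨D, _, _, β, ι, e, h1, h2, h3, h4⟩ := h n hn K hK δ d0
  let o : Fin n := ⟨0, hn⟩
  have d3 : n * δ ≤ 1 / (2 * n) := by
    refine (mul_le_mul_of_nonneg_left d2 (by positivity)).trans (le_of_eq ?_)
    field_simp
  have d4 : δ ≤ 1 / (2 * n) := le_trans (by nlinarith) d3
  refine ⟨D, inferInstance, inferInstance, β, ι, e o, h1, h2 o, fun ρ hρ => ⟨?_, ?_, fun g hg =>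
    ((h4 ρ hρ o).2 g hg).trans d1⟩⟩
  · refine le_trans ?_ (h4 ρ hρ o).1
    have a1 : 1 / (8 * n : ℝ) = 1 / 8 * (1 / n) := by field_simp
    have a2 : 1 / (2 * n : ℝ) = 1 / 2 * (1 / n) := by field_simp
    have a3 : 0 < 1 / (n : ℝ) := by positivity
    linarith
  · have key := FIN.near (e := Function.update e o (rt (e o))) hn (fun i => ?_)
      (fun i j hij => ?_) hρ d0.le (fun i => ?_) o
    · rw [Function.update_self] at key
      have a1 := (Complex.re_le_norm _).trans key
      have a2 : (ρ (rt (e o)) - 1 / n).re = (ρ (rt (e o))).re - 1 / n := by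
        rw [Complex.sub_re]
        congr 1
        rw [← Complex.ofReal_natCast, ← Complex.ofReal_one, ← Complex.ofReal_div,
          Complex.ofReal_re]
      have a3 : 1 / (2 * n : ℝ) = 1 / 2 * (1 / n) := by field_simp
      have a4 : 2 / (n : ℝ) = 2 * (1 / n) := by field_simp
      have a5 : 0 < 1 / (n : ℝ) := by positivity
      linarith
    · rcases eq_or_ne i o with rfl | hi
      · rw [Function.update_self]
        exact SM.rt_ctr (h2 _)
      · rw [Function.update_of_ne hi]
        exact h2 i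
    · rcases eq_or_ne i o with rfl | hi
      · rw [Function.update_self, Function.update_of_ne hij.symm]
        exact SM.rt_orth (h2 _) (h3 _ _ hij)
      · rcases eq_or_ne j o with rfl | hj
        · rw [Function.update_self, Function.update_of_ne hi]
          have := congrArg star (SM.rt_orth (h2 _) (h3 _ _ hij.symm))
          rwa [star_mul, (SM.rt_ctr (h2 _)).1.star_eq, (h2 i).1.star_eq, star_zero] at this
        · rw [Function.update_of_ne hi, Function.update_of_ne hj]
          exact h3 i j hij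
    · rcases eq_or_ne i o with rfl | hi
      · rw [Function.update_self]
        exact (h4 ρ hρ _).1.trans (SM.le_rt hρ (h2 _))
      · rw [Function.update_of_ne hi]
        exact (h4 ρ hρ i).1

end Vale.Agent.P095G
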