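import Mathlib

/-! Tracial states, elementary amenable groups. -/

namespace Vale.Agent.P095G

/-- Tracial states. -/
structure Tr {D : Type} [CStarAlgebra D] (ρ : D →ₗ[ℂ] ℂ) : Prop where
  one : ρ 1 = 1
  pos : ∀ x, 0 ≤ (ρ (star x * x)).re ∧ (ρ (star x * x)).im = 0
  comm : ∀ x y, ρ (x * y) = ρ (y * x)

/-- Elementary amenable groups: the smallest class that contains finite and abelian groups and is
closed under subgroups, quotients, extensions and directed unions. -/
inductive EA : (G : Type) → [Group G] → Prop
  | fin (G : Type) [Group G] [Finite G] : EA G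
  | ab (G : Type) [Group G] (h : ∀ a b : G, a * b = b * a) : EA G
  | sub (G H : Type) [Group G] [Group H] (f : G →* H) (hf : Function.Injective f) (h : EA H) : EA G
  | quot (G H : Type) [Group G] [Group H] (f : G →* H) (hf : Function.Surjective f) (h : EA G) :
      EA H
  | ext (G : Type) [Group G] (N : Subgroup G) [N.Normal] (h1 : EA N) (h2 : EA (G ⧸ N)) : EA G
  | union (G : Type) [Group G] (S : Set (Subgroup G)) (h : ∀ H ∈ S, EA H)
      (hd : ∀ K : Finset G, ∃ H ∈ S, (K : Set G) ⊆ H) : EA G

end Vale.Agent.P095G
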