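import Vale.Agent.P095H.Defs
import Vale.Agent.P095G.Defs

/-! Equivariant property (SI). -/

namespace Vale.Agent.P095G

open Filter Topology Vale.Agent.P101 Vale.Agent.P095H

variable {G A : Type} [Group G] [CStarAlgebra A]

/-- Bounded sequences that are central and invariant along `ω`. -/
def CInv (ω : Ultrafilter ℕ) (α : G →* Aut A) (x : Linf A) : Prop :=
  (∀ a, Tendsto (fun n => ‖x n * a - a * x n‖) ω (𝓝 0)) ∧
    ∀ g, Tendsto (fun n => ‖α g (x n) - x n‖) ω (𝓝 0)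

/-- Equivariant property (SI): for invariant central sequences `e`, `f` of positive contractions,
`e` uniformly tracially null and `f` uniformly tracially large, there is an invariant central
sequence `s` with `s* s = e` and `f s = s` in the limit. -/
def EqSI (ω : Ultrafilter ℕ) (α : G →* Aut A) : Prop :=
  ∀ e f : Linf A, CInv ω α e → CInv ω α f →
    (∀ n, IsSelfAdjoint (e n) ∧ spectrum ℝ (e n) ⊆ Set.Icc 0 1) →
    (∀ n, IsSelfAdjoint (f n) ∧ spectrum ℝ (f n) ⊆ Set.Icc 0 1) →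
    (∀ ε : ℝ, 0 < ε → ∀ᶠ n in (ω : Filter ℕ), ∀ τ : A →ₗ[ℂ] ℂ, Tr τ → (τ (e n)).re ≤ ε) →
    (∃ c : ℝ, 0 < c ∧ ∀ m : ℕ, ∀ᶠ n in (ω : Filter ℕ), ∀ τ : A →ₗ[ℂ] ℂ, Tr τ →
      c ≤ (τ (f n ^ m)).re) →
    ∃ s : Linf A, CInv ω α s ∧ Tendsto (fun n => ‖star (s n) * s n - e n‖) ω (𝓝 0) ∧
      Tendsto (fun n => ‖f n * s n - s n‖) ω (𝓝 0)

end Vale.Agent.P095G
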