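import Vale.Agent.P095G.Work

/-! Part GRP: induction over elementary amenable groups. -/

namespace Vale.Agent.P095G

open Filter Topology Finset Vale.Agent.P101 Vale.Agent.P095 TopologicalSpace

variable {A D E F : Type} [CStarAlgebra A] [CStarAlgebra D] [CStarAlgebra E] [CStarAlgebra F]
  {G : Type} [Group G] {ρ : D →ₗ[ℂ] ℂ} {ω : Ultrafilter ℕ}

namespace GRP

lemma fol_le {S N : Subgroup G} (h : S ≤ N) : Fol S N := fun K hK η hη =>
  ⟨1, fun _ => 1, one_pos, fun g hg => ⟨univ, id, Set.injOn_id _,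
    fun _ _ => by simpa using h (hK hg), by simpa using hη.le⟩⟩

lemma fol_fin {G' H : Type} [Group G'] [Group H] [Finite H] (a : G' →* G) (π : G' →* H) :
    Fol a.range (π.ker.map a) := by
  intro K hK η hη
  obtain ⟨L, ⟨e⟩⟩ := Finite.exists_equiv_fin π.range
  choose s hs using fun i : Fin L => (e.symm i).2
  refine ⟨L, fun i => a (s i), Fin.pos (e 1), fun g hg => ?_⟩
  obtain ⟨g, rfl⟩ := hK hg
  refine ⟨univ, fun i => e (⟨π g, g, rfl⟩ * e.symm i), fun i _ j _ h =>
    e.symm.injective (mul_left_cancel (e.injective h)), fun i _ => ?_, by simp; positivity⟩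
  refine ⟨(s (e (⟨π g, g, rfl⟩ * e.symm i)))⁻¹ * g * s i, ?_, by simp⟩
  show π _ = 1
  rw [map_mul, map_mul, map_inv, hs, hs, Equiv.symm_apply_apply, mul_assoc]
  exact inv_mul_cancel _

lemma fol_cyc {G' : Type} [Group G'] (a : G' →* G) (M M' : Subgroup G') [hM : M.Normal] (t : G')
    (h : ∀ g ∈ M', ∃ k : ℤ, g * (t ^ k)⁻¹ ∈ M) : Fol (M'.map a) (M.map a) := by
  intro K hK η hη
  have h1 : ∀ g : K, ∃ (g' : G') (k : ℤ), a g' = g ∧ g' * (t ^ k)⁻¹ ∈ M := fun g => by
    obtain ⟨g', h1, h2⟩ := hK g.2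
    obtain ⟨k, hk⟩ := h g' h1
    exact ⟨g', k, h2, hk⟩
  choose s k hs hk using h1
  obtain ⟨C, hC⟩ : ∃ C : ℕ, ∀ g, (k g).natAbs ≤ C :=
    ⟨∑ g, (k g).natAbs, fun g => single_le_sum (f := fun g => (k g).natAbs)
      (fun _ _ => Nat.zero_le _) (mem_univ g)⟩
  obtain ⟨m, hm⟩ := exists_nat_gt (C / η)
  have m0 : 0 < m := Nat.cast_pos.1 (lt_of_le_of_lt (by positivity) hm)
  refine ⟨m * m, fun i => a (t ^ (i : ℕ)), by positivity, fun g hg => ?_⟩
  obtain ⟨c, hc⟩ : ∃ c, c = k ⟨g, hg⟩ := ⟨_, rfl⟩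
  have hc' : c.natAbs ≤ C := hc ▸ hC _
  refine ⟨univ.filter fun i => 0 ≤ (i : ℤ) + c ∧ ((i : ℤ) + c).toNat < m * m,
    fun i => if h : ((i : ℤ) + c).toNat < m * m then ⟨_, h⟩ else i, fun i hi j hj e => ?_,
    fun i hi => ?_, ?_⟩
  · have hi := (mem_filter.1 hi).2
    have hj := (mem_filter.1 hj).2
    simp only [dif_pos hi.2, dif_pos hj.2, Fin.mk.injEq] at e
    exact Fin.ext (by omega)
  · have hi := (mem_filter.1 hi).2
    simp only [dif_pos hi.2]
    refine ⟨(t ^ ((i : ℤ) + c).toNat)⁻¹ * s ⟨g, hg⟩ * t ^ (i : ℕ), ?_, by simp [hs]⟩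
    have := hM.conj_mem _ (hk ⟨g, hg⟩) (t ^ ((i : ℤ) + c))⁻¹
    rw [← hc] at this
    rw [← zpow_natCast, Int.toNat_of_nonneg hi.1, ← zpow_natCast]
    refine (congrArg (· ∈ M) ?_).mp this
    group
  · have h2 : m * m ≤ (univ.filter fun i : Fin (m * m) =>
        0 ≤ (i : ℤ) + c ∧ ((i : ℤ) + c).toNat < m * m).card + C := by
      have h3 := card_filter_add_card_filter_not (s := (univ : Finset (Fin (m * m))))
        fun i => 0 ≤ (i : ℤ) + c ∧ ((i : ℤ) + c).toNat < m * m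
      rw [card_univ, Fintype.card_fin] at h3
      have h4 : (univ.filter fun i : Fin (m * m) =>
          ¬ (0 ≤ (i : ℤ) + c ∧ ((i : ℤ) + c).toNat < m * m)).card ≤ (range C).card := by
        refine card_le_card_of_injOn (fun i => if c < 0 then (i : ℕ) else m * m - 1 - i)
          (fun i hi => ?_) fun i _ j _ e => ?_
        · have h5 := (mem_filter.1 hi).2
          have h6 := i.2
          rw [mem_coe, mem_range]
          dsimp only
          split_ifs <;> omega
        · have h5 := i.2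
          have h6 := j.2
          dsimp only at e
          refine Fin.ext ?_
          split_ifs at e <;> omega
      rw [card_range] at h4
      omega
    have h3 : ((m * m : ℕ) : ℝ) ≤ _ := Nat.cast_le.2 h2
    have h4 : Real.sqrt ((m * m : ℕ) : ℝ) = m := by
      rw [Nat.cast_mul]; exact Real.sqrt_mul_self (Nat.cast_nonneg m)
    rw [h4]
    rw [Nat.cast_add] at h3
    rw [div_lt_iff₀ hη] at hm
    linarith

lemma pre {G' : Type} [Group G'] (a : G' →* G) (K : Finset G) (hK : (K : Set G) ⊆ a.range) :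
    ∃ T : Finset G', ∀ g ∈ K, ∃ t ∈ T, a t = g := by
  classical
  choose s hs using fun g : K => hK g.2
  exact ⟨univ.image s, fun g hg => ⟨s ⟨g, hg⟩, mem_image_of_mem _ (mem_univ _), hs _⟩⟩

lemma key (P : Subgroup G → Prop) (h1 : ∀ S N : Subgroup G, Fol S N → P N → P S)
    (h2 : ∀ S : Subgroup G, (∀ K : Finset G, (K : Set G) ⊆ S →
      ∃ S' : Subgroup G, (K : Set G) ⊆ S' ∧ P S') → P S) {H : Type} [i : Group H] (hH : EA H) :
    ∀ (G' : Type) [Group G'] (a : G' →* G) (π : G' →* H), P (π.ker.map a) → P a.range := by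
  classical
  have mono : ∀ {S N : Subgroup G}, S ≤ N → P N → P S := fun h => h1 _ _ (fol_le h)
  induction hH with
  | fin H => exact fun G' _ a π => h1 _ _ (fol_fin a π)
  | @ab H i h =>
    intro G' _ a π h0
    let _ : CommGroup H := { i with mul_comm := h }
    have st : ∀ T : Finset G', P (((Subgroup.closure (π '' T)).comap π).map a) := fun T => by
      induction T using Finset.induction_on with
      | empty => simpa using h0
      | insert t T _ ih =>
        refine h1 _ _ (fol_cyc a _ _ t fun g hg => ?_) ih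
        rw [Subgroup.mem_comap, coe_insert, Set.image_insert_eq, Set.insert_eq,
          Subgroup.closure_union, ← Subgroup.zpowers_eq_closure, Subgroup.mem_sup] at hg
        obtain ⟨_, ⟨k, rfl⟩, z, hz, e⟩ := hg
        refine ⟨k, ?_⟩
        rw [Subgroup.mem_comap, map_mul, map_inv, map_zpow, ← e, mul_inv_cancel_comm]
        exact hz
    refine h2 _ fun K hK => ?_
    obtain ⟨T, hT⟩ := pre a K hK
    refine ⟨_, fun g hg => ?_, st T⟩
    obtain ⟨t, ht, rfl⟩ := hT g hg
    exact ⟨t, Subgroup.subset_closure ⟨t, ht, rfl⟩, rfl⟩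
  | sub H H' f hf _ ih =>
    intro G' _ a π h0
    refine ih G' a (f.comp π) (mono (Subgroup.map_mono fun g hg => ?_) h0)
    exact hf (hg.trans (map_one f).symm)
  | quot H H' f hf _ ih =>
    intro G' _ a π h0
    let Q := (π.comp (MonoidHom.fst G' H)).eqLocus (f.comp (MonoidHom.snd G' H))
    refine mono ?_ (ih Q (a.comp ((MonoidHom.fst G' H).comp Q.subtype))
      ((MonoidHom.snd G' H).comp Q.subtype) (mono ?_ h0))
    · rintro _ ⟨g, rfl⟩
      obtain ⟨x, hx⟩ := hf (π g)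
      exact ⟨⟨(g, x), hx.symm⟩, rfl⟩
    · rintro _ ⟨⟨⟨g, x⟩, hx⟩, hk, rfl⟩
      obtain rfl : x = 1 := hk
      exact ⟨g, hx.trans (map_one f), rfl⟩
  | ext H N _ _ ih1 ih2 =>
    intro G' _ a π h0
    refine ih2 G' a ((QuotientGroup.mk' N).comp π) (mono ?_
      (ih1 ((QuotientGroup.mk' N).comp π).ker (a.comp (Subgroup.subtype _))
        ((π.comp (Subgroup.subtype _)).codRestrict N fun x =>
          (QuotientGroup.eq_one_iff _).1 x.2) (mono ?_ h0)))
    · rintro _ ⟨g, hg, rfl⟩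
      exact ⟨⟨g, hg⟩, rfl⟩
    · rintro _ ⟨g, hg, rfl⟩
      exact ⟨g.1, congrArg Subtype.val hg, rfl⟩
  | union H S _ hd ih =>
    intro G' _ a π h0
    refine h2 _ fun K hK => ?_
    obtain ⟨T, hT⟩ := pre a K hK
    obtain ⟨H0, hS, hH0⟩ := hd (T.image π)
    refine ⟨_, fun g hg => ?_, ih H0 hS (H0.comap π) (a.comp (Subgroup.subtype _))
      ((π.comp (Subgroup.subtype _)).codRestrict H0 fun x => x.2) (mono ?_ h0)⟩
    · obtain ⟨t, ht, rfl⟩ := hT g hg
      exact ⟨⟨t, hH0 (mem_coe.2 (mem_image_of_mem _ ht))⟩, rfl⟩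
    · rintro _ ⟨g, hg, rfl⟩
      exact ⟨g.1, congrArg Subtype.val hg, rfl⟩

end GRP

theorem grp (P : Subgroup G → Prop) (h1 : ∀ S N : Subgroup G, Fol S N → P N → P S)
    (h2 : ∀ S : Subgroup G, (∀ K : Finset G, (K : Set G) ⊆ S →
      ∃ S' : Subgroup G, (K : Set G) ⊆ S' ∧ P S') → P S)
    (h0 : P ⊥) (hG : EA G) : P ⊤ := by
  have := GRP.key P h1 h2 hG G (MonoidHom.id G) (MonoidHom.id G) (by simpa using h0)
  rwa [MonoidHom.range_eq_top.2 Function.surjective_id] at this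

end Vale.Agent.P095G
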