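import Vale.Agent.P095G.PartSTEP
import Vale.Agent.P095G.PartSM
import Vale.Agent.P095G.PartBASE
import Vale.Agent.P095G.PartCPG
import Vale.Agent.P095G.PartGRP
import Vale.Agent.P095G.PartFIN
import Vale.Agent.P095.PartCN
import Vale.Agent.P101.Glue

/-! Equivariant uniform property Gamma for elementary amenable groups. -/

namespace Vale.Agent.P095G

open Filter Topology Finset Vale.Agent.P101 Vale.Agent.P095 TopologicalSpace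

variable {A E T Z : Type} [CStarAlgebra A] [CStarAlgebra E] [CStarAlgebra T] [CStarAlgebra Z]
  {G : Type} [Group G] {ω : Ultrafilter ℕ}

theorem gam_top (hω : (ω : Filter ℕ) ≤ cofinite) [Nontrivial A] [SeparableSpace A]
    {q : Linf A →⋆ₐ[ℂ] E} (hq : IsUlt ω q) (h : IsEmpty (Cen q (id : A → A) →⋆ₐ[ℂ] ℂ))
    [Countable G] (hG : EA G) {σ : G →* (Cen q (id : A → A) ≃⋆ₐ[ℂ] Cen q (id : A → A))}
    (h1 : CpG σ) : Gam σ ⊤ := by
  have h3 : Sm σ ⊤ := grp (Sm σ) (fun S N hF hN => Gam.sm (step h1 hF hN))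
    (fun S hS n hn K hK ε hε => by
      obtain ⟨S', a, b⟩ := hS K hK
      exact b n hn K a ε hε) (base σ (cp_of_ult hω hq) h) hG
  exact step h1 (fun K _ η hη => ⟨1, fun _ => 1, one_pos, fun g _ =>
    ⟨univ, id, Set.injOn_id _, fun _ _ => Subgroup.mem_top _, by simpa using hη.le⟩⟩) h3

theorem main [Nontrivial A] [SeparableSpace A] [SeparableSpace Z] (hs : SelfCentral Z)
    (hz : IsEmpty (Z →⋆ₐ[ℂ] ℂ)) (ι : A →⋆ₐ[ℂ] T) (j : Z →⋆ₐ[ℂ] T)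
    (hc : ∀ a d, Commute (ι a) (j d))
    (hd : Dense (StarAlgebra.adjoin ℂ (Set.range ι ∪ Set.range j) : Set T)) (φ : A ≃⋆ₐ[ℂ] T)
    [Countable G] (hG : EA G) (α : G →* (A ≃⋆ₐ[ℂ] A))
    (n : ℕ) (hn : 0 < n) (X : Finset A) (K : Finset G) (ε : ℝ) (hε : 0 < ε) :
    ∃ e : Fin n → A, (∀ i, IsSelfAdjoint (e i) ∧ spectrum ℝ (e i) ⊆ Set.Icc 0 1) ∧
      (∀ i j, i ≠ j → ‖e i * e j‖ < ε) ∧ (∀ i, ∀ a ∈ X, ‖e i * a - a * e i‖ < ε) ∧
      ∀ τ : A →ₗ[ℂ] ℂ, Tr τ → ∀ i, (∀ g ∈ K, ‖τ ((α g (e i) - e i) ^ 2)‖ < ε) ∧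
        ∀ a ∈ X, ‖τ (a * e i) - τ a / n‖ < ε := by
  have hω : ((hyperfilter ℕ : Ultrafilter ℕ) : Filter ℕ) ≤ cofinite := hyperfilter_le_cofinite
  obtain ⟨E, _, _, q, hq⟩ := exists_ult (A := A) (hyperfilter ℕ)
  obtain ⟨σ, h1, h2⟩ := cpg hω hq α
  exact fin hω hq α h2 (gam_top hω hq (cen_nochar hω hq hs hz ι j hc hd φ) hG h1) n hn X K ε hε

end Vale.Agent.P095G
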