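import Vale.Agent.P095G.WorkR
import Vale.Agent.P095G.PartPS
import Vale.Agent.P095G.PartAVG

/-! From relative to absolute tracial copies of two by two matrices. -/

namespace Vale.Agent.P095G

open Filter Topology Finset Vale.Agent.P101 Vale.Agent.P095 TopologicalSpace Rot

variable {D E F : Type} [CStarAlgebra D] [CStarAlgebra E] [CStarAlgebra F] {G : Type} [Group G]

namespace BO

lemma fpos {τ ψ : D →ₗ[ℂ] ℂ} (h : Tr τ)
    (c3 : ∀ x, 0 ≤ (ψ (star x * x)).re ∧ (ψ (star x * x)).im = 0)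
    (c2 : ∀ x y, ψ (x * y) = ψ (y * x)) {e : D} (he : ∀ ρ : D →ₗ[ℂ] ℂ, Tr ρ → 0 ≤ (ρ e).re) :
    0 ≤ (ψ e).re := by
  have a1 := c3 1
  rw [star_one, mul_one] at a1
  obtain ⟨t, c4⟩ : ∃ t : ℝ, ψ 1 = t := ⟨(ψ 1).re, Complex.ext rfl (by simpa using a1.2)⟩
  have t0 : 0 ≤ t := by simpa [c4] using a1.1
  refine le_of_forall_pos_le_add fun η hη => ?_
  obtain ⟨δ, d0, d1⟩ : ∃ δ : ℝ, 0 < δ ∧ δ * ‖e‖ ≤ η := ⟨η / (‖e‖ + 1), by positivity, by
    rw [div_mul_eq_mul_div, div_le_iff₀ (by positivity)]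
    nlinarith [norm_nonneg e]⟩
  have q0 : 0 < (t + δ)⁻¹ := by positivity
  have hρ : Tr ((((t + δ)⁻¹ : ℝ) : ℂ) • (ψ + (δ : ℂ) • τ)) := ⟨by
      simp only [LinearMap.add_apply, LinearMap.smul_apply, c4, h.one, smul_eq_mul, mul_one]
      rw [← Complex.ofReal_add, ← Complex.ofReal_mul, inv_mul_cancel₀ (by positivity),
        Complex.ofReal_one], fun x => by
      have h1 := h.pos x
      have h2 := c3 x
      simp only [LinearMap.add_apply, LinearMap.smul_apply, smul_eq_mul, Complex.add_re,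
        Complex.add_im, Complex.re_ofReal_mul, Complex.im_ofReal_mul, h1.2, h2.2, mul_zero,
        add_zero, and_true]
      exact mul_nonneg q0.le (add_nonneg h2.1 (mul_nonneg d0.le h1.1)), fun x y => by
      simp only [LinearMap.add_apply, LinearMap.smul_apply, h.comm x y, c2 x y]⟩
  have k1 := he _ hρ
  simp only [LinearMap.add_apply, LinearMap.smul_apply, smul_eq_mul, Complex.add_re,
    Complex.re_ofReal_mul] at k1
  have k2 := nonneg_of_mul_nonneg_right k1 q0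
  have k3 := mul_le_mul_of_nonneg_left ((Complex.re_le_norm _).trans (h.norm_le e)) d0.le
  linarith

/-- No success so far. -/
noncomputable def Qn (θ : ℕ → D →⋆ₐ[ℂ] E) (h : D) : ℕ → E
  | 0 => 1
  | n + 1 => Qn θ h n * (1 - θ n h)

/-- The first success sum. -/
noncomputable def An (θ : ℕ → D →⋆ₐ[ℂ] E) (h a : D) : ℕ → E
  | 0 => 0
  | n + 1 => An θ h a n + Qn θ h n * θ n a

lemma cpx {τ : E →ₗ[ℂ] ℂ} (h : Tr τ) {p q : E} (hp : IsSelfAdjoint p) (hq : IsSelfAdjoint q)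
    (c : ℝ) : (τ (star (c • (p + Complex.I • q)) * (c • (p + Complex.I • q)))).re =
      c ^ 2 * ((τ (p ^ 2)).re + (τ (q ^ 2)).re) := by
  have e : τ (star (c • (p + Complex.I • q)) * (c • (p + Complex.I • q))) =
      (c ^ 2 : ℝ) * (τ (p ^ 2) + τ (q ^ 2)) := by
    rw [← Complex.coe_smul]
    simp only [star_smul, star_add, hp.star_eq, hq.star_eq, smul_mul_assoc, mul_smul_comm, add_mul,
      mul_add, map_add, map_smul, smul_eq_mul, RCLike.star_def, Complex.conj_ofReal, Complex.conj_I,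
      h.comm q p, sq]
    push_cast
    linear_combination (-(c : ℂ) * c * τ (q * q)) * Complex.I_mul_I
  rw [e, Complex.re_ofReal_mul, Complex.add_re]

variable [PartialOrder D] [StarOrderedRing D] [PartialOrder E] [StarOrderedRing E]

omit [PartialOrder D] [StarOrderedRing D] in
lemma wpos {τ : E →ₗ[ℂ] ℂ} (h : Tr τ) (j : D →⋆ₐ[ℂ] E) {Q Q' : E} (q : 0 ≤ Q) (q' : 0 ≤ Q')
    (c : ∀ d, Commute Q (j d)) (c' : ∀ d, Commute Q' (j d)) {e : D}
    (he : ∀ ρ : D →ₗ[ℂ] ℂ, Tr ρ → 0 ≤ (ρ e).re) : 0 ≤ (τ (Q * Q' * j e)).re := by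
  refine fpos (ψ := τ ∘ₗ LinearMap.mulLeft ℂ (Q * Q') ∘ₗ j.toAlgHom.toLinearMap) (h.comp j)
    (fun x => ?_) (fun x y => ?_) he
  · change 0 ≤ (τ (Q * Q' * j (star x * x))).re ∧ (τ (Q * Q' * j (star x * x))).im = 0
    have h1 := h.nonneg (star_left_conjugate_nonneg (star_left_conjugate_nonneg q' (j x)) (rt Q))
    rwa [(rt_nonneg Q).isSelfAdjoint.star_eq, h.comm, ← mul_assoc, rt_mul q, ← map_star,
      ← (c' _).eq, mul_assoc, ← map_mul, ← mul_assoc] at h1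
  · change τ (Q * Q' * j (x * y)) = τ (Q * Q' * j (y * x))
    rw [map_mul j, map_mul j, ← mul_assoc, h.comm, ← mul_assoc, ← ((c y).mul_left (c' y)).eq,
      mul_assoc]

lemma cr {τ : E →ₗ[ℂ] ℂ} (h : Tr τ) {H A Q x y : E} (a1 : 0 ≤ H - A) (a2 : 0 ≤ H + A) (q : 0 ≤ Q)
    (b1 : 0 ≤ x - y) (b2 : 0 ≤ x + y) (c1 : Commute Q x) (c2 : Commute Q y) :
    0 ≤ (τ (H * (Q * x))).re + (τ (A * (Q * y))).re := by
  have h1 := h.mul_nonneg' a1 ((c1.sub_right c2).mul_nonneg q b1)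
  have h2 := h.mul_nonneg' a2 ((c1.add_right c2).mul_nonneg q b2)
  simp only [mul_sub, sub_mul, mul_add, add_mul, map_add, map_sub, Complex.add_re,
    Complex.sub_re] at h1 h2
  linarith

variable {θ : ℕ → D →⋆ₐ[ℂ] E} {m : ℕ}

omit [PartialOrder D] [StarOrderedRing D] [PartialOrder E] [StarOrderedRing E] in
lemma cm (hθ : ∀ i j, i < j → j < m → ∀ x y, Commute (θ i x) (θ j y)) (h a : D) (n : ℕ) :
    ∀ j, n ≤ j → j < m → ∀ d, Commute (Qn θ h n) (θ j d) ∧ Commute (An θ h a n) (θ j d) := by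
  induction n with
  | zero => exact fun j _ _ d => ⟨Commute.one_left _, Commute.zero_left _⟩
  | succ n ih =>
    intro j h1 h2 d
    have := ih j (by omega) h2 d
    exact ⟨this.1.mul_left ((Commute.one_left _).sub_left (hθ n j h1 h2 _ _)),
      this.2.add_left (this.1.mul_left (hθ n j h1 h2 _ _))⟩

lemma ps' (hθ : ∀ i j, i < j → j < m → ∀ x y, Commute (θ i x) (θ j y)) {h a : D} (h1 : h ≤ 1)
    (a1 : 0 ≤ h - a) (a2 : 0 ≤ h + a) (n : ℕ) (hn : n ≤ m) :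
    0 ≤ Qn θ h n ∧ 0 ≤ 1 - Qn θ h n - An θ h a n ∧ 0 ≤ 1 - Qn θ h n + An θ h a n := by
  induction n with
  | zero => simp [Qn, An]
  | succ n ih =>
    obtain ⟨b0, b1, b2⟩ := ih (by omega)
    have c := fun d => (cm hθ h a n n le_rfl hn d).1
    have k := (c _).mul_nonneg b0 (map_nonneg (θ n) (sub_nonneg.2 h1))
    rw [map_sub, map_one] at k
    refine ⟨k, ?_, ?_⟩
    · refine (add_nonneg b1 ((c _).mul_nonneg b0 (map_nonneg (θ n) a1))).trans_eq ?_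
      simp only [Qn, An, map_sub]
      noncomm_ring
    · refine (add_nonneg b2 ((c _).mul_nonneg b0 (map_nonneg (θ n) a2))).trans_eq ?_
      simp only [Qn, An, map_add]
      noncomm_ring

lemma small (hθ : ∀ i j, i < j → j < m → ∀ x y, Commute (θ i x) (θ j y)) {h : D} (h0 : 0 ≤ h)
    (h1 : h ≤ 1) {d : ℝ} (hd : ∀ ρ : D →ₗ[ℂ] ℂ, Tr ρ → d ≤ (ρ h).re) {τ : E →ₗ[ℂ] ℂ} (hτ : Tr τ)
    (d0 : 0 ≤ d) (n : ℕ) (hn : n ≤ m) : (τ (Qn θ h n)).re * (1 + n * d) ≤ 1 := by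
  induction n with
  | zero => simp [Qn, hτ.one]
  | succ n ih =>
    have i1 := ih (by omega)
    have z : (0 : D) ≤ h - 0 ∧ (0 : D) ≤ h + 0 := by simpa using h0
    have q := (ps' hθ h1 z.1 z.2 n (by omega)).1
    have q' := (hτ.nonneg (ps' hθ h1 z.1 z.2 (n + 1) hn).1).1
    have w := wpos hτ (θ n) q zero_le_one (fun x => (cm hθ h h n n le_rfl hn x).1)
      (fun x => Commute.one_left _) (e := h - (d : ℂ) • 1) fun ρ hρ => by
        simpa [hρ.one] using hd ρ hρ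
    simp only [Qn, mul_one, mul_sub, map_sub, map_smul, map_one, mul_smul_comm, smul_eq_mul,
      Complex.sub_re, Complex.re_ofReal_mul] at w q' ⊢
    push_cast
    have n0 : (0 : ℝ) ≤ n * d := by positivity
    have q0 := (hτ.nonneg q).1
    nlinarith [mul_nonneg q0 d0, mul_nonneg (mul_nonneg q0 d0) (add_nonneg n0 d0),
      mul_nonneg w (add_nonneg n0 d0)]

lemma main (hθ : ∀ i j, i < j → j < m → ∀ x y, Commute (θ i x) (θ j y)) {h a h' a' : D}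
    (h1 : h ≤ 1) (a1 : 0 ≤ h - a) (a2 : 0 ≤ h + a) (h1' : h' ≤ 1) (a1' : 0 ≤ h' - a')
    (a2' : 0 ≤ h' + a') (h0 : 0 ≤ h) {η : ℝ} (hη : 0 ≤ η) (he : ∀ ρ : D →ₗ[ℂ] ℂ, Tr ρ →
      2 * (ρ h).re + 2 * (ρ h').re - 3 * (ρ (h * h')).re - (ρ (a * a')).re ≤ η * (ρ h).re)
    {τ : E →ₗ[ℂ] ℂ} (hτ : Tr τ) (n : ℕ) (hn : n ≤ m) :
    1 + (τ (Qn θ h n)).re + (τ (Qn θ h' n)).re - 3 * (τ (Qn θ h n * Qn θ h' n)).re -
      (τ (An θ h a n * An θ h' a' n)).re ≤ η * (1 - (τ (Qn θ h n)).re) := by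
  induction n with
  | zero => simp [Qn, An, hτ.one]; norm_num
  | succ n ih =>
    have i1 := ih (by omega)
    obtain ⟨b0, b1, b2⟩ := ps' hθ h1 a1 a2 n (by omega)
    obtain ⟨b0', b1', b2'⟩ := ps' hθ h1' a1' a2' n (by omega)
    have c := cm hθ h a n n le_rfl hn
    have c' := cm hθ h' a' n n le_rfl hn
    have w := wpos hτ (θ n) b0 b0' (fun x => (c x).1) (fun x => (c' x).1)
      (e := (η : ℂ) • h - (h + h + h' + h' - h * h' - h * h' - h * h' - a * a')) fun ρ hρ => by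
        have := he ρ hρ
        simp only [map_sub, map_add, map_smul, smul_eq_mul, Complex.sub_re, Complex.add_re,
          Complex.re_ofReal_mul]
        linarith
    have x1 := cr hτ b1 b2 b0' (by rw [← map_sub]; exact map_nonneg (θ n) a1')
      (by rw [← map_add]; exact map_nonneg (θ n) a2') (c' h').1 (c' a').1
    have x2 := cr hτ b1' b2' b0 (by rw [← map_sub]; exact map_nonneg (θ n) a1)
      (by rw [← map_add]; exact map_nonneg (θ n) a2) (c h).1 (c a).1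
    have x3 := hτ.mul_nonneg' (add_nonneg b1' b2') ((c h).1.mul_nonneg b0 (map_nonneg (θ n) h0))
    simp only [Qn, An]
    have c1 := (c' h).1
    have c2 := (c' a).1
    generalize Qn θ h n = Q at *
    generalize Qn θ h' n = Q' at *
    generalize An θ h a n = A at *
    generalize An θ h' a' n = A' at *
    have e1 : Q * θ n h * Q' = Q * (Q' * θ n h) := by rw [mul_assoc, c1.eq]
    have e2 : Q * θ n a * (Q' * θ n a') = Q * (Q' * (θ n a * θ n a')) := by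
      rw [mul_assoc, ← mul_assoc (θ n a), ← c2.eq, mul_assoc]
    have e3 : Q * θ n h * (Q' * θ n h') = Q * (Q' * (θ n h * θ n h')) := by
      rw [mul_assoc, ← mul_assoc (θ n h), ← c1.eq, mul_assoc]
    have e4 : τ (Q' * (Q * θ n h)) = τ (Q * (Q' * θ n h)) := by rw [hτ.comm, e1]
    have e5 : τ (Q * θ n a * A') = τ (A' * (Q * θ n a)) := hτ.comm _ _
    simp only [mul_sub, sub_mul, mul_add, add_mul, mul_one, one_mul, map_add, map_sub, map_mul (θ n),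
      map_smul, mul_smul_comm, smul_eq_mul, e1, e2, e3, e4, e5, mul_assoc Q Q', Complex.add_re,
      Complex.sub_re, Complex.re_ofReal_mul] at w x1 x2 x3 ⊢
    nlinarith [mul_nonneg hη x3]

lemma conv {ρ : D →ₗ[ℂ] ℂ} (hρ : Tr ρ) {h a h' a' : D} {ε : ℝ} (h0 : 0 ≤ h) (h1 : h ≤ 1)
    (a1 : 0 ≤ h - a) (a2 : 0 ≤ h + a) (a1' : 0 ≤ h' - a') (a2' : 0 ≤ h' + a') (h0' : 0 ≤ h')
    (e0 : 0 ≤ ε) (e1 : ε ≤ 1 / 2) (k1 : (ρ (h - a ^ 2)).re ≤ ε * (ρ h).re)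
    (k2 : (ρ (h' - a' ^ 2)).re ≤ ε * (ρ h').re) (k3 : (ρ ((h' - h) ^ 2)).re ≤ ε * (ρ h).re)
    (k4 : (ρ ((a' - a) ^ 2)).re ≤ ε * (ρ h).re) :
    2 * (ρ h).re + 2 * (ρ h').re - 3 * (ρ (h * h')).re - (ρ (a * a')).re ≤ 16 * ε * (ρ h).re := by
  have p1 := hρ.mul_nonneg' a1 a2
  have p2 := hρ.mul_nonneg' a1' a2'
  have p3 := hρ.mul_nonneg' h0 (sub_nonneg.2 h1)
  have p4 := sq_add hρ h0.isSelfAdjoint (h0'.isSelfAdjoint.sub h0.isSelfAdjoint)
  rw [add_sub_cancel] at p4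
  have p5 := (hρ.nonneg h0).1
  have p6 := (hρ.nonneg h0').1
  simp only [sq, mul_sub, sub_mul, mul_add, mul_one, map_add, map_sub, Complex.add_re,
    Complex.sub_re, hρ.comm a h, hρ.comm a' h', hρ.comm h' h, hρ.comm a' a] at *
  have p7 : (ρ h').re ≤ 6 * (ρ h).re := by
    nlinarith [mul_le_mul_of_nonneg_right e1 p5, mul_le_mul_of_nonneg_right e1 p6]
  nlinarith [mul_le_mul_of_nonneg_left p7 e0]

omit [PartialOrder D] [StarOrderedRing D] [PartialOrder E] [StarOrderedRing E] in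
lemma eqv (b : D ≃⋆ₐ[ℂ] D) (c : E ≃⋆ₐ[ℂ] E) (hθ : ∀ j d, θ j (b d) = c (θ j d)) (h a : D) (n : ℕ) :
    c (Qn θ h n) = Qn θ (b h) n ∧ c (An θ h a n) = An θ (b h) (b a) n := by
  induction n with
  | zero => simp [Qn, An]
  | succ n ih => simp only [Qn, An, map_mul, map_add, map_sub, map_one, ih.1, ih.2, hθ, and_self]

omit [PartialOrder D] [StarOrderedRing D] [PartialOrder E] [StarOrderedRing E] in
lemma lin (h a b : D) (s t : ℝ) (n : ℕ) :
    An θ h (s • a + t • b) n = s • An θ h a n + t • An θ h b n := by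
  induction n with
  | zero => simp [An]
  | succ n ih =>
    simp only [An]
    rw [ih]
    simp only [← Complex.coe_smul, map_add, map_smul, mul_add, mul_smul_comm, smul_add]
    abel

lemma nrm (hθ : ∀ i j, i < j → j < m → ∀ x y, Commute (θ i x) (θ j y)) {h a : D} (h1 : h ≤ 1)
    (a1 : 0 ≤ h - a) (a2 : 0 ≤ h + a) : IsSelfAdjoint (An θ h a m) ∧ ‖An θ h a m‖ ≤ 1 := by
  obtain ⟨b0, b1, b2⟩ := ps' hθ h1 a1 a2 m le_rfl
  have s : IsSelfAdjoint (An θ h a m) := by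
    have := b2.isSelfAdjoint.sub ((IsSelfAdjoint.one E).sub b0.isSelfAdjoint)
    rwa [add_sub_cancel_left] at this
  have k1 : 0 ≤ 1 + An θ h a m := (add_nonneg b2 b0).trans_eq (by abel)
  have k2 : 0 ≤ 1 - An θ h a m := (add_nonneg b1 b0).trans_eq (by abel)
  have k3 := (((Commute.one_left _).add_left ((Commute.one_right _).sub_right
    (Commute.refl (An θ h a m)))).mul_nonneg k1 k2).trans_eq
      (show _ = 1 - An θ h a m * An θ h a m by noncomm_ring)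
  have k4 := (CStarAlgebra.norm_le_one_iff_of_nonneg _ s.mul_self_nonneg).2 (sub_nonneg.1 k3)
  rw [s.norm_mul_self] at k4
  exact ⟨s, (pow_le_one_iff_of_nonneg (norm_nonneg _) two_ne_zero).1 k4⟩

lemma fin1 (hθ : ∀ i j, i < j → j < m → ∀ x y, Commute (θ i x) (θ j y)) {h a h' a' : D}
    (h1 : h ≤ 1) (a1 : 0 ≤ h - a) (a2 : 0 ≤ h + a) (h1' : h' ≤ 1) (a1' : 0 ≤ h' - a')
    (a2' : 0 ≤ h' + a') (h0 : 0 ≤ h) {η d : ℝ} (hη : 0 < η) (he : ∀ ρ : D →ₗ[ℂ] ℂ, Tr ρ →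
      2 * (ρ h).re + 2 * (ρ h').re - 3 * (ρ (h * h')).re - (ρ (a * a')).re ≤ η * (ρ h).re)
    (hd : ∀ ρ : D →ₗ[ℂ] ℂ, Tr ρ → d ≤ (ρ h).re) (d0 : 0 ≤ d) (hm : 1 ≤ η * (m * d))
    {τ : E →ₗ[ℂ] ℂ} (hτ : Tr τ) : 1 - (τ (An θ h a m * An θ h' a' m)).re ≤ 2 * η := by
  have k1 := main hθ h1 a1 a2 h1' a1' a2' h0 hη.le he hτ m le_rfl
  have k2 := small hθ h0 h1 hd hτ d0 m le_rfl
  obtain ⟨b0, b1, b2⟩ := ps' hθ h1 a1 a2 m le_rfl
  obtain ⟨b0', b1', b2'⟩ := ps' hθ h1' a1' a2' m le_rfl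
  have k3 := hτ.mul_nonneg' b0 (add_nonneg b1' b2')
  have k4 := hτ.mul_nonneg' (add_nonneg b1 b2) b0'
  have k5 := (hτ.nonneg b0).1
  simp only [mul_sub, sub_mul, mul_add, add_mul, mul_one, one_mul, map_add, map_sub,
    Complex.add_re, Complex.sub_re] at k3 k4
  have k6 : (τ (Qn θ h m)).re ≤ η := by
    nlinarith [mul_le_mul_of_nonneg_left hm k5, mul_le_mul_of_nonneg_left k2 hη.le,
      mul_nonneg hη.le k5]
  nlinarith [mul_nonneg hη.le k5]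

omit [PartialOrder D] [StarOrderedRing D] in
lemma sq1 {τ : E →ₗ[ℂ] ℂ} (hτ : Tr τ) {A : E} (s : IsSelfAdjoint A) (n : ‖A‖ ≤ 1) :
    (τ (A * A)).re ≤ 1 ∧ (τ ((1 - A * A) ^ 2)).re ≤ 1 - (τ (A * A)).re := by
  have k : 0 ≤ 1 - A * A := sub_nonneg.2 ((CStarAlgebra.norm_le_one_iff_of_nonneg _
    s.mul_self_nonneg).1 ((norm_mul_le _ _).trans (mul_le_one₀ n (norm_nonneg _) n)))
  have k1 := (hτ.nonneg k).1
  have k2 := hτ.mul_nonneg' k s.mul_self_nonneg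
  simp only [sq, mul_sub, sub_mul, mul_one, one_mul, map_sub, Complex.sub_re, hτ.one,
    Complex.one_re] at k1 k2 ⊢
  constructor <;> linarith

end BO

open BO in
theorem boost {σ : G →* (F ≃⋆ₐ[ℂ] F)} (hσ : CpG σ) (hR : RelM σ) : McD σ := by
  intro K ε hε
  obtain ⟨e, e0, e1, e2⟩ : ∃ e : ℝ, 0 < e ∧ e ≤ 1 / 2 ∧ 3200 * e ≤ ε :=
    ⟨min (1 / 2) (ε / 3200), by positivity, min_le_left _ _, by
      linarith [min_le_right (1 / 2) (ε / 3200)]⟩
  obtain ⟨d, D, _, _, β, ι, h, a, b, d0, hι, hh, r1, r2⟩ := hR K e e0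
  obtain ⟨m, hm⟩ := exists_nat_gt (1 / (16 * e * d))
  have m0 : 0 < m := Nat.cast_pos.1 (lt_trans (by positivity : (0 : ℝ) < 1 / (16 * e * d)) hm)
  have m1 : 1 ≤ 16 * e * (m * d) := by
    rw [div_lt_iff₀ (by positivity)] at hm
    linarith
  obtain ⟨E, _, _, γ, κ, θ0, hκ, hθ0, hcm⟩ := hσ D β ι hι m
  let _ := CStarAlgebra.spectralOrder D
  have _ := CStarAlgebra.spectralOrderedRing D
  let _ := CStarAlgebra.spectralOrder E
  have _ := CStarAlgebra.spectralOrderedRing E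
  let θ : ℕ → D →⋆ₐ[ℂ] E := fun n => θ0 ⟨n % m, Nat.mod_lt _ m0⟩
  have hθ : ∀ i j, i < j → j < m → ∀ x y, Commute (θ i x) (θ j y) := fun i j h1 h2 =>
    hcm _ _ fun e => by
      have := congrArg Fin.val e
      simp only [Nat.mod_eq_of_lt h2, Nat.mod_eq_of_lt (h1.trans h2)] at this
      omega
  obtain ⟨h0, h1⟩ := AVG.ctr_iff.1 hh
  have key : ∀ x : D, x = a ∨ x = b ∨ x = (3 / 5 : ℝ) • a + (4 / 5 : ℝ) • b →
      IsSelfAdjoint (An θ h x m) ∧ ‖An θ h x m‖ ≤ 1 ∧ ∀ τ : E →ₗ[ℂ] ℂ, Tr τ →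
        (τ ((1 - An θ h x m * An θ h x m) ^ 2)).re ≤ 32 * e ∧
        ∀ g ∈ K, (τ ((γ g (An θ h x m) - An θ h x m) ^ 2)).re ≤ 64 * e := fun x hx => by
    obtain ⟨⟨-, ⟨y1, a1⟩, y2, a2⟩, r3⟩ := r2 x hx
    replace a1 : 0 ≤ h - x := a1 ▸ star_mul_self_nonneg y1
    replace a2 : 0 ≤ h + x := a2 ▸ star_mul_self_nonneg y2
    obtain ⟨n1, n2⟩ := nrm hθ h1 a1 a2
    refine ⟨n1, n2, fun τ hτ => ⟨(sq1 hτ n1 n2).2.trans ((fin1 hθ h1 a1 a2 h1 a1 a2 h0
      (η := 16 * e) (by positivity) (fun ρ hρ => conv hρ h0 h1 a1 a2 a1 a2 h0 e0.le e1 (r3 ρ hρ).1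
        (r3 ρ hρ).1 ?_ ?_) (fun ρ hρ => (r1 ρ hρ).1) d0.le m1 hτ).trans_eq (by ring)),
      fun g hg => ?_⟩⟩
    · simpa using mul_nonneg e0.le (hρ.nonneg h0).1
    · simpa using mul_nonneg e0.le (hρ.nonneg h0).1
    obtain ⟨g0, g1⟩ : 0 ≤ β g h ∧ β g h ≤ 1 := AVG.ctr_iff.1 (hh.map (β g : D →⋆ₐ[ℂ] D))
    have b1 : 0 ≤ β g h - β g x := by rw [← map_sub]; exact AVG.pos_map _ a1
    have b2 : 0 ≤ β g h + β g x := by rw [← map_add]; exact AVG.pos_map _ a2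
    have k := fin1 hθ h1 a1 a2 g1 b1 b2 h0 (η := 16 * e) (by positivity)
      (fun ρ hρ => conv hρ h0 h1 a1 a2 b1 b2 g0 e0.le e1 (r3 ρ hρ).1 (by
        obtain ⟨ρ', c1, c2, -⟩ := AVG.tr_eqv hρ (β g)
        have := (r3 ρ' c1).1
        rwa [c2, c2, map_sub, map_pow] at this) ((r1 ρ hρ).2 g hg) ((r3 ρ hρ).2 g hg))
      (fun ρ hρ => (r1 ρ hρ).1) d0.le m1 hτ
    obtain ⟨n3, n4⟩ := nrm hθ g1 b1 b2
    rw [(eqv (θ := θ) (β g) (γ g) (fun j d => hθ0 _ g d) h x m).2]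
    have k1 := (sq1 hτ n1 n2).1
    have k2 := (sq1 hτ n3 n4).1
    simp only [sq, mul_sub, sub_mul, map_sub, Complex.sub_re, hτ.comm _ (An θ h x m)]
    linarith
  obtain ⟨a1, a2, a3⟩ := key a (Or.inl rfl)
  obtain ⟨b1, b2, b3⟩ := key b (Or.inr (Or.inl rfl))
  obtain ⟨c1, -, c3⟩ := key _ (Or.inr (Or.inr rfl))
  rw [lin] at c1 c3
  generalize An θ h a m = A at a1 a2 a3 c1 c3
  generalize An θ h b m = B at b1 b2 b3 c1 c3
  have sa : ∀ X : E, IsSelfAdjoint X → IsSelfAdjoint (1 - X * X) := fun X hX =>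
    (IsSelfAdjoint.one E).sub hX.mul_self_nonneg.isSelfAdjoint
  have sm : ∀ (τ : E →ₗ[ℂ] ℂ) (c : ℝ) (X : E), (τ ((c • X) ^ 2)).re = c ^ 2 * (τ (X ^ 2)).re :=
    fun τ c X => by rw [smul_pow, AVG.re_smul]
  have ss : ∀ (c : ℝ) (X : E), IsSelfAdjoint X → IsSelfAdjoint (c • X) := fun c X hX =>
    (IsSelfAdjoint.all c).smul hX
  refine ⟨E, inferInstance, inferInstance, γ, κ, (1 / 2 : ℝ) • (A + Complex.I • B), hκ, ?_,
    fun τ hτ => ⟨?_, ?_, fun g hg => ?_⟩⟩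
  · have := norm_add_le A (Complex.I • B)
    rw [norm_smul, Complex.norm_I] at this
    rw [norm_smul, Real.norm_of_nonneg (by norm_num)]
    linarith
  · have e3 : (1 / 2 : ℝ) • (A + Complex.I • B) * (1 / 2 : ℝ) • (A + Complex.I • B) =
        (1 / 4 : ℝ) • ((1 - B * B) - (1 - A * A) + Complex.I • ((3 / 4 : ℝ) • (1 - A * A) +
          (4 / 3 : ℝ) • (1 - B * B) - (25 / 12 : ℝ) • (1 - ((3 / 5 : ℝ) • A + (4 / 5 : ℝ) • B) *
            ((3 / 5 : ℝ) • A + (4 / 5 : ℝ) • B)))) := by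
      simp only [← Complex.coe_smul, smul_mul_assoc, mul_smul_comm, mul_add, add_mul]
      match_scalars <;> first | ring1 | linear_combination (1 / 4 : ℂ) * Complex.I_mul_I
    have s1 := (ss (3 / 4) _ (sa A a1)).add (ss (4 / 3) _ (sa B b1))
    rw [e3, cpx hτ ((sa B b1).sub (sa A a1)) (s1.sub (ss _ _ (sa _ c1)))]
    have k1 := sq_sub hτ (sa B b1) (sa A a1)
    have k2 := sq_sub hτ s1 (ss (25 / 12) _ (sa _ c1))
    have k3 := sq_add hτ (ss (3 / 4) _ (sa A a1)) (ss (4 / 3) _ (sa B b1))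
    rw [sm] at k2
    rw [sm, sm] at k3
    linarith [(a3 τ hτ).1, (b3 τ hτ).1, (c3 τ hτ).1]
  · have e3 : 1 - star ((1 / 2 : ℝ) • (A + Complex.I • B)) * (1 / 2 : ℝ) • (A + Complex.I • B) -
        (1 / 2 : ℝ) • (A + Complex.I • B) * star ((1 / 2 : ℝ) • (A + Complex.I • B)) =
        (1 / 2 : ℝ) • ((1 - A * A) + (1 - B * B)) := by
      simp only [← Complex.coe_smul, smul_mul_assoc, mul_smul_comm, mul_add, add_mul, star_smul,
        star_add, a1.star_eq, b1.star_eq, RCLike.star_def, Complex.conj_ofReal, Complex.conj_I]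
      match_scalars <;> first | ring1 | linear_combination (1 / 2 : ℂ) * Complex.I_mul_I
    rw [e3, sm]
    linarith [sq_add hτ (sa A a1) (sa B b1), (a3 τ hτ).1, (b3 τ hτ).1]
  · have e3 : γ g ((1 / 2 : ℝ) • (A + Complex.I • B)) - (1 / 2 : ℝ) • (A + Complex.I • B) =
        (1 / 2 : ℝ) • ((γ g A - A) + Complex.I • (γ g B - B)) := by
      simp only [← Complex.coe_smul, map_smul, map_add]
      module
    rw [e3, cpx hτ ((a1.map _).sub a1) ((b1.map _).sub b1)]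
    linarith [(a3 τ hτ).2 g hg, (b3 τ hτ).2 g hg]

end Vale.Agent.P095G
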