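import Vale.Agent.P095G.PartSI2
import Vale.Agent.P095G.DefsSI2
import Vale.Agent.P095G.PartBOOST
import Vale.Agent.P095A.Main
import Vale.Agent.P095M.PartMAIN0

/-! Equivariant Jiang-Su stability from equivariant property (SI). -/

namespace Vale.Agent.P095G

open Filter Topology Finset Vale.Agent.P101 Vale.Agent.P095 Vale.Agent.P095H TopologicalSpace

variable {A T Z : Type} [CStarAlgebra A] [CStarAlgebra T] [CStarAlgebra Z] {G : Type} [Group G]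
  {ω : Ultrafilter ℕ}

theorem eqSI_of {α : G →* Aut A} (h : PropSI ω α) : EqSI ω α := by
  intro e f h1 h2 h3 h4 h5 h6
  obtain ⟨s, ⟨⟨C, hC⟩, s1⟩, s2⟩ := h e f ⟨⟨‖e‖, U1.le e⟩, h1⟩ ⟨⟨‖f‖, U1.le f⟩, h2⟩ h3 h4 h5 h6
  exact ⟨U1.bd s C hC, s1, s2⟩

theorem main_si [Countable G] (hG : P184.IsAmenable G) [Nontrivial A] [SeparableSpace A]
    [SeparableSpace Z] (hω : (ω : Filter ℕ) ≤ cofinite) (hZ : DropLimit Z) (hf : HalfFlip Z)
    (hs : CentralCopies Z) (hz : IsEmpty (Z →⋆ₐ[ℂ] ℂ))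
    (ι : A →⋆ₐ[ℂ] T) (j : Z →⋆ₐ[ℂ] T) (hι : Function.Injective ι)
    (hc : ∀ a d, Commute (ι a) (j d))
    (hd : Dense (StarAlgebra.adjoin ℂ (Set.range ι ∪ Set.range j) : Set T)) (φ : A ≃⋆ₐ[ℂ] T)
    (α : G →* Aut A) (β : G →* Aut T)
    (b1 : ∀ g a, β g (ι a) = ι (α g a)) (b2 : ∀ g d, β g (j d) = j d) (hS : PropSI ω α) :
    CocycleConj α β := by
  obtain ⟨E, _, _, q, hq⟩ := exists_ult (A := A) ω
  obtain ⟨σ, h1, h2⟩ := cpg hω hq α
  have h3 := cp_of_ult hω hq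
  have h4 := cen_nochar hω hq hs hz ι j hc hd φ
  have h5 : McD σ := boost h1 (P095M.relM h1 (P095A.gam_all hG h1 h3 h4) h3 h4 hG)
  have h6 := SI.nochar hω α (eqSI_of hS) (SI.mcA hq α h2 hG h5)
  refine main_char hω hZ hf ι j hι hc hd α β b1 b2 fun W => ⟨⊤, {1}, h6, fun g _ =>
    ⟨fun n _ => Subgroup.mem_top _, 1, Finset.mem_singleton_self _, g, Subgroup.mem_top _, 1,
      one_mem _, fun a => ?_⟩⟩
  rw [one_mul, one_mul, star_one, mul_one]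

end Vale.Agent.P095G
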