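import Vale.Agent.P095G.PartEXT
import Vale.Agent.P095G.PartROT

/-! Centering: a positive element has the same traces as an element of small norm. -/

namespace Vale.Agent.P095G

open Filter Topology Finset Vale.Agent.P101 Vale.Agent.P095 TopologicalSpace

variable {D : Type} [CStarAlgebra D]

namespace CEN

theorem scale [PartialOrder D] [StarOrderedRing D] (P : D → Prop)
    (h1 : ∀ a, 0 ≤ a → a ≤ 1 → P a) (h2 : ∀ (c : ℝ) a, 0 < c → P (c • a) → P a) {a : D}
    (ha : 0 ≤ a) : P a := by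
  have hc : 0 < (‖a‖ + 1)⁻¹ := by positivity
  have h0 : 0 ≤ (‖a‖ + 1)⁻¹ • a := smul_nonneg hc.le ha
  refine h2 _ a hc (h1 _ h0 ((CStarAlgebra.norm_le_one_iff_of_nonneg _ h0).1 ?_))
  rw [norm_smul, Real.norm_eq_abs, abs_of_pos hc, inv_mul_le_iff₀ (by positivity)]
  linarith

theorem polar {ψ : D →ₗ[ℂ] ℂ} (h : ∀ x, ψ (star x * x) = ψ (x * star x)) (x y : D) :
    ψ (x * y) = ψ (y * x) := by
  have h1 := h (star x + y)
  have h2 := h (star x + Complex.I • y)
  have h3 := h (star x)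
  have h4 := h y
  simp only [star_add, star_star, star_smul, add_mul, mul_add, map_add, smul_mul_assoc,
    mul_smul_comm, map_smul, smul_eq_mul, Complex.star_def, Complex.conj_I] at h1 h2 h3 h4
  have e : Complex.I * Complex.I = -1 := Complex.I_mul_I
  linear_combination (1 / 2 : ℂ) * h1 - (Complex.I / 2) * h2 - (1 / 2 - Complex.I / 2 : ℂ) * h3
    - (1 / 2 - Complex.I / 2 : ℂ) * h4 + (-(Complex.I / 2) * (ψ (star y * y) - ψ (y * star y))
      + (1 / 2 : ℂ) * ((ψ (x * y) - ψ (y * x)) - (ψ (star y * star x) - ψ (star x * star y)))) * e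

theorem jordan [PartialOrder D] [StarOrderedRing D] (g : D →ₗ[ℂ] ℂ) (hb : ∀ x, ‖g x‖ ≤ ‖x‖)
    (hc : ∀ x y, g (x * y) = g (y * x)) (hs : ∀ x, g (star x) = star (g x)) :
    ∃ (α : ℝ) (ψ : D →ₗ[ℂ] ℂ), ψ 1 = α ∧
      (∀ a, 0 ≤ a → 0 ≤ (ψ a).re ∧ (ψ a).im = 0 ∧ (g a).re ≤ (ψ a).re) ∧
      (∀ x y, ψ (x * y) = ψ (y * x)) ∧ ∀ η : ℝ, 0 < η → ∃ y : D, ‖y‖ ≤ 1 ∧ 0 ≤ y ∧
        α - η < (g y).re := by
  set S : Set ℝ := {t | ∃ y : D, 0 ≤ y ∧ y ≤ 1 ∧ (g y).re = t} with hS
  have n1 : ∀ y : D, 0 ≤ y → y ≤ 1 → ‖y‖ ≤ 1 := fun y a b =>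
    (CStarAlgebra.norm_le_one_iff_of_nonneg _ a).2 b
  have hne : S.Nonempty := ⟨_, 0, le_rfl, zero_le_one, rfl⟩
  have hbd : BddAbove S := ⟨1, by
    rintro _ ⟨y, a, b, rfl⟩
    exact (Complex.re_le_norm _).trans ((hb y).trans (n1 y a b))⟩
  have hup : ∀ y : D, 0 ≤ y → y ≤ 1 → (g y).re ≤ sSup S := fun y a b =>
    le_csSup hbd ⟨y, a, b, rfl⟩
  have hap : ∀ η : ℝ, 0 < η → ∃ y : D, 0 ≤ y ∧ y ≤ 1 ∧ sSup S - η < (g y).re := fun η hη => by
    obtain ⟨_, ⟨y, a, b, rfl⟩, c⟩ := exists_lt_of_lt_csSup hne (sub_lt_self (sSup S) hη)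
    exact ⟨y, a, b, c⟩
  choose y y0 y1 y2 using fun n : ℕ => hap (1 / ((n : ℝ) + 1)) Nat.one_div_pos_of_nat
  obtain ⟨ψ, hψ⟩ := EXT.ulim (fun n => g ∘ₗ LinearMap.mulLeft ℂ (y n)) fun n x =>
    (hb _).trans ((norm_mul_le _ _).trans
      (mul_le_of_le_one_left (norm_nonneg _) (n1 _ (y0 n) (y1 n))))
  replace hψ : ∀ x, Tendsto (fun n => g (y n * x)) (hyperfilter ℕ) (𝓝 (ψ x)) := hψ
  have hre : ∀ x, Tendsto (fun n => (g (y n * x)).re) (hyperfilter ℕ) (𝓝 (ψ x).re) := fun x =>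
    (Complex.continuous_re.tendsto _).comp (hψ x)
  have him : ∀ x, Tendsto (fun n => (g (y n * x)).im) (hyperfilter ℕ) (𝓝 (ψ x).im) := fun x =>
    (Complex.continuous_im.tendsto _).comp (hψ x)
  have h0 : Tendsto (fun n : ℕ => 1 / ((n : ℝ) + 1)) (hyperfilter ℕ) (𝓝 0) :=
    (tendsto_one_div_add_atTop_nhds_zero_nat (𝕜 := ℝ)).mono_left
      (Nat.cofinite_eq_atTop ▸ hyperfilter_le_cofinite)
  have sw : ∀ u a : D, 0 ≤ u → 0 ≤ a → a ≤ 1 →
      g (rt u * a * rt u) = g (u * a) ∧ 0 ≤ rt u * a * rt u ∧ rt u * a * rt u ≤ u := by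
    intro u a hu a0 a1
    have s1 : star (rt u) = rt u := (IsSelfAdjoint.of_nonneg (Rot.rt_nonneg u)).star_eq
    refine ⟨by rw [hc, ← mul_assoc, Rot.rt_mul hu], ?_, ?_⟩
    · have := star_left_conjugate_nonneg a0 (rt u)
      rwa [s1] at this
    · have := star_left_conjugate_le_conjugate a1 (rt u)
      rwa [s1, mul_one, Rot.rt_mul hu] at this
  have im0 : ∀ a : D, 0 ≤ a → (ψ a).im = 0 := fun a ha => by
    refine tendsto_nhds_unique (him a) (tendsto_const_nhds.congr fun n => ?_)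
    have e := hs (y n * a)
    rw [star_mul, (IsSelfAdjoint.of_nonneg ha).star_eq, (IsSelfAdjoint.of_nonneg (y0 n)).star_eq,
      hc] at e
    have e2 := congrArg Complex.im e
    rw [Complex.star_def, Complex.conj_im] at e2
    linarith
  have k1 : ∀ a : D, 0 ≤ a → 0 ≤ (ψ a).re := fun a ha => by
    refine scale (fun a => 0 ≤ (ψ a).re) (fun a a0 a1 => ?_) (fun c a c0 h => ?_) ha
    · refine le_of_tendsto_of_tendsto' (by simpa using h0.neg) (hre a) fun n => ?_
      obtain ⟨e1, e2, e3⟩ := sw (y n) (1 - a) (y0 n) (sub_nonneg.2 a1) (sub_le_self _ a0)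
      have := hup _ e2 (e3.trans (y1 n))
      rw [e1, mul_sub, mul_one, map_sub, Complex.sub_re] at this
      have := y2 n
      simp only [one_div] at this ⊢
      linarith
    · rw [Rot.re_smul] at h
      exact (mul_nonneg_iff_of_pos_left c0).1 h
  have k2 : ∀ a : D, 0 ≤ a → (g a).re ≤ (ψ a).re := fun a ha => by
    refine scale (fun a => (g a).re ≤ (ψ a).re) (fun a a0 a1 => ?_) (fun c a c0 h => ?_) ha
    · have t1 := (tendsto_const_nhds (x := (g a).re)).sub h0
      rw [sub_zero] at t1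
      refine le_of_tendsto_of_tendsto' t1 (hre a) fun n => ?_
      obtain ⟨e1, e2, e3⟩ := sw (1 - y n) a (sub_nonneg.2 (y1 n)) a0 a1
      have := hup _ (add_nonneg (y0 n) e2) (le_sub_iff_add_le'.1 e3)
      rw [map_add, e1, sub_mul, one_mul, map_sub, Complex.add_re, Complex.sub_re] at this
      have := y2 n
      linarith
    · rw [Rot.re_smul, Rot.re_smul] at h
      exact le_of_mul_le_mul_left h c0
  have k3 : ∀ x : D, (ψ (star x * x)).re ≤ (ψ (x * star x)).re := fun x => by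
    refine le_of_tendsto' (hre _) fun n => ?_
    have e1 : g (y n * (star x * x)) = g (x * y n * star x) := by
      rw [← mul_assoc, hc, mul_assoc]
    have e2 := star_right_conjugate_nonneg (y0 n) x
    have e3 := star_right_conjugate_le_conjugate (y1 n) x
    rw [mul_one] at e3
    have e4 := k1 _ (sub_nonneg.2 e3)
    rw [map_sub, Complex.sub_re] at e4
    rw [e1]
    linarith [k2 _ e2]
  refine ⟨sSup S, ψ, ?_, fun a ha => ⟨k1 a ha, im0 a ha, k2 a ha⟩, polar fun x => ?_,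
    fun η hη => ?_⟩
  · apply Complex.ext
    · rw [Complex.ofReal_re]
      have t1 := (tendsto_const_nhds (x := sSup S)).sub h0
      rw [sub_zero] at t1
      refine le_antisymm (le_of_tendsto' (hre 1) fun n => ?_)
        (le_of_tendsto_of_tendsto' t1 (hre 1) fun n => ?_)
      · rw [mul_one]
        exact hup _ (y0 n) (y1 n)
      · rw [mul_one]
        exact (y2 n).le
    · rw [Complex.ofReal_im]
      exact im0 1 zero_le_one
  · apply Complex.ext
    · have := k3 (star x)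
      rw [star_star] at this
      exact le_antisymm (k3 x) this
    · rw [im0 _ (star_mul_self_nonneg x), im0 _ (mul_star_self_nonneg x)]
  · obtain ⟨u, a, b, c⟩ := hap η hη
    exact ⟨u, n1 u a b, a, c⟩

/-- The span of commutators. -/
noncomputable def C0 (D : Type) [CStarAlgebra D] : Submodule ℂ D :=
  Submodule.span ℂ {c | ∃ x y : D, c = x * y - y * x}

theorem near [PartialOrder D] [StarOrderedRing D] {w : D} (hw : 0 ≤ w) {b ε : ℝ} (hb0 : 0 ≤ b)
    (hb : ∀ ρ : D →ₗ[ℂ] ℂ, Tr ρ → (ρ w).re ≤ b) (hε : 0 < ε) :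
    ∃ c ∈ C0 D, ‖w - c‖ < b + ε := by
  by_contra hn
  push Not at hn
  have hd : Disjoint (Metric.ball w (b + ε)) (C0 D : Set D) := by
    rw [Set.disjoint_left]
    intro c h1 h2
    rw [Metric.mem_ball, dist_comm, dist_eq_norm] at h1
    exact absurd (hn c h2) (not_le.2 h1)
  obtain ⟨f, u, f1, f2⟩ := RCLike.geometric_hahn_banach_open (𝕜 := ℂ) (convex_ball w (b + ε))
    Metric.isOpen_ball ((C0 D).restrictScalars ℝ).convex hd
  simp only [RCLike.re_to_complex] at f1 f2
  have u0 : u ≤ 0 := by simpa using f2 0 (C0 D).zero_mem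
  have fz : ∀ c ∈ C0 D, f c = 0 := fun c hc => by
    by_contra h
    have := f2 ((((u - 1 : ℝ) : ℂ) / f c) • c) ((C0 D).smul_mem _ hc)
    rw [map_smul, smul_eq_mul, div_mul_cancel₀ _ h, Complex.ofReal_re] at this
    linarith
  have fc : ∀ x y, f (x * y) = f (y * x) := fun x y => by
    have := fz _ (Submodule.subset_span ⟨x, y, rfl⟩)
    rwa [map_sub, sub_eq_zero] at this
  set κ : ℝ := (‖f‖ + 1)⁻¹ with hκ
  have κ0 : 0 < κ := by positivity
  have κ1 : κ * ‖f‖ ≤ 1 := by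
    rw [hκ, inv_mul_le_iff₀ (by positivity)]
    linarith
  let g : D →ₗ[ℂ] ℂ :=
    { toFun := fun x => -(κ / 2 : ℝ) * (f x + star (f (star x)))
      map_add' := fun x y => by
        simp only [star_add, map_add]
        ring
      map_smul' := fun c x => by
        simp only [star_smul, map_smul, smul_eq_mul, star_mul', star_star, RingHom.id_apply]
        ring }
  have hg : ∀ x, g x = -(κ / 2 : ℝ) * (f x + star (f (star x))) := fun x => rfl
  have gre : ∀ x : D, 0 ≤ x → (g x).re = -κ * (f x).re := fun x hx => by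
    rw [hg, (IsSelfAdjoint.of_nonneg hx).star_eq, ← Complex.ofReal_neg, Complex.re_ofReal_mul,
      Complex.add_re, Complex.star_def, Complex.conj_re]
    ring
  obtain ⟨α, ψ, p1, p2, p3, p4⟩ := jordan g (fun x => by
      rw [hg, norm_mul, norm_neg, Complex.norm_real, Real.norm_eq_abs, abs_of_pos (half_pos κ0)]
      have a1 := f.le_opNorm x
      have a2 := f.le_opNorm (star x)
      have a3 := norm_add_le (f x) (star (f (star x)))
      rw [norm_star] at a2 a3
      nlinarith [norm_nonneg x, mul_le_mul_of_nonneg_right κ1 (norm_nonneg x)])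
    (fun x y => by rw [hg, hg, star_mul, star_mul, fc x y, fc (star y) (star x)])
    (fun x => by
      rw [hg, hg, star_star]
      simp only [star_mul', star_add, star_neg, Complex.star_def, Complex.conj_ofReal,
        Complex.conj_conj]
      ring)
  have α0 : 0 ≤ α := by simpa [p1] using (p2 1 zero_le_one).1
  have q1 : (ψ w).re ≤ α * b := by
    rcases α0.eq_or_lt with h | h
    · have h1 : w ≤ ‖w‖ • (1 : D) := by
        have := (IsSelfAdjoint.of_nonneg hw).le_algebraMap_norm_self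
        rwa [Algebra.algebraMap_eq_smul_one] at this
      have h2 := (p2 _ (sub_nonneg.2 h1)).1
      rw [map_sub, Complex.sub_re, Rot.re_smul, p1, ← h] at h2
      rw [← h]
      simpa using h2
    · have t : Tr (((α⁻¹ : ℝ) : ℂ) • ψ) := by
        refine ⟨?_, fun x => ?_, fun x y => ?_⟩
        · rw [LinearMap.smul_apply, p1, smul_eq_mul, ← Complex.ofReal_mul, inv_mul_cancel₀ h.ne',
            Complex.ofReal_one]
        · obtain ⟨a1, a2, -⟩ := p2 _ (star_mul_self_nonneg x)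
          rw [LinearMap.smul_apply, smul_eq_mul, Complex.re_ofReal_mul, Complex.im_ofReal_mul, a2]
          exact ⟨by positivity, mul_zero _⟩
        · rw [LinearMap.smul_apply, LinearMap.smul_apply, p3]
      have := hb _ t
      rwa [LinearMap.smul_apply, smul_eq_mul, Complex.re_ofReal_mul, inv_mul_le_iff₀ h] at this
  have q2 := (p2 w hw).2.2
  rw [gre w hw] at q2
  have t0 : 0 < b + ε / 2 := by linarith
  have q3 : ∀ y : D, ‖y‖ ≤ 1 → 0 ≤ y → (b + ε / 2) * (g y).re < -κ * (f w).re := fun y y1 y0 => by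
    have := f1 (w - (b + ε / 2) • y) (by
      rw [Metric.mem_ball, dist_eq_norm, sub_sub_cancel_left, norm_neg, norm_smul,
        Real.norm_eq_abs, abs_of_pos t0]
      nlinarith)
    rw [map_sub, Complex.sub_re, ← Complex.coe_smul, map_smul, smul_eq_mul,
      Complex.re_ofReal_mul] at this
    rw [gre y y0]
    nlinarith
  rcases α0.eq_or_lt with h | h
  · have := q3 0 (by simp) le_rfl
    rw [map_zero, Complex.zero_re, mul_zero] at this
    rw [← h] at q1
    linarith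
  · obtain ⟨y, y1, y0, y2⟩ := p4 (α * (ε / 2) / (b + ε / 2)) (by positivity)
    have h1 := q3 y y1 y0
    have h2 := mul_lt_mul_of_pos_left y2 t0
    rw [mul_sub, mul_div_cancel₀ _ t0.ne'] at h2
    nlinarith

end CEN

theorem cen [PartialOrder D] [StarOrderedRing D] {w : D} (hw : 0 ≤ w) {b ε : ℝ} (hb0 : 0 ≤ b)
    (hb : ∀ ρ : D →ₗ[ℂ] ℂ, Tr ρ → (ρ w).re ≤ b) (hε : 0 < ε) :
    ∃ z : D, IsSelfAdjoint z ∧ ‖z‖ ≤ b + ε ∧ ∀ ρ : D →ₗ[ℂ] ℂ, Tr ρ → ρ z = ρ w := by
  obtain ⟨c, hc, h⟩ := CEN.near hw hb0 hb hε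
  refine ⟨(1 / 2 : ℝ) • ((w - c) + star (w - c)), ?_, ?_, fun ρ hρ => ?_⟩
  · exact (IsSelfAdjoint.all _).smul (IsSelfAdjoint.add_star_self _)
  · rw [norm_smul, Real.norm_eq_abs, abs_of_pos (by norm_num)]
    have := norm_add_le (w - c) (star (w - c))
    rw [norm_star] at this
    linarith
  · have h0 : ρ c = 0 := by
      have : CEN.C0 D ≤ LinearMap.ker ρ := Submodule.span_le.2 (by
        rintro _ ⟨x, y, rfl⟩
        rw [SetLike.mem_coe, LinearMap.mem_ker, map_sub, hρ.comm, sub_self])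
      exact this hc
    have h1 := hρ.map_star' w
    rw [(IsSelfAdjoint.of_nonneg hw).star_eq] at h1
    rw [← Complex.coe_smul, map_smul, map_add, hρ.map_star', map_sub, h0, sub_zero, ← h1,
      smul_eq_mul]
    push_cast
    ring

end Vale.Agent.P095G
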