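import Vale.Agent.P095G.PartPS
import Vale.Agent.P095G.PartCIRC
import Vale.Agent.P095G.PartSM
import Vale.Agent.P095G.PartAVG

/-! Joint positivity for two self-adjoint elements and a trace. -/

namespace Vale.Agent.P095G

open Filter Topology Finset Vale.Agent.P101 Vale.Agent.P095 TopologicalSpace

variable {D : Type} [CStarAlgebra D] {ρ : D →ₗ[ℂ] ℂ}

namespace JM

/-- Bernstein basis. -/
noncomputable def bn (n k : ℕ) (t : ℝ) : ℝ := (n.choose k : ℝ) * t ^ k * (1 - t) ^ (n - k)

lemma bn_cont (n k : ℕ) : Continuous (bn n k) := by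
  unfold bn
  fun_prop

lemma approx {b : D} (hb : Ctr b) {g : ℝ → ℝ} (hg : Continuous g) :
    Tendsto (fun n : ℕ => ∑ k : Fin (n + 1), g (bernstein.z k) • cfc (bn n k) b) atTop
      (𝓝 (cfc g b)) := by
  let G : C(unitInterval, ℝ) := ⟨fun t => g t, hg.comp continuous_subtype_val⟩
  have h1 := tendsto_iff_norm_sub_tendsto_zero.1 (bernsteinApproximation_uniform G)
  refine tendsto_iff_norm_sub_tendsto_zero.2 (squeeze_zero (fun _ => norm_nonneg _) (fun n => ?_) h1)
  have e : ∑ k : Fin (n + 1), g (bernstein.z k) • cfc (bn n k) b =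
      cfc (fun t => ∑ k : Fin (n + 1), g (bernstein.z k) • bn n k t) b := by
    rw [← Finset.sum_fn, cfc_sum (fun (k : Fin (n + 1)) t => g (bernstein.z k) • bn n k t) b _
      fun k _ => ((bn_cont n k).const_smul (g (bernstein.z k))).continuousOn]
    exact sum_congr rfl fun k _ => (cfc_smul _ _ b (bn_cont n k).continuousOn).symm
  have hc : Continuous fun t => ∑ k : Fin (n + 1), g (bernstein.z k) • bn n k t :=
    continuous_finset_sum _ fun k _ => (bn_cont n k).const_smul (g (bernstein.z k))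
  rw [e, ← cfc_sub _ _ b hc.continuousOn hg.continuousOn]
  refine norm_cfc_le (norm_nonneg _) fun t ht => ?_
  refine le_trans (le_of_eq ?_) ((bernsteinApproximation n G - G).norm_coe_le_norm ⟨t, hb.2 ht⟩)
  rw [ContinuousMap.sub_apply, bernsteinApproximation.apply]
  congr 2
  refine sum_congr rfl fun k _ => ?_
  rw [bernstein_apply, smul_eq_mul, smul_eq_mul, mul_comm]
  rfl

end JM

theorem jm (h : Tr ρ) {a b : D} (ha : IsSelfAdjoint a) (hb : Ctr b) (x : D) {ι : Type}
    (s : Finset ι) (f g : ι → ℝ → ℝ) (hf : ∀ i, Continuous (f i)) (hg : ∀ i, Continuous (g i))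
    (H : ∀ p ∈ spectrum ℝ a, ∀ q ∈ Set.Icc (0 : ℝ) 1, 0 ≤ ∑ i ∈ s, f i p * g i q) :
    0 ≤ ∑ i ∈ s, (ρ (star x * cfc (f i) a * x * cfc (g i) b)).re := by
  let _ := CStarAlgebra.spectralOrder D
  have _ := CStarAlgebra.spectralOrderedRing D
  have c : Continuous ρ := (ρ.mkContinuous 1 fun x => by simpa using h.norm_le x).continuous
  refine ge_of_tendsto' (tendsto_finset_sum s fun i _ => (Complex.continuous_re.tendsto _).comp
    ((c.tendsto _).comp ((JM.approx hb (hg i)).const_mul (star x * cfc (f i) a * x)))) fun n => ?_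
  have e : ∀ i ∈ s, (ρ (star x * cfc (f i) a * x *
      ∑ k : Fin (n + 1), g i (bernstein.z k) • cfc (JM.bn n k) b)).re = ∑ k : Fin (n + 1),
        (ρ (star x * (g i (bernstein.z k) • cfc (f i) a) * x * cfc (JM.bn n k) b)).re :=
    fun i _ => by
      rw [mul_sum, map_sum, Complex.re_sum]
      refine sum_congr rfl fun k _ => ?_
      rw [mul_smul_comm, mul_smul_comm, smul_mul_assoc, smul_mul_assoc]
  refine le_of_le_of_eq ?_ (sum_congr rfl e).symm
  rw [sum_comm]
  refine sum_nonneg fun k _ => ?_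
  rw [← Complex.re_sum, ← map_sum, ← sum_mul, ← sum_mul, ← mul_sum]
  refine h.mul_nonneg' (star_left_conjugate_nonneg ?_ x) (cfc_nonneg fun t ht => ?_)
  · have e2 : ∑ i ∈ s, g i (bernstein.z k) • cfc (f i) a =
        cfc (fun t => ∑ i ∈ s, g i (bernstein.z k) • f i t) a := by
      rw [← Finset.sum_fn, cfc_sum (fun i t => g i (bernstein.z k) • f i t) a _
        fun i _ => ((hf i).const_smul (g i (bernstein.z k))).continuousOn]
      exact sum_congr rfl fun i _ => (cfc_smul _ _ a (hf i).continuousOn).symm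
    rw [e2]
    refine cfc_nonneg fun t ht => (H t ht _ (bernstein.z k).2).trans_eq ?_
    exact sum_congr rfl fun i _ => mul_comm _ _
  · obtain ⟨h0, h1⟩ := hb.2 ht
    have := sub_nonneg.2 h1
    unfold JM.bn
    positivity

end Vale.Agent.P095G
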