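import Vale.Agent.P095G.PartUC
import Vale.Agent.P095G.PartLOW
import Vale.Agent.P095G.PartFOL
import Vale.Agent.P095G.PartFIN
import Vale.Agent.P101.PartS2

/-! Part NORM: from invariance in the trace norms to invariance in norm. -/

namespace Vale.Agent.P095G

open Filter Topology Finset Vale.Agent.P101 Vale.Agent.P095 TopologicalSpace

variable {D F : Type} [CStarAlgebra D] [CStarAlgebra F]
  {G : Type} [Group G] {ρ : D →ₗ[ℂ] ℂ}

namespace NORM

theorem sum_sq (h : Tr ρ) {ι : Type} [Fintype ι] {a : ι → D} (ha : ∀ i, IsSelfAdjoint (a i))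
    {v : ℝ} (hv0 : 0 ≤ v) (hv : ∀ i, (ρ (a i ^ 2)).re ≤ v) :
    (ρ ((∑ i, a i) ^ 2)).re ≤ (Fintype.card ι : ℝ) ^ 2 * v := by
  have key : ∀ i k, (ρ (a i * a k)).re ≤ v := by
    intro i k
    have c := h.cs (a i) (a k)
    have p1 := (h.pos (a i)).1
    have p2 := (h.pos (a k)).1
    rw [(ha i).star_eq] at c p1
    rw [(ha k).star_eq] at c p2
    have q1 := hv i
    have q2 := hv k
    rw [sq] at q1 q2
    have c2 : ‖ρ (a i * a k)‖ ^ 2 ≤ v ^ 2 := by
      refine c.trans ?_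
      rw [sq]
      exact mul_le_mul q1 q2 p2 hv0
    exact (Complex.re_le_norm _).trans (abs_le_of_sq_le_sq' c2 hv0).2
  rw [sq, Finset.sum_mul_sum, map_sum, Complex.re_sum]
  calc _ ≤ ∑ _i : ι, (Fintype.card ι : ℝ) * v := by
        refine Finset.sum_le_sum fun i _ => ?_
        rw [map_sum, Complex.re_sum]
        refine (Finset.sum_le_sum fun k _ => key i k).trans (le_of_eq ?_)
        simp
    _ = _ := by simp [sq, mul_assoc]

theorem shift (β : G →* (D ≃⋆ₐ[ℂ] D)) (x : D) {L : ℕ} (h : Fin L → G) (g : G) (J : Finset (Fin L))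
    (φ : Fin L → Fin L) (hφ : Set.InjOn φ J) (h2 : ∀ i ∈ J, (h (φ i))⁻¹ * g * h i = 1) :
    ‖β g (∑ l, β (h l) x) - ∑ l, β (h l) x‖ ≤ 2 * ((L : ℝ) - J.card) * ‖x‖ := by
  classical
  have nm : ∀ k : G, ‖β k x‖ = ‖x‖ := fun k => StarAlgEquiv.norm_map (β k) x
  have e1 : β g (∑ l, β (h l) x) = ∑ l ∈ J.image φ, β (h l) x + ∑ l ∈ Jᶜ, β (g * h l) x := by
    rw [map_sum, ← Finset.sum_add_sum_compl J, Finset.sum_image hφ]
    congr 1
    · refine Finset.sum_congr rfl fun i hi => ?_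
      have : h (φ i) = g * h i := by
        have := h2 i hi
        rw [mul_assoc, inv_mul_eq_one] at this
        exact this
      rw [this, map_mul]
      rfl
    · refine Finset.sum_congr rfl fun i _ => ?_
      rw [map_mul]
      rfl
  rw [e1, ← Finset.sum_add_sum_compl (J.image φ), add_sub_add_left_eq_sub]
  have c1 : ((Jᶜ.card : ℕ) : ℝ) = (L : ℝ) - J.card := by
    rw [Finset.card_compl, Fintype.card_fin, Nat.cast_sub (by simpa using J.card_le_univ)]
  have c2 : (((J.image φ)ᶜ.card : ℕ) : ℝ) = (L : ℝ) - J.card := by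
    rw [Finset.card_compl, Fintype.card_fin, Finset.card_image_of_injOn hφ,
      Nat.cast_sub (by simpa using J.card_le_univ)]
  refine (norm_sub_le _ _).trans ?_
  have a1 := norm_sum_le Jᶜ fun l => β (g * h l) x
  have a2 := norm_sum_le (J.image φ)ᶜ fun l => β (h l) x
  simp only [nm, Finset.sum_const, nsmul_eq_mul, c1, c2] at a1 a2
  linarith

theorem bmp_cont (c : ℝ) : Continuous (bmp c) := by
  unfold bmp
  fun_prop

theorem bmp_mem (c t : ℝ) : bmp c t ∈ Set.Icc (0 : ℝ) 1 :=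
  ⟨le_max_left _ _, max_le zero_le_one (by nlinarith [sq_nonneg (t - c)])⟩

theorem bmp_orth {i j : ℕ} (hij : i ≠ j) (t : ℝ) :
    bmp ((i : ℝ) + 1) t * bmp ((j : ℝ) + 1) t = 0 := by
  by_contra hc
  obtain ⟨h1, h2⟩ := mul_ne_zero_iff.1 hc
  have a1 : 0 < 1 - 4 * (t - ((i : ℝ) + 1)) ^ 2 := by
    by_contra h
    exact h1 (max_eq_left (not_lt.1 h))
  have a2 : 0 < 1 - 4 * (t - ((j : ℝ) + 1)) ^ 2 := by
    by_contra h
    exact h2 (max_eq_left (not_lt.1 h))
  have b1 : |t - ((i : ℝ) + 1)| < 1 / 2 := abs_lt_of_sq_lt_sq (by linarith) (by norm_num)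
  have b2 : |t - ((j : ℝ) + 1)| < 1 / 2 := abs_lt_of_sq_lt_sq (by linarith) (by norm_num)
  obtain ⟨b1, b1'⟩ := abs_lt.1 b1
  obtain ⟨b2, b2'⟩ := abs_lt.1 b2
  rcases lt_or_gt_of_ne hij with h | h
  · have : (i : ℝ) + 1 ≤ j := by exact_mod_cast h
    linarith
  · have : (j : ℝ) + 1 ≤ i := by exact_mod_cast h
    linarith

end NORM

open NORM in
theorem gamN {σ : G →* (F ≃⋆ₐ[ℂ] F)} (hG : Vale.Agent.P184.IsAmenable G) (h : Gam σ ⊤) :
    GamN σ := by
  classical
  intro n hn K ε hε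
  have hn' : (0 : ℝ) < n := by exact_mod_cast hn
  haveI : Nonempty (Fin n) := ⟨⟨0, hn⟩⟩
  choose d hd0 hd using fun i : Fin n =>
    cfc_uc (bmp ((i : ℝ) + 1)) (bmp_cont _) ((n : ℝ) * n) ε hε
  obtain ⟨i0, hi0⟩ := Finite.exists_min d
  obtain ⟨L, k, hL, hk⟩ := folner hG K (d i0 / (2 * (n * n))) (by have := hd0 i0; positivity)
  have hL' : (0 : ℝ) < L := by exact_mod_cast hL
  set ε' : ℝ := ε / (1 + 8 * n ^ 4 + 8 * n ^ 3) with hε'
  have hε0 : 0 < ε' := by positivity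
  obtain ⟨D, _, _, β, ι, e, h1, h2, h3, h4⟩ :=
    h n hn (univ.image k) (fun _ _ => Subgroup.mem_top _) ε' hε0
  set x : D := ∑ j : Fin n, ((j : ℝ) + 1) • e j with hx
  have jn : ∀ j : Fin n, (j : ℝ) + 1 ≤ n := fun j => by exact_mod_cast j.2
  have j0 : ∀ j : Fin n, (0 : ℝ) ≤ (j : ℝ) + 1 := fun j => by positivity
  have sx : IsSelfAdjoint x :=
    isSelfAdjoint_sum _ fun j _ => IsSelfAdjoint.smul (IsSelfAdjoint.all _) (h2 j).1
  have nx : ‖x‖ ≤ (n : ℝ) * n := by
    refine (norm_sum_le _ _).trans ((Finset.sum_le_sum (g := fun _ => (n : ℝ)) fun j _ => ?_).trans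
      (le_of_eq (by simp)))
    rw [norm_smul, Real.norm_eq_abs, abs_of_nonneg (j0 j)]
    nlinarith [FIN.ctr_norm (h2 j), jn j, j0 j, norm_nonneg (e j)]
  have sb : ∀ (g : G) {a : D}, IsSelfAdjoint a → IsSelfAdjoint (β g a) := fun g a ha =>
    ha.map (β g : D →⋆ₐ[ℂ] D)
  have bs : ∀ (g : G) (r : ℝ) (a : D), β g (r • a) = r • β g a := fun g r a => by
    rw [← Complex.coe_smul, map_smul, Complex.coe_smul]
  set y : D := (L : ℝ)⁻¹ • ∑ l, β (k l) x with hy
  have sy : IsSelfAdjoint y :=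
    IsSelfAdjoint.smul (IsSelfAdjoint.all _) (isSelfAdjoint_sum _ fun l _ => sb _ sx)
  have nm : ∀ (g : G) (a : D), ‖β g a‖ = ‖a‖ := fun g a => StarAlgEquiv.norm_map (β g) a
  have ny : ‖y‖ ≤ (n : ℝ) * n := by
    rw [hy, norm_smul, Real.norm_eq_abs, abs_of_nonneg (inv_nonneg.2 hL'.le),
      inv_mul_le_iff₀ hL']
    refine (norm_sum_le _ _).trans ?_
    simp only [nm, Finset.sum_const, card_univ, Fintype.card_fin, nsmul_eq_mul]
    exact mul_le_mul_of_nonneg_left nx hL'.le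
  refine ⟨D, inferInstance, inferInstance, β, ι, fun i => cfc (bmp ((i : ℝ) + 1)) y, h1,
    fun i => Ctr.cfc (bmp_mem _), fun i j hij => ?_, fun i g hg => ?_, fun τ hτ i => ?_⟩
  · rw [← cfc_mul _ _ _ (bmp_cont _).continuousOn (bmp_cont _).continuousOn]
    simp only [bmp_orth (Fin.val_ne_of_ne hij), cfc_const_zero]
  · have e1 : β g (cfc (bmp ((i : ℝ) + 1)) y) = cfc (bmp ((i : ℝ) + 1)) (β g y) :=
      S2.map_cfc (β g : D →⋆ₐ[ℂ] D) (bmp_cont _) sy
    rw [e1]
    refine hd i D _ _ (sb g sy) sy ((nm g y).trans_le ny) ny (le_trans ?_ (hi0 i))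
    obtain ⟨J, φ, a1, a2, a3⟩ := hk g hg
    have b := shift β x k g J φ a1 a2
    rw [hy, bs, ← smul_sub, norm_smul, Real.norm_eq_abs, abs_of_nonneg (inv_nonneg.2 hL'.le),
      inv_mul_le_iff₀ hL']
    refine b.trans ?_
    have c0 : (0 : ℝ) ≤ (L : ℝ) - J.card := by
      have : J.card ≤ L := by simpa using J.card_le_univ
      have : (J.card : ℝ) ≤ L := by exact_mod_cast this
      linarith
    calc 2 * ((L : ℝ) - J.card) * ‖x‖ ≤ 2 * (d i0 / (2 * (n * n)) * L) * (n * n) :=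
          mul_le_mul (by linarith) nx (norm_nonneg _) (by have := hd0 i0; positivity)
      _ = L * d i0 := by field_simp
  · have e1 : y - x = ∑ p : Fin L × Fin n,
        ((L : ℝ)⁻¹ * ((p.2 : ℝ) + 1)) • (β (k p.1) (e p.2) - e p.2) := by
      have e2 : x = (L : ℝ)⁻¹ • ∑ _l : Fin L, x := by
        rw [Finset.sum_const, card_univ, Fintype.card_fin, ← Nat.cast_smul_eq_nsmul ℝ, smul_smul,
          inv_mul_cancel₀ hL'.ne', one_smul]
      rw [hy]
      conv_lhs => arg 2; rw [e2]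
      rw [← smul_sub, ← Finset.sum_sub_distrib, Fintype.sum_prod_type, Finset.smul_sum]
      refine Finset.sum_congr rfl fun l _ => ?_
      rw [hx, map_sum, ← Finset.sum_sub_distrib, Finset.smul_sum]
      refine Finset.sum_congr rfl fun j _ => ?_
      rw [bs, ← smul_sub, smul_smul]
    have s := sum_sq hτ (a := fun p : Fin L × Fin n =>
        ((L : ℝ)⁻¹ * ((p.2 : ℝ) + 1)) • (β (k p.1) (e p.2) - e p.2))
      (fun p => IsSelfAdjoint.smul (IsSelfAdjoint.all _) ((sb _ (h2 _).1).sub (h2 _).1))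
      (v := ((L : ℝ)⁻¹ * n) ^ 2 * ε') (by positivity) (fun p => by
        have q := (h4 τ hτ p.2).2 (k p.1) (mem_image_of_mem _ (mem_univ _))
        rw [smul_pow, ← Complex.coe_smul, map_smul, smul_eq_mul, Complex.re_ofReal_mul]
        refine (mul_le_mul_of_nonneg_left q (sq_nonneg _)).trans
          (mul_le_mul_of_nonneg_right ?_ hε0.le)
        have := jn p.2
        have := j0 p.2
        gcongr)
    rw [← e1] at s
    have s2 : (τ ((y - x) ^ 2)).re ≤ n ^ 4 * ε' := by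
      refine s.trans (le_of_eq ?_)
      simp only [Fintype.card_prod, Fintype.card_fin, Nat.cast_mul]
      field_simp
    refine le_trans (le_of_eq ?_) (low hτ hn h2 h3 (fun j => (h4 τ hτ j).1) sy s2 i)
    have : ε = ε' * (1 + 8 * n ^ 4 + 8 * n ^ 3) := by
      rw [hε']
      field_simp
    rw [this]
    ring

end Vale.Agent.P095G
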