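import Vale.Agent.P095G.WorkM
import Vale.Agent.P095G.PartNORM
import Vale.Agent.P095G.PartCIRC
import Vale.Agent.P095G.PartEXP

/-! From the central sequence algebra to the algebra. -/

namespace Vale.Agent.P095G

open Filter Topology Finset Vale.Agent.P101 Vale.Agent.P095 TopologicalSpace

variable {A D E F : Type} [CStarAlgebra A] [CStarAlgebra D] [CStarAlgebra E] [CStarAlgebra F]
  {G : Type} [Group G] {ρ : D →ₗ[ℂ] ℂ} {ω : Ultrafilter ℕ}

namespace SI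

open CI

theorem Q_sum (h : Tr ρ) {ι : Type} (s : Finset ι) (x : ι → D) {v : ℝ} (hv : 0 ≤ v)
    (hx : ∀ i ∈ s, Q ρ (x i) ≤ v) : Q ρ (∑ i ∈ s, x i) ≤ 4 ^ s.card * v := by
  classical
  induction s using Finset.induction_on with
  | empty => simpa [Q] using hv
  | insert a s ha ih =>
    rw [Finset.sum_insert ha, Finset.card_insert_of_notMem ha, pow_succ]
    have h1 := Q_add h (x a) (∑ i ∈ s, x i)
    have h2 := hx a (Finset.mem_insert_self _ _)
    have h3 := ih fun i hi => hx i (Finset.mem_insert_of_mem hi)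
    have h4 : (1 : ℝ) ≤ 4 ^ s.card := one_le_pow₀ (by norm_num)
    nlinarith [mul_le_mul_of_nonneg_right h4 hv]

theorem Q_nonneg (h : Tr ρ) (x : D) : 0 ≤ Q ρ x := (h.pos x).1

theorem Q_l (h : Tr ρ) {a : D} (ha : ‖a‖ ≤ 1) (x : D) : Q ρ (a * x) ≤ Q ρ x :=
  (Q_left h a x).trans (mul_le_of_le_one_left (Q_nonneg h x)
    (pow_le_one₀ (norm_nonneg _) ha))

theorem Q_r (h : Tr ρ) {a : D} (ha : ‖a‖ ≤ 1) (x : D) : Q ρ (x * a) ≤ Q ρ x :=
  (Q_right h x a).trans (mul_le_of_le_one_left (Q_nonneg h x)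
    (pow_le_one₀ (norm_nonneg _) ha))

theorem sq_eq (v : D) : (ρ ((1 - star v * v - v * star v) ^ 2)).re =
    Q ρ (1 - star v * v - v * star v) := by
  simp [Q, sq]

theorem pert (h : Tr ρ) {v w : D} (hv : ‖v‖ ≤ 1) (hw : ‖w‖ ≤ 1) :
    Q ρ (w * w) ≤ 2 * Q ρ (v * v) + 8 * Q ρ (v - w) ∧ Q ρ (1 - star w * w - w * star w) ≤
      2 * Q ρ (1 - star v * v - v * star v) + 32 * Q ρ (v - w) := by
  have hv' : ‖star v‖ ≤ 1 := by rwa [norm_star]
  have hw' : ‖star w‖ ≤ 1 := by rwa [norm_star]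
  have n1 : ‖(-1 : D)‖ ≤ 1 := by
    rw [norm_neg]
    exact EXPx.norm_le_one (one_mem _)
  constructor
  · have e : w * w = v * v + (-1 * ((v - w) * w) + -1 * (v * (v - w))) := by noncomm_ring
    have a1 := Q_add h (v * v) (-1 * ((v - w) * w) + -1 * (v * (v - w)))
    have a2 := Q_add h (-1 * ((v - w) * w)) (-1 * (v * (v - w)))
    have a3 := (Q_l h n1 ((v - w) * w)).trans (Q_r h hw (v - w))
    have a4 := (Q_l h n1 (v * (v - w))).trans (Q_l h hv (v - w))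
    rw [e]
    linarith
  · have e : 1 - star w * w - w * star w = (1 - star v * v - v * star v) +
        ((star (v - w) * w + star v * (v - w)) + ((v - w) * star w + v * star (v - w))) := by
      rw [star_sub]
      noncomm_ring
    have a1 := Q_add h (1 - star v * v - v * star v)
      ((star (v - w) * w + star v * (v - w)) + ((v - w) * star w + v * star (v - w)))
    have a2 := Q_add h (star (v - w) * w + star v * (v - w)) ((v - w) * star w + v * star (v - w))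
    have a3 := Q_add h (star (v - w) * w) (star v * (v - w))
    have a4 := Q_add h ((v - w) * star w) (v * star (v - w))
    have b1 := (Q_r h hw (star (v - w))).trans (Q_star h _).le
    have b2 := Q_l h hv' (v - w)
    have b3 := Q_r h hw' (v - w)
    have b4 := (Q_l h hv (star (v - w))).trans (Q_star h _).le
    rw [e]
    linarith

theorem mcN {σ : G →* (F ≃⋆ₐ[ℂ] F)} (hG : Vale.Agent.P184.IsAmenable G) (h : McD σ)
    (K : Finset G) (ε : ℝ) (hε : 0 < ε) :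
    ∃ (D : Type) (_ : CStarAlgebra D) (β : G →* (D ≃⋆ₐ[ℂ] D))
      (ι : D →⋆ₐ[ℂ] F) (v : D), Eqv β σ ι ∧ ‖v‖ ≤ 1 ∧ (∀ g ∈ K, ‖β g v - v‖ ≤ ε) ∧
        ∀ ρ : D →ₗ[ℂ] ℂ, Tr ρ → Q ρ (v * v) ≤ ε ∧ Q ρ (1 - star v * v - v * star v) ≤ ε := by
  classical
  obtain ⟨L, k, hL, hk⟩ := folner hG K (ε / 2) (half_pos hε)
  have L0 : (0 : ℝ) < L := Nat.cast_pos.2 hL
  have h4 : (1 : ℝ) ≤ 4 ^ L := one_le_pow₀ (by norm_num)
  have d0 : 0 < ε / (34 * 4 ^ L) := by positivity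
  obtain ⟨D, _, _, β, ι, v, h1, h2, h3⟩ := h (univ.image k) _ d0
  have nm : ∀ g : G, ‖β g v‖ = ‖v‖ := fun g => StarAlgEquiv.norm_map (β g) v
  have w1 : ‖(L : ℝ)⁻¹ • ∑ l, β (k l) v‖ ≤ 1 := by
    rw [norm_smul, Real.norm_eq_abs, abs_of_pos (inv_pos.2 L0), inv_mul_le_iff₀ L0]
    refine (norm_sum_le _ _).trans ?_
    simp only [nm, Finset.sum_const, card_univ, Fintype.card_fin, nsmul_eq_mul]
    exact mul_le_mul_of_nonneg_left h2 L0.le
  refine ⟨D, _, β, ι, (L : ℝ)⁻¹ • ∑ l, β (k l) v, h1, w1, fun g hg => ?_, fun ρ hρ => ?_⟩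
  · obtain ⟨J, φ, a1, a2, a3⟩ := hk g hg
    have := NORM.shift β v k g J φ a1 a2
    rw [← Complex.coe_smul, map_smul, ← smul_sub, norm_smul, Complex.norm_real, Real.norm_eq_abs,
      abs_of_pos (inv_pos.2 L0), inv_mul_le_iff₀ L0]
    have a4 : 0 ≤ (L : ℝ) - J.card := by
      have : J.card ≤ L := by simpa using J.card_le_univ
      exact sub_nonneg.2 (Nat.cast_le.2 this)
    nlinarith [mul_le_mul_of_nonneg_left h2 a4]
  · obtain ⟨b1, b2, b3⟩ := h3 ρ hρ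
    rw [sq_eq] at b2
    obtain ⟨c1, c2⟩ := pert hρ h2 w1
    have e : v - (L : ℝ)⁻¹ • ∑ l, β (k l) v
        = (-(L : ℝ)⁻¹ • (1 : D)) * ∑ l, (β (k l) v - v) := by
      rw [smul_mul_assoc, one_mul, Finset.sum_sub_distrib, Finset.sum_const, card_univ,
        Fintype.card_fin, smul_sub, ← Nat.cast_smul_eq_nsmul ℝ, smul_smul, neg_mul,
        inv_mul_cancel₀ L0.ne', neg_smul, neg_smul, one_smul]
      abel
    have n1 : ‖-(L : ℝ)⁻¹ • (1 : D)‖ ≤ 1 := by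
      rw [norm_smul, norm_neg, Real.norm_eq_abs, abs_of_pos (inv_pos.2 L0)]
      exact mul_le_one₀ (inv_le_one_of_one_le₀ (Nat.one_le_cast.2 hL)) (norm_nonneg _)
        (EXPx.norm_le_one (one_mem _))
    have c3 := (Q_l hρ n1 _).trans (Q_sum hρ univ (fun l => β (k l) v - v) d0.le fun l _ =>
      b3 _ (mem_image_of_mem k (mem_univ l)))
    rw [← e, card_univ, Fintype.card_fin] at c3
    have c4 : 4 ^ L * (ε / (34 * 4 ^ L)) = ε / 34 := by field_simp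
    have c5 : ε / (34 * 4 ^ L) ≤ ε / 34 := by
      rw [← c4]
      exact le_mul_of_one_le_left d0.le h4
    have b1' : Q ρ (v * v) ≤ ε / (34 * 4 ^ L) := b1
    constructor <;> linarith

open FIN in
theorem mcA [Nontrivial A] {q : Linf A →⋆ₐ[ℂ] E} (hq : IsUlt ω q)
    (α : G →* (A ≃⋆ₐ[ℂ] A)) {σ : G →* (Cen q (id : A → A) ≃⋆ₐ[ℂ] Cen q (id : A → A))}
    (hσ : ∀ g x (hx : q x ∈ Cen q (id : A → A)),
      (σ g ⟨q x, hx⟩ : E) = q (Z2.mapL (α g : A →⋆ₐ[ℂ] A) x))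
    (hG : Vale.Agent.P184.IsAmenable G) (h : McD σ)
    (X : Finset A) (K : Finset G) (ε : ℝ) (hε : 0 < ε) :
    ∃ v : A, ‖v‖ ≤ 1 ∧ (∀ a ∈ X, ‖v * a - a * v‖ < ε) ∧ (∀ g ∈ K, ‖α g v - v‖ < ε) ∧
      ∀ τ : A →ₗ[ℂ] ℂ, Tr τ → Q τ (v * v) < ε ∧ Q τ (1 - star v * v - v * star v) < ε := by
  classical
  obtain ⟨D, _, β, ι, v, h1, h2, h3, h4⟩ := mcN hG h K _ (half_pos hε)
  let j : D →⋆ₐ[ℂ] E := (Cen q (id : A → A)).subtype.comp ι
  have hj : ∀ d, j d = (ι d : E) := fun d => rfl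
  obtain ⟨x, hx⟩ := hq.surj (j v)
  have xn : ‖q x‖ ≤ 1 := hx ▸ (NonUnitalStarAlgHom.norm_apply_le j v).trans h2
  have m0 : ∀ m, (0 : ℝ) < max 1 ‖x m‖ := fun m => lt_of_lt_of_le one_pos (le_max_left _ _)
  have y1 : ∀ m, ‖(max 1 ‖x m‖)⁻¹ • x m‖ ≤ 1 := fun m => by
    rw [norm_smul, Real.norm_eq_abs, abs_of_pos (inv_pos.2 (m0 m)), inv_mul_le_iff₀ (m0 m),
      mul_one]
    exact le_max_right _ _
  let y : Linf A := U1.bd (fun m => (max 1 ‖x m‖)⁻¹ • x m) 1 y1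
  have hy : q y = j v := by
    rw [← hx]
    refine (U1.eq_iff hq _ _).2 ?_
    have t1 : Tendsto (fun m => |(max 1 ‖x m‖)⁻¹ - 1| * ‖x m‖) ω
        (𝓝 (|(max 1 ‖q x‖)⁻¹ - 1| * ‖q x‖)) :=
      ((((tendsto_const_nhds.max (hq.norm x)).inv₀
        (lt_of_lt_of_le one_pos (le_max_left _ _)).ne').sub_const 1).abs).mul (hq.norm x)
    rw [max_eq_left xn, inv_one, sub_self, abs_zero, zero_mul] at t1
    refine t1.congr fun m => ?_
    show _ = ‖(max 1 ‖x m‖)⁻¹ • x m - x m‖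
    rw [← Real.norm_eq_abs, ← norm_smul, sub_smul, one_smul]
  have cm : ∀ (a : A) d, Commute (q (cst A a)) (j d) :=
    fun a d => ((StarSubalgebra.mem_centralizer_iff ℂ).1 (ι d).2 _ ⟨a, rfl⟩).1
  have a2 : ∀ᶠ m in (ω : Filter ℕ), ∀ a ∈ X, ‖y m * a - a * y m‖ < ε :=
    (eventually_all_finset X).2 fun a _ => by
      have : q (y * cst A a) = q (cst A a * y) := by
        rw [map_mul, map_mul, hy]
        exact (cm a _).eq.symm
      exact ((U1.eq_iff hq _ _).1 this).eventually (gt_mem_nhds hε)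
  have a4 : ∀ᶠ m in (ω : Filter ℕ), ∀ g ∈ K, ‖α g (y m) - y m‖ < ε :=
    (eventually_all_finset K).2 fun g hg => by
      have c2 : q (Z2.mapL (α g : A →⋆ₐ[ℂ] A) y - y) = j (β g v - v) := by
        have m : q y ∈ Cen q (id : A → A) := by rw [hy]; exact (ι v).2
        have m' : (⟨q y, m⟩ : Cen q (id : A → A)) = ι v := Subtype.ext hy
        rw [map_sub, map_sub, ← hσ g _ m, m', hy, hj (β g _), h1 g]
      have c3 : ‖q (Z2.mapL (α g : A →⋆ₐ[ℂ] A) y - y)‖ < ε := by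
        rw [c2]
        exact ((NonUnitalStarAlgHom.norm_apply_le j _).trans (h3 g hg)).trans_lt (half_lt_self hε)
      exact (hq.norm _).eventually (gt_mem_nhds c3)
  have a3 : ∀ᶠ m in (ω : Filter ℕ), ∀ τ : A →ₗ[ℂ] ℂ, Tr τ →
      Q τ (y m * y m) < ε ∧ Q τ (1 - star (y m) * y m - y m * star (y m)) < ε := by
    by_contra hb
    rw [← Ultrafilter.eventually_not] at hb
    obtain ⟨m0, hm0⟩ := hb.exists
    obtain ⟨τ0, hτ0⟩ := not_forall.1 hm0
    have t0 : Tr τ0 := (Classical.not_imp.1 hτ0).1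
    have ch : ∀ m, ∃ τ : A →ₗ[ℂ] ℂ, Tr τ ∧ ((¬ ∀ τ : A →ₗ[ℂ] ℂ, Tr τ →
        Q τ (y m * y m) < ε ∧ Q τ (1 - star (y m) * y m - y m * star (y m)) < ε) →
        ¬ (Q τ (y m * y m) < ε ∧ Q τ (1 - star (y m) * y m - y m * star (y m)) < ε)) := fun m => by
      by_cases hm : ∀ τ : A →ₗ[ℂ] ℂ, Tr τ →
          Q τ (y m * y m) < ε ∧ Q τ (1 - star (y m) * y m - y m * star (y m)) < ε
      · exact ⟨τ0, t0, fun h => absurd hm h⟩
      · obtain ⟨τ, hτ⟩ := not_forall.1 hm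
        exact ⟨τ, (Classical.not_imp.1 hτ).1, fun _ => (Classical.not_imp.1 hτ).2⟩
    choose τ hτ hτ' using ch
    obtain ⟨T, hT, hl⟩ := lim_tr hq τ hτ
    obtain ⟨c1, c2⟩ := h4 _ (hT.comp j)
    have key : ∀ (z : Linf A) (d : D), q z = j d → Q (T ∘ₗ j.toAlgHom.toLinearMap) d ≤ ε / 2 →
        ∀ᶠ m in (ω : Filter ℕ), Q (τ m) (z m) < ε := fun z d e hd => by
      have t := (Complex.continuous_re.tendsto _).comp (hl (star z * z))
      have e2 : (T (q (star z * z))).re < ε := by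
        rw [map_mul, map_star, e, ← map_star, ← map_mul]
        exact lt_of_le_of_lt hd (half_lt_self hε)
      exact t.eventually (gt_mem_nhds e2)
    have b1 := key (y * y) _ (by rw [map_mul, map_mul, hy]) c1
    have b2 := key (1 - star y * y - y * star y) _ (by
      simp only [map_sub, map_mul, map_star, map_one, hy]) c2
    obtain ⟨m, b3, b4, b5⟩ := (hb.and (b1.and b2)).exists
    exact hτ' m b3 ⟨b4, b5⟩
  obtain ⟨m, b2, b4, b3⟩ := (a2.and (a4.and a3)).exists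
  exact ⟨y m, y1 m, b2, b4, b3⟩

end SI

end Vale.Agent.P095G
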