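import Vale.Agent.P095G.PartSI1
import Vale.Agent.P095G.DefsSI
import Vale.Agent.P095H.PartC

/-! Property (SI) excludes characters. -/

namespace Vale.Agent.P095G

open Filter Topology Finset Vale.Agent.P101 Vale.Agent.P095H TopologicalSpace

variable {A D : Type} [CStarAlgebra A] [CStarAlgebra D]
  {G : Type} [Group G] {ρ : D →ₗ[ℂ] ℂ} {ω : Ultrafilter ℕ}

namespace SI

open CI

theorem mk_eq [Nontrivial A] (x y : Linf A) :
    mk ω A x = mk ω A y ↔ Tendsto (fun n => ‖x n - y n‖) ω (𝓝 0) :=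
  Ideal.Quotient.eq

theorem mem_iff [Nontrivial A] (α : G →* Aut A) (x : Linf A) :
    mk ω A x ∈ FixCentral ω α ⊤ ↔ CInv ω α x := by
  have key : ∀ a : A, mk ω A (cst A a) * mk ω A x = mk ω A x * mk ω A (cst A a) ↔
      Tendsto (fun n => ‖x n * a - a * x n‖) ω (𝓝 0) := fun a =>
    eq_comm.trans (mk_eq (x * cst A a) (cst A a * x))
  constructor
  · rintro ⟨h1, h2⟩
    refine ⟨fun a => (key a).1 ((StarSubalgebra.mem_centralizer_iff ℂ).1 h1 _ ⟨a, rfl⟩).1,
      fun g => ?_⟩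
    obtain ⟨y, a1, a2⟩ := h2 g (Subgroup.mem_top g)
    have t := ((mk_eq _ _).1 a1).add ((mk_eq _ _).1 a2)
    rw [add_zero] at t
    refine squeeze_zero (fun _ => norm_nonneg _) (fun n => ?_) t
    have e : α g (x n) - x n = -α g (y n - x n) + (α g (y n) - x n) := by
      rw [map_sub]
      abel
    rw [e]
    refine (norm_add_le _ _).trans (add_le_add ?_ le_rfl)
    rw [norm_neg]
    exact (StarAlgEquiv.norm_map (α g) _).le
  · rintro ⟨h1, h2⟩
    refine ⟨(StarSubalgebra.mem_centralizer_iff ℂ).2 ?_, fun g _ => ⟨x, rfl, (mk_eq _ _).2 (h2 g)⟩⟩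
    rintro _ ⟨a, rfl⟩
    exact ⟨(key a).2 (h1 a), (key (star a)).2 (h1 (star a))⟩

theorem ctr_of {x : D} (hx : ‖x‖ ≤ 1) : Ctr (star x * x) := by
  let _ := CStarAlgebra.spectralOrder D
  have _ := CStarAlgebra.spectralOrderedRing D
  refine ⟨IsSelfAdjoint.star_mul_self x, fun t ht => ⟨spectrum_nonneg_of_nonneg
    (star_mul_self_nonneg x) ht, ?_⟩⟩
  rcases subsingleton_or_nontrivial D with h | h
  · simp [spectrum.of_subsingleton] at ht
  · have := spectrum.norm_le_norm_of_mem ht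
    rw [CStarRing.norm_star_mul_self, Real.norm_eq_abs] at this
    nlinarith [le_abs_self t, norm_nonneg x]

theorem ctr_sub {a : D} (ha : Ctr a) : Ctr (1 - a) := by
  have e : 1 - a = cfc (fun t : ℝ => 1 - t) a := by
    rw [cfc_sub _ _ a, cfc_const_one ℝ a ha.1, cfc_id' ℝ a ha.1]
  refine ⟨(IsSelfAdjoint.one D).sub ha.1, ?_⟩
  rw [e, cfc_map_spectrum _ a ha.1]
  rintro _ ⟨t, ht, rfl⟩
  obtain ⟨h1, h2⟩ := ha.2 ht
  exact ⟨by linarith, by linarith⟩

theorem pow_low (h : Tr ρ) {a : D} (ha : Ctr a) (m : ℕ) :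
    (ρ a).re - m * (ρ (a - a * a)).re ≤ (ρ (a ^ m)).re := by
  let _ := CStarAlgebra.spectralOrder D
  have _ := CStarAlgebra.spectralOrderedRing D
  have hs := ha.1
  have e1 : a - (m : ℝ) • (a - a * a) = cfc (fun t : ℝ => t - (m : ℝ) • (t - t * t)) a := by
    rw [cfc_sub _ _ a, cfc_smul _ _ a, cfc_sub _ _ a, cfc_mul _ _ a, cfc_id' ℝ a]
  have e2 : a - (m : ℝ) • (a - a * a) ≤ a ^ m := by
    rw [e1, ← cfc_pow_id (R := ℝ) a m]
    refine cfc_mono fun t ht => ?_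
    obtain ⟨h0, h1⟩ := ha.2 ht
    have h2 : 0 ≤ t - t * t := by nlinarith
    rw [smul_eq_mul]
    induction m with
    | zero => simpa using h1
    | succ k ih =>
      have h3 := mul_le_mul_of_nonneg_left (ih (by
        rw [cfc_sub _ _ a, cfc_smul _ _ a, cfc_sub _ _ a, cfc_mul _ _ a, cfc_id' ℝ a])) h0
      have h4 : 0 ≤ (k : ℝ) * (t - t * t) * (1 - t) :=
        mul_nonneg (mul_nonneg (Nat.cast_nonneg k) h2) (sub_nonneg.2 h1)
      rw [pow_succ']
      push_cast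
      nlinarith
  have := h.mono e2
  rwa [map_sub, Complex.sub_re, Rot.re_smul] at this

theorem large (h : Tr ρ) {v : D} (hv : ‖v‖ ≤ 1) (m : ℕ) {η : ℝ} (h0 : 0 ≤ η)
    (h1 : (2 * m + 1) * η ≤ 1 / 4) (h2 : Q ρ (v * v) ≤ η ^ 2)
    (h3 : Q ρ (1 - star v * v - v * star v) ≤ η ^ 2) :
    1 / 4 ≤ (ρ ((star v * v) ^ m)).re ∧ 1 / 4 ≤ (ρ ((1 - star v * v) ^ m)).re := by
  have ha := ctr_of hv
  have m0 : (0 : ℝ) ≤ m := Nat.cast_nonneg m
  have η1 : η ≤ 1 := by nlinarith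
  have cs : ∀ x : D, ‖x‖ ≤ 1 → |(ρ (star x * (1 - star v * v - v * star v))).re| ≤ η := by
    intro x hx
    have c1 := h.cs x (1 - star v * v - v * star v)
    have c2 : Q ρ x ≤ 1 := (Q_le h x).trans (pow_le_one₀ (norm_nonneg _) hx)
    have c3 : ‖ρ (star x * (1 - star v * v - v * star v))‖ ^ 2 ≤ η ^ 2 :=
      c1.trans ((mul_le_of_le_one_left (Q_nonneg h _) c2).trans h3)
    exact (Complex.abs_re_le_norm _).trans (abs_le_of_sq_le_sq' c3 h0).2
  have a1 := abs_le.1 (cs 1 (EXPx.norm_le_one (one_mem _)))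
  rw [star_one, one_mul, map_sub, map_sub, h.one, h.comm v, Complex.sub_re, Complex.sub_re,
    Complex.one_re] at a1
  have a2 := abs_le.1 (cs (star v * v) (by
    rw [CStarRing.norm_star_mul_self]
    nlinarith [norm_nonneg v]))
  have e1 : star v * v - star v * v * (star v * v) =
      star (star v * v) * (1 - star v * v - v * star v) + star v * (v * v) * star v := by
    rw [star_mul, star_star]
    noncomm_ring
  have e2 : (ρ (star v * (v * v) * star v)).re = Q ρ (v * v) := by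
    rw [h.comm, Q, star_mul, mul_assoc]
  have a3 : (ρ (star v * v - star v * v * (star v * v))).re ≤ 2 * η := by
    rw [e1, map_add, Complex.add_re, e2]
    nlinarith
  have a4 := mul_le_mul_of_nonneg_left a3 m0
  have b1 := pow_low h ha m
  have b2 := pow_low h (ctr_sub ha) m
  have e3 : 1 - star v * v - (1 - star v * v) * (1 - star v * v) =
      star v * v - star v * v * (star v * v) := by noncomm_ring
  rw [e3, map_sub ρ 1, h.one, Complex.sub_re, Complex.one_re] at b2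
  constructor <;> nlinarith

theorem nochar (hω : (ω : Filter ℕ) ≤ cofinite) [Nontrivial A] [SeparableSpace A] [Countable G]
    (α : G →* Aut A) (hS : EqSI ω α)
    (h : ∀ (X : Finset A) (K : Finset G) (ε : ℝ), 0 < ε →
      ∃ v : A, ‖v‖ ≤ 1 ∧ (∀ a ∈ X, ‖v * a - a * v‖ < ε) ∧ (∀ g ∈ K, ‖α g v - v‖ < ε) ∧
      ∀ τ : A →ₗ[ℂ] ℂ, Tr τ → Q τ (v * v) < ε ∧ Q τ (1 - star v * v - v * star v) < ε) :
    IsEmpty (FixCentral ω α ⊤ →⋆ₐ[ℂ] ℂ) := by
  classical
  obtain ⟨k, hk⟩ := exists_surjective_nat G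
  choose v v1 v2 v3 v4 using fun n : ℕ => h ((range (n + 1)).image (denseSeq A))
    ((range (n + 1)).image k) (1 / ((n : ℝ) + 1)) Nat.one_div_pos_of_nat
  have hω' : (ω : Filter ℕ) ≤ atTop := Nat.cofinite_eq_atTop ▸ hω
  have t0 : Tendsto (fun n : ℕ => 1 / ((n : ℝ) + 1)) ω (𝓝 0) :=
    (tendsto_one_div_add_atTop_nhds_zero_nat (𝕜 := ℝ)).mono_left hω'
  have ev : ∀ ε : ℝ, 0 < ε → ∀ᶠ n : ℕ in (ω : Filter ℕ), 1 / ((n : ℝ) + 1) < ε := fun ε hε =>
    t0.eventually (gt_mem_nhds hε)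
  let y : Linf A := U1.bd v 1 v1
  have hy : CInv ω α y := by
    refine ⟨fun a => Metric.tendsto_nhds.2 fun ε hε => ?_, fun g => ?_⟩
    · obtain ⟨i, hi⟩ := (denseRange_denseSeq A).exists_dist_lt a (show 0 < ε / 3 by positivity)
      rw [dist_eq_norm] at hi
      filter_upwards [ev (ε / 3) (by positivity), hω' (eventually_ge_atTop i)] with n h1 h2
      have h3 := v2 n _ (mem_image_of_mem _ (mem_range.2 (Nat.lt_succ_of_le h2)))
      rw [dist_zero_right, norm_norm]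
      show ‖v n * a - a * v n‖ < ε
      have e : v n * a - a * v n = (v n * denseSeq A i - denseSeq A i * v n) +
          (v n * (a - denseSeq A i) - (a - denseSeq A i) * v n) := by noncomm_ring
      have h4 := norm_mul_le (v n) (a - denseSeq A i)
      have h5 := norm_mul_le (a - denseSeq A i) (v n)
      have h6 := norm_sub_le (v n * (a - denseSeq A i)) ((a - denseSeq A i) * v n)
      have h7 := mul_le_mul_of_nonneg_right (v1 n) (norm_nonneg (a - denseSeq A i))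
      rw [e]
      refine (norm_add_le _ _).trans_lt ?_
      linarith
    · obtain ⟨i, rfl⟩ := hk g
      refine squeeze_zero' (Eventually.of_forall fun _ => norm_nonneg _) ?_ t0
      filter_upwards [hω' (eventually_ge_atTop i)] with n h2
      exact (v3 n _ (mem_image_of_mem _ (mem_range.2 (Nat.lt_succ_of_le h2)))).le
  refine ⟨fun χ => ?_⟩
  let V : FixCentral ω α ⊤ := ⟨mk ω A y, (mem_iff α y).2 hy⟩
  have lg : ∀ m : ℕ, ∀ᶠ n in (ω : Filter ℕ), ∀ τ : A →ₗ[ℂ] ℂ, Tr τ →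
      1 / 4 ≤ (τ ((star (v n) * v n) ^ m)).re ∧ 1 / 4 ≤ (τ ((1 - star (v n) * v n) ^ m)).re := by
    intro m
    have p0 : (0 : ℝ) < 1 / (4 * (2 * m + 1)) := by positivity
    filter_upwards [ev _ (pow_pos p0 2)] with n hn τ hτ
    refine large hτ (v1 n) m p0.le (le_of_eq ?_) ((v4 n τ hτ).1.trans hn).le
      ((v4 n τ hτ).2.trans hn).le
    field_simp
  have use : ∀ (e f : Linf A) (e' f' : FixCentral ω α ⊤), mk ω A e = e' → mk ω A f = f' →
      (∀ n, Ctr (e n)) → (∀ n, Ctr (f n)) →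
      (∀ ε : ℝ, 0 < ε → ∀ᶠ n in (ω : Filter ℕ), ∀ τ : A →ₗ[ℂ] ℂ, Tr τ → (τ (e n)).re ≤ ε) →
      (∀ m : ℕ, ∀ᶠ n in (ω : Filter ℕ), ∀ τ : A →ₗ[ℂ] ℂ, Tr τ → 1 / 4 ≤ (τ (f n ^ m)).re) →
      χ e' ≠ 0 → χ f' = 1 := by
    intro e f e' f' he hf c1 c2 c3 c4 h0
    obtain ⟨s, s1, s2, s3⟩ := hS e f ((mem_iff α e).1 (he ▸ e'.2)) ((mem_iff α f).1 (hf ▸ f'.2))
      c1 c2 c3 ⟨1 / 4, by norm_num, c4⟩
    let S : FixCentral ω α ⊤ := ⟨mk ω A s, (mem_iff α s).2 s1⟩
    have d1 : star S * S = e' := Subtype.ext (((mk_eq (star s * s) e).2 s2).trans he)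
    have d2 : f' * S = S := Subtype.ext (by
      have := (mk_eq (ω := ω) (f * s) s).2 s3
      show (f' : Ult ω A) * mk ω A s = mk ω A s
      rw [← hf]
      exact this)
    have d3 : χ S ≠ 0 := fun d => h0 (by rw [← d1, map_mul, d, mul_zero])
    have d4 := congrArg χ d2
    rw [map_mul] at d4
    exact mul_right_cancel₀ d3 (by rw [d4, one_mul])
  have kill : ∀ (z : Linf A) (z' : FixCentral ω α ⊤), mk ω A z = z' → (∀ n, ‖z n‖ ≤ 1) →
      (∀ n, ∀ τ : A →ₗ[ℂ] ℂ, Tr τ → Q τ (z n) < 1 / ((n : ℝ) + 1)) → χ z' = 0 := by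
    intro z z' hz z1 z2
    by_contra h0
    have h1 : χ (star z' * z') ≠ 0 := by
      rw [map_mul, map_star]
      exact mul_ne_zero (star_ne_zero.2 h0) h0
    have he : mk ω A (star z * z) = (star z' * z' : FixCentral ω α ⊤) := by
      show _ = star (z' : Ult ω A) * z'
      rw [← hz]
      rfl
    have nu : ∀ ε : ℝ, 0 < ε → ∀ᶠ n in (ω : Filter ℕ), ∀ τ : A →ₗ[ℂ] ℂ, Tr τ →
        (τ ((star z * z) n)).re ≤ ε := fun ε hε =>
      (ev ε hε).mono fun n hn τ hτ => ((z2 n τ hτ).trans hn).le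
    have a1 := use (star z * z) (star y * y) _ (star V * V) he rfl (fun n => ctr_of (z1 n))
      (fun n => ctr_of (v1 n)) nu (fun m => (lg m).mono fun n hn τ hτ => (hn τ hτ).1) h1
    have a2 := use (star z * z) (1 - star y * y) _ (1 - star V * V) he rfl (fun n => ctr_of (z1 n))
      (fun n => ctr_sub (ctr_of (v1 n))) nu (fun m => (lg m).mono fun n hn τ hτ => (hn τ hτ).2) h1
    rw [map_sub, map_one, a1, sub_self] at a2
    exact zero_ne_one a2
  have k1 := kill (y * y) (V * V) rfl (fun n => (norm_mul_le (v n) (v n)).trans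
    (mul_le_one₀ (v1 n) (norm_nonneg _) (v1 n))) fun n τ hτ => (v4 n τ hτ).1
  have n3 : ‖((3 : ℂ)⁻¹ • (1 : A))‖ ≤ 1 / 3 := by
    rw [norm_smul, norm_one]
    simp
  have k2 := kill ((3 : ℂ)⁻¹ • (1 - star y * y - y * star y))
    ((3 : ℂ)⁻¹ • (1 - star V * V - V * star V)) rfl (fun n => by
      show ‖(3 : ℂ)⁻¹ • (1 - star (v n) * v n - v n * star (v n))‖ ≤ 1
      have b1 := norm_sub_le (1 - star (v n) * v n) (v n * star (v n))
      have b2 := norm_sub_le 1 (star (v n) * v n)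
      rw [CStarRing.norm_self_mul_star] at b1
      rw [CStarRing.norm_star_mul_self, norm_one] at b2
      rw [norm_smul]
      have b3 : ‖(3 : ℂ)⁻¹‖ = 1 / 3 := by simp
      rw [b3]
      nlinarith [v1 n, norm_nonneg (v n)]) fun n τ hτ => by
      refine lt_of_le_of_lt ?_ (v4 n τ hτ).2
      show Q τ ((3 : ℂ)⁻¹ • (1 - star (v n) * v n - v n * star (v n))) ≤ _
      rw [← one_mul (1 - star (v n) * v n - v n * star (v n)), ← smul_mul_assoc, one_mul]
      exact Q_l hτ (n3.trans (by norm_num)) _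
  rw [map_mul, mul_self_eq_zero] at k1
  rw [map_smul, map_sub, map_sub, map_mul, map_mul, k1, map_one] at k2
  simp at k2

end SI

end Vale.Agent.P095G
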