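import Vale.Agent.P095G.Work
import Vale.Agent.P101.PartT

/-! Part TR: trace toolkit. -/

namespace Vale.Agent.P095G

open Filter Topology Finset Vale.Agent.P101 Vale.Agent.P095 TopologicalSpace

variable {A D E F : Type} [CStarAlgebra A] [CStarAlgebra D] [CStarAlgebra E] [CStarAlgebra F]
  {G : Type} [Group G] {ρ : D →ₗ[ℂ] ℂ} {ω : Ultrafilter ℕ}

theorem Tr.comp (h : Tr ρ) (φ : E →⋆ₐ[ℂ] D) : Tr (ρ ∘ₗ φ.toAlgHom.toLinearMap) :=
  ⟨(congrArg ρ (map_one φ)).trans h.one, fun x => by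
    have e : (ρ ∘ₗ φ.toAlgHom.toLinearMap) (star x * x) = ρ (star (φ x) * φ x) :=
      congrArg ρ ((map_mul φ _ _).trans (by rw [map_star]))
    rw [e]
    exact h.pos _, fun x y => (congrArg ρ (map_mul φ x y)).trans
      ((h.comm _ _).trans (congrArg ρ (map_mul φ y x).symm))⟩

theorem Tr.nonneg [PartialOrder D] [StarOrderedRing D] (h : Tr ρ) {a : D} (ha : 0 ≤ a) :
    0 ≤ (ρ a).re ∧ (ρ a).im = 0 := by
  have := h.pos (CFC.sqrt a)
  rwa [(CFC.sqrt_nonneg a).isSelfAdjoint.star_eq, CFC.sqrt_mul_sqrt_self a] at this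

theorem Tr.mono [PartialOrder D] [StarOrderedRing D] (h : Tr ρ) {a b : D} (hab : a ≤ b) :
    (ρ a).re ≤ (ρ b).re := by
  have := (h.nonneg (sub_nonneg.2 hab)).1
  rwa [map_sub, Complex.sub_re, sub_nonneg] at this

theorem Tr.map_star' (h : Tr ρ) (x : D) : ρ (star x) = star (ρ x) := by
  have h0 := (h.pos x).2
  have h1 := (h.pos (1 + x)).2
  have h2 := (h.pos (Complex.I • 1 + x)).2
  simp only [star_add, star_one, add_mul, mul_add, one_mul, mul_one, map_add, h.one, star_smul,
    smul_mul_assoc, mul_smul_comm, map_smul, smul_eq_mul, Complex.add_im, Complex.mul_im,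
    Complex.one_im, Complex.one_re, h0, RCLike.star_def, Complex.conj_I, Complex.neg_re,
    Complex.neg_im, Complex.I_re, Complex.I_im, Complex.mul_re] at h1 h2
  refine Complex.ext ?_ ?_
  · rw [RCLike.star_def, Complex.conj_re]; linarith
  · rw [RCLike.star_def, Complex.conj_im]; linarith

theorem Tr.cs (h : Tr ρ) (x y : D) :
    ‖ρ (star x * y)‖ ^ 2 ≤ (ρ (star x * x)).re * (ρ (star y * y)).re := by
  obtain ⟨c, hc⟩ : ∃ c, c = ρ (star x * y) := ⟨_, rfl⟩
  have e : ρ (star y * x) = star c := by rw [hc, ← h.map_star', star_mul, star_star]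
  have key : ∀ t : ℝ, 0 ≤ (ρ (star x * x)).re * ‖c‖ ^ 2 * (t * t) + (2 * ‖c‖ ^ 2) * t +
      (ρ (star y * y)).re := fun t => by
    have h1 := (h.pos (((t : ℂ) * c) • x + y)).1
    simp only [star_add, star_smul, add_mul, mul_add, smul_mul_assoc, mul_smul_comm, map_add,
      map_smul, smul_eq_mul, e, ← hc, Complex.add_re, Complex.mul_re, Complex.mul_im,
      RCLike.star_def, map_mul, Complex.conj_ofReal, Complex.conj_re, Complex.conj_im,
      Complex.ofReal_re, Complex.ofReal_im, (h.pos x).2] at h1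
    rw [Complex.sq_norm, Complex.normSq_apply]
    nlinarith
  have h2 := discrim_le_zero key
  rw [discrim] at h2
  rw [← hc]
  rcases (sq_nonneg ‖c‖).eq_or_lt with h3 | h3
  · rw [← h3]
    exact mul_nonneg (h.pos x).1 (h.pos y).1
  · nlinarith

theorem Tr.norm_le (h : Tr ρ) (x : D) : ‖ρ x‖ ≤ ‖x‖ := by
  let _ := CStarAlgebra.spectralOrder D
  have _ := CStarAlgebra.spectralOrderedRing D
  have h1 := h.cs 1 x
  rw [star_one, one_mul, one_mul, h.one, Complex.one_re, one_mul] at h1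
  have h2 := h.mono (IsSelfAdjoint.star_mul_self x).le_algebraMap_norm_self
  rw [Algebra.algebraMap_eq_smul_one, ← Complex.coe_smul, map_smul, h.one, smul_eq_mul, mul_one,
    Complex.ofReal_re, CStarRing.norm_star_mul_self, ← sq] at h2
  exact (pow_le_pow_iff_left₀ (norm_nonneg _) (norm_nonneg _) two_ne_zero).1 (h1.trans h2)

theorem Tr.mul_le [PartialOrder D] [StarOrderedRing D] (h : Tr ρ) (x : D) {a : D} (ha : 0 ≤ a) :
    ‖ρ (x * a)‖ ≤ ‖x‖ * (ρ a).re := by
  have hs := (CFC.sqrt_nonneg a).isSelfAdjoint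
  have e := CFC.sqrt_mul_sqrt_self a
  generalize CFC.sqrt a = s at hs e
  have h1 := h.cs s (x * s)
  have h2 := h.mono (CStarAlgebra.star_left_conjugate_le_norm_smul (a := s) (b := star x * x))
  rw [hs.star_eq, e, ← Complex.coe_smul, map_smul, smul_eq_mul, Complex.re_ofReal_mul,
    CStarRing.norm_star_mul_self] at h2
  rw [hs.star_eq, e, h.comm, mul_assoc, e, star_mul, hs.star_eq,
    show s * star x * (x * s) = s * (star x * x) * s by simp only [mul_assoc]] at h1
  have h0 := (h.nonneg ha).1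
  refine (pow_le_pow_iff_left₀ (norm_nonneg _) (by positivity) two_ne_zero).1 (h1.trans ?_)
  exact (mul_le_mul_of_nonneg_left h2 h0).trans_eq (by ring)

end Vale.Agent.P095G
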