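import Vale.Agent.P095G.WorkN

/-! Uniform continuity of the functional calculus. -/

namespace Vale.Agent.P095G

open Filter Topology Finset Vale.Agent.P101 Vale.Agent.P095 TopologicalSpace

namespace UC

lemma pw (R : ℝ) (n : ℕ) : ∃ C : ℝ, 0 ≤ C ∧ ∀ (D : Type) [CStarAlgebra D] (a b : D), ‖a‖ ≤ R →
    ‖b‖ ≤ R → ‖a ^ n‖ ≤ C ∧ ‖a ^ n - b ^ n‖ ≤ C * ‖a - b‖ := by
  induction n with
  | zero =>
    refine ⟨1, zero_le_one, fun D _ a b _ _ => ⟨?_, by simp⟩⟩
    rw [pow_zero]
    rcases subsingleton_or_nontrivial D with h | h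
    · rw [Subsingleton.elim (1 : D) 0, norm_zero]
      exact zero_le_one
    · exact norm_one.le
  | succ n ih =>
    obtain ⟨C, hC, h⟩ := ih
    refine ⟨C * |R| + C, by positivity, fun D _ a b ha hb => ?_⟩
    have h1 := h D a b ha hb
    have ha' := ha.trans (le_abs_self R)
    have hb' := hb.trans (le_abs_self R)
    constructor
    · rw [pow_succ]
      exact (norm_mul_le _ _).trans ((mul_le_mul h1.1 ha' (norm_nonneg _) hC).trans
        (le_add_of_nonneg_right hC))
    · have e : a ^ (n + 1) - b ^ (n + 1) = (a ^ n - b ^ n) * b + a ^ n * (a - b) := by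
        rw [pow_succ, pow_succ]; noncomm_ring
      rw [e]
      refine (norm_add_le _ _).trans ((add_le_add ((norm_mul_le _ _).trans
        (mul_le_mul h1.2 hb' (norm_nonneg _) (by positivity))) ((norm_mul_le _ _).trans
        (mul_le_mul_of_nonneg_right h1.1 (norm_nonneg _)))).trans_eq (by ring))

lemma poly (R : ℝ) (p : Polynomial ℝ) : ∃ C : ℝ, 0 ≤ C ∧ ∀ (D : Type) [CStarAlgebra D] (a b : D),
    ‖a‖ ≤ R → ‖b‖ ≤ R → ‖Polynomial.aeval a p - Polynomial.aeval b p‖ ≤ C * ‖a - b‖ := by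
  induction p using Polynomial.induction_on' with
  | add p q hp hq =>
    obtain ⟨C, hC, h⟩ := hp
    obtain ⟨C', hC', h'⟩ := hq
    refine ⟨C + C', by positivity, fun D _ a b ha hb => ?_⟩
    rw [map_add, map_add, add_sub_add_comm, add_mul]
    exact (norm_add_le _ _).trans (add_le_add (h D a b ha hb) (h' D a b ha hb))
  | monomial n c =>
    obtain ⟨C, hC, h⟩ := pw R n
    refine ⟨‖c‖ * C, by positivity, fun D _ a b ha hb => ?_⟩
    rw [Polynomial.aeval_monomial, Polynomial.aeval_monomial, ← mul_sub, ← Algebra.smul_def,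
      norm_smul, mul_assoc]
    exact mul_le_mul_of_nonneg_left (h D a b ha hb).2 (norm_nonneg c)

lemma near {D : Type} [CStarAlgebra D] {g : ℝ → ℝ} (hg : Continuous g) {R ε : ℝ} (hε : 0 ≤ ε)
    {p : Polynomial ℝ} (hp : ∀ x ∈ Set.Icc (-R) R, |p.eval x - g x| < ε) {a : D}
    (ha : IsSelfAdjoint a) (h : ‖a‖ ≤ R) : ‖Polynomial.aeval a p - cfc g a‖ ≤ ε := by
  rcases subsingleton_or_nontrivial D with h0 | h0
  · rw [Subsingleton.elim (_ - _ : D) 0, norm_zero]
    exact hε
  rw [← cfc_polynomial p a, ← cfc_sub _ _ a]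
  exact norm_cfc_le hε fun x hx => (hp x (abs_le.1
    ((spectrum.norm_le_norm_of_mem hx).trans h))).le

end UC

open UC in
theorem cfc_uc (g : ℝ → ℝ) (hg : Continuous g) (R ε : ℝ) (hε : 0 < ε) : ∃ δ : ℝ, 0 < δ ∧
    ∀ (D : Type) [CStarAlgebra D] (a b : D), IsSelfAdjoint a → IsSelfAdjoint b → ‖a‖ ≤ R →
      ‖b‖ ≤ R → ‖a - b‖ ≤ δ → ‖cfc g a - cfc g b‖ ≤ ε := by
  obtain ⟨p, hp⟩ := exists_polynomial_near_of_continuousOn (-R) R g hg.continuousOn (ε / 3)
    (by positivity)
  obtain ⟨C, hC, h⟩ := poly R p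
  refine ⟨ε / 3 / (C + 1), by positivity, fun D _ a b ha hb h1 h2 h3 => ?_⟩
  have a1 := near hg (by positivity) hp ha h1
  have a2 := near hg (by positivity) hp hb h2
  have a3 := h D a b h1 h2
  rw [le_div_iff₀ (by positivity)] at h3
  have e : cfc g a - cfc g b = (Polynomial.aeval a p - Polynomial.aeval b p) +
      (Polynomial.aeval b p - cfc g b) - (Polynomial.aeval a p - cfc g a) := by abel
  rw [e]
  refine (norm_sub_le _ _).trans ((add_le_add (norm_add_le _ _) le_rfl).trans ?_)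
  nlinarith [norm_nonneg (a - b)]

end Vale.Agent.P095G
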