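import Vale.Agent.P095G.Defs
import Vale.Agent.P095.Work

/-! Working definitions for equivariant property Gamma. -/

namespace Vale.Agent.P095G

open Vale.Agent.P101 TopologicalSpace

variable {F : Type} [CStarAlgebra F] {G : Type} [Group G]

/-- The square root. -/
noncomputable abbrev rt {D : Type} [CStarAlgebra D] (a : D) : D := cfc Real.sqrt a

/-- The exponential unitary. -/
noncomputable abbrev ex {D : Type} [CStarAlgebra D] (t : ℝ) (a : D) : D :=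
  NormedSpace.exp ((t * Complex.I : ℂ) • a)

/-- Equivariant homomorphisms. -/
def Eqv {D E : Type} [CStarAlgebra D] [CStarAlgebra E] (β : G →* (D ≃⋆ₐ[ℂ] D))
    (γ : G →* (E ≃⋆ₐ[ℂ] E)) (ι : D →⋆ₐ[ℂ] E) : Prop := ∀ g d, ι (β g d) = γ g (ι d)

/-- Equivariant commuting copies of separable pieces. -/
def CpG (σ : G →* (F ≃⋆ₐ[ℂ] F)) : Prop :=
  ∀ (D : Type) [CStarAlgebra D] [SeparableSpace D] (β : G →* (D ≃⋆ₐ[ℂ] D)) (ι : D →⋆ₐ[ℂ] F),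
    Eqv β σ ι → ∀ m : ℕ, ∃ (E : Type) (_ : CStarAlgebra E) (_ : SeparableSpace E)
      (γ : G →* (E ≃⋆ₐ[ℂ] E)) (κ : E →⋆ₐ[ℂ] F) (θ : Fin m → D →⋆ₐ[ℂ] E),
      Eqv γ σ κ ∧ (∀ j, Eqv β γ (θ j)) ∧ Cm θ

/-- Small almost invariant elements. -/
def Sm (σ : G →* (F ≃⋆ₐ[ℂ] F)) (S : Subgroup G) : Prop :=
  ∀ n : ℕ, 0 < n → ∀ K : Finset G, (K : Set G) ⊆ S → ∀ ε : ℝ, 0 < ε →
    ∃ (D : Type) (_ : CStarAlgebra D) (_ : SeparableSpace D) (β : G →* (D ≃⋆ₐ[ℂ] D))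
      (ι : D →⋆ₐ[ℂ] F) (p : D), Eqv β σ ι ∧ Ctr p ∧ ∀ ρ : D →ₗ[ℂ] ℂ, Tr ρ →
        1 / (8 * n : ℝ) ≤ (ρ p).re ∧ (ρ (rt p)).re ≤ 2 / n ∧
          ∀ g ∈ K, (ρ ((β g p - p) ^ 2)).re ≤ ε

/-- Almost invariant tracial divisions of the unit. -/
def Gam (σ : G →* (F ≃⋆ₐ[ℂ] F)) (S : Subgroup G) : Prop :=
  ∀ n : ℕ, 0 < n → ∀ K : Finset G, (K : Set G) ⊆ S → ∀ ε : ℝ, 0 < ε →
    ∃ (D : Type) (_ : CStarAlgebra D) (_ : SeparableSpace D) (β : G →* (D ≃⋆ₐ[ℂ] D))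
      (ι : D →⋆ₐ[ℂ] F) (e : Fin n → D), Eqv β σ ι ∧ (∀ i, Ctr (e i)) ∧
        (∀ i j, i ≠ j → e i * e j = 0) ∧ ∀ ρ : D →ₗ[ℂ] ℂ, Tr ρ → ∀ i,
          1 / (n : ℝ) - ε ≤ (ρ (e i)).re ∧ ∀ g ∈ K, (ρ ((β g (e i) - e i) ^ 2)).re ≤ ε

/-- Almost invariant finite sets of cosets with very small boundary. -/
def Fol (S N : Subgroup G) : Prop :=
  ∀ K : Finset G, (K : Set G) ⊆ S → ∀ η : ℝ, 0 < η → ∃ (L : ℕ) (h : Fin L → G), 0 < L ∧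
    ∀ g ∈ K, ∃ (J : Finset (Fin L)) (φ : Fin L → Fin L), Set.InjOn φ J ∧
      (∀ i ∈ J, (h (φ i))⁻¹ * g * h i ∈ N) ∧ ((L : ℝ) - J.card) ≤ η * Real.sqrt L

end Vale.Agent.P095G
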