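import Vale.Agent.P095G.Work

/-! Tracial copies of two by two matrices. -/

namespace Vale.Agent.P095G

open Vale.Agent.P101 TopologicalSpace

variable {F : Type} [CStarAlgebra F] {G : Type} [Group G]

/-- An almost invariant matrix unit in the uniform two norm. -/
def McD (σ : G →* (F ≃⋆ₐ[ℂ] F)) : Prop :=
  ∀ K : Finset G, ∀ ε : ℝ, 0 < ε →
    ∃ (D : Type) (_ : CStarAlgebra D) (_ : SeparableSpace D) (β : G →* (D ≃⋆ₐ[ℂ] D))
      (ι : D →⋆ₐ[ℂ] F) (v : D), Eqv β σ ι ∧ ‖v‖ ≤ 1 ∧ ∀ ρ : D →ₗ[ℂ] ℂ, Tr ρ →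
        (ρ (star (v * v) * (v * v))).re ≤ ε ∧ (ρ ((1 - star v * v - v * star v) ^ 2)).re ≤ ε ∧
          ∀ g ∈ K, (ρ (star (β g v - v) * (β g v - v))).re ≤ ε

end Vale.Agent.P095G
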