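import Vale.Agent.P095G.WorkM

/-! Relative tracial copies of two by two matrices. -/

namespace Vale.Agent.P095G

open Vale.Agent.P101 TopologicalSpace

variable {F D : Type} [CStarAlgebra F] [CStarAlgebra D] {G : Type} [Group G]

/-- `-h ≤ x ≤ h`. -/
def Dom (h x : D) : Prop :=
  IsSelfAdjoint x ∧ (∃ y, h - x = star y * y) ∧ ∃ y, h + x = star y * y

/-- Almost invariant anticommuting symmetries under `h`, with errors relative to the trace of `h`. -/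
def RelM (σ : G →* (F ≃⋆ₐ[ℂ] F)) : Prop :=
  ∀ K : Finset G, ∀ ε : ℝ, 0 < ε →
    ∃ (d : ℝ) (D : Type) (_ : CStarAlgebra D) (_ : SeparableSpace D) (β : G →* (D ≃⋆ₐ[ℂ] D))
      (ι : D →⋆ₐ[ℂ] F) (h a b : D), 0 < d ∧ Eqv β σ ι ∧ Ctr h ∧
      (∀ ρ : D →ₗ[ℂ] ℂ, Tr ρ → d ≤ (ρ h).re ∧ ∀ g ∈ K, (ρ ((β g h - h) ^ 2)).re ≤ ε * (ρ h).re) ∧
      ∀ x : D, x = a ∨ x = b ∨ x = (3 / 5 : ℝ) • a + (4 / 5 : ℝ) • b → Dom h x ∧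
        ∀ ρ : D →ₗ[ℂ] ℂ, Tr ρ → (ρ (h - x ^ 2)).re ≤ ε * (ρ h).re ∧
          ∀ g ∈ K, (ρ ((β g x - x) ^ 2)).re ≤ ε * (ρ h).re

end Vale.Agent.P095G
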